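/-
Row 210 (S0432), layer GM (good intermediate points, geodesic test plans): DEFINITIONS.
Architect of the layer: helper666.  Proof text: `git show origin/helper666:docs/R210_GM_plan.md`
(based on `origin/helper928:docs/R210_GM.md`).
-/
import Claimed.Agent.R210.Defs
import Claimed.Agent.R210.CO.Ifc

set_option autoImplicit false

open Claims.C0366 Claims.C0366.WeakHessian
open Set Filter MeasureTheory
open scoped ENNReal NNReal Topology

namespace Claimed.Agent.R210.GM.Defs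

open Claimed.Agent.R210.Defs Claimed.Agent.R210.CO.Ifc

noncomputable section

variable {X : Type*} [MetricSpace X] [MeasurableSpace X] [BorelSpace X]

/-- `(H_D)`: every optimal coupling of `(μ₀, μ₁)` moves points by at most `D`. -/
def gm_HD (μ₀ μ₁ : Measure X) (D : ℝ) : Prop :=
  ∀ q : Measure (X × X), IsOptimalCoupling q μ₀ μ₁ → ∀ᵐ p ∂q, dist p.1 p.2 ≤ D

/-- Aligned triple plan: `Λ` lives on triples `(x₀, z, x₁)`, has marginals `μ₀, ν, μ₁`, its
`(x₀, x₁)`-marginal is optimal and `z` is an `s`-intermediate point of `x₀, x₁`, `Λ`-a.e.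
`∃ Λ, gm_Tri μ₀ μ₁ ν s Λ` is our working definition of "`ν` is an `s`-intermediate point". -/
structure gm_Tri (μ₀ μ₁ ν : Measure X) (s : ℝ) (Λ : Measure (X × X × X)) : Prop where
  m0 : Measure.map (fun p : X × X × X => p.1) Λ = μ₀
  mz : Measure.map (fun p : X × X × X => p.2.1) Λ = ν
  m1 : Measure.map (fun p : X × X × X => p.2.2) Λ = μ₁
  opt : IsOptimalCoupling (Measure.map (fun p : X × X × X => (p.1, p.2.2)) Λ) μ₀ μ₁
  al0 : ∀ᵐ p ∂Λ, dist p.1 p.2.1 = s * dist p.1 p.2.2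
  al1 : ∀ᵐ p ∂Λ, dist p.2.1 p.2.2 = (1 - s) * dist p.1 p.2.2

/-- density constant `M / tau(1-s, D)^N` of GM1, GM3, GM5 -/
def gm_cs (K N s D : ℝ) (M : ℝ≥0) : ℝ≥0 := M * Real.toNNReal (co_tau K N (1 - s) D ^ (-N))

/-- density constant `M cosh(D k / 2)^(N-1)` for midpoints (GM1, GM2) -/
def gm_ch (K N D : ℝ) (M : ℝ≥0) : ℝ≥0 :=
  M * Real.toNNReal (Real.cosh (D * co_k K N / 2) ^ (N - 1))

/-- compression constant `M exp(-K D²/6)` of GM4
(`≥ M ∏ₙ cosh(D k 2^{-n-1})^(N-1)` by `co_prod_cosh_le'`, as `(N-1) k² = -K`) -/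
def gm_cg (K D : ℝ) (M : ℝ≥0) : ℝ≥0 := M * Real.toNNReal (Real.exp (-K * D ^ 2 / 6))

/-- the time `2^{-n}` -/
def gm_half (n : ℕ) : Time :=
  ⟨(1 / 2 : ℝ) ^ n, by positivity, pow_le_one₀ (by norm_num) (by norm_num)⟩

/-! ### surgery -/

/-- normalised first marginal of `f(z) Λ` -/
def gm_hat0 (Λ : Measure (X × X × X)) (f : X → ℝ≥0∞) : Measure X :=
  (∫⁻ p, f p.2.1 ∂Λ)⁻¹ • Measure.map (fun p : X × X × X => p.1) (Λ.withDensity fun p => f p.2.1)

/-- normalised third marginal of `f(z) Λ` -/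
def gm_hat1 (Λ : Measure (X × X × X)) (f : X → ℝ≥0∞) : Measure X :=
  (∫⁻ p, f p.2.1 ∂Λ)⁻¹ • Measure.map (fun p : X × X × X => p.2.2) (Λ.withDensity fun p => f p.2.1)

/-- the set of `s`-intermediate points, as a subset of the space of probability measures -/
def gm_I (μ₀ μ₁ : Measure X) (s : ℝ) : Set (ProbabilityMeasure X) :=
  {ν | ∃ Λ, gm_Tri μ₀ μ₁ (ν : Measure X) s Λ}

/-! ### scale invariant hypotheses on all sub-problems -/

/-- SPREAD with constant `C`: every sub-problem with densities `≤ M₀ t`, `≤ M₁ t` has an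
`s`-intermediate point whose absolutely continuous part charges a set of measure `≥ 1/(t C)`. -/
def gm_SP (m : Measure X) (s D R : ℝ) (o : X) (M₀ M₁ C : ℝ≥0) : Prop :=
  ∀ (t : ℝ≥0) (α β : Measure X), BddDens m α (M₀ * t) o R → BddDens m β (M₁ * t) o R →
    gm_HD α β D → ∃ (σ : Measure X) (Λ : Measure (X × X × X)), gm_Tri α β σ s Λ ∧
      ((t * C : ℝ≥0) : ℝ≥0∞)⁻¹ ≤ m {x | 0 < σ.rnDeriv m x}

/-- GM1 with constant `S` for all sub-problems: densities `≤ M₀ t`, `≤ M₁ t` give an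
`s`-intermediate point with density `≤ t S`. -/
def gm_G1 (m : Measure X) (s D R : ℝ) (o : X) (M₀ M₁ S : ℝ≥0) : Prop :=
  ∀ (t : ℝ≥0) (α β : Measure X), BddDens m α (M₀ * t) o R → BddDens m β (M₁ * t) o R →
    gm_HD α β D → ∃ (σ : Measure X) (Λ : Measure (X × X × X)), gm_Tri α β σ s Λ ∧
      σ ≤ ((t * S : ℝ≥0) : ℝ≥0∞) • m

/-! ### functionals -/

/-- excess mass functional `F_C(ν) = (ν - C m)⁺(X)`, written as a supremum over the family of
all sets `U` with `IsOpen U` (so that it is visibly lower semicontinuous) -/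
def gm_F (m : Measure X) (C : ℝ≥0∞) (ν : Measure X) : ℝ≥0∞ :=
  ⨆ (U : Set X) (_ : IsOpen U), (ν U - C * m U)

/-- the set where the density of `ν` exceeds `C` -/
def gm_P (m : Measure X) (C : ℝ≥0∞) (ν : Measure X) : Set X := {x | C < ν.rnDeriv m x}

/-- integral functional `∫ u(ρ) dm` -/
def gm_U (m : Measure X) (u : ℝ → ℝ) (ν : Measure X) : ℝ := ∫ x, u (rho m ν x) ∂m

/-- admissible entropy densities `u` with derivative `u'` on `(0,∞)` -/
structure gm_UFun (u u' : ℝ → ℝ) : Prop where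
  zero : u 0 = 0
  cont : ContinuousOn u (Set.Ici 0)
  tangent : ∀ x y : ℝ, 0 ≤ x → 0 < y → u y + u' y * (x - y) ≤ u x
  mono : StrictMonoOn u' (Set.Ioi 0)
  cont' : ContinuousOn u' (Set.Ioi 0)
  neg : ∃ δ₀ : ℝ, 0 < δ₀ ∧ ∀ δ, 0 < δ → δ < δ₀ → u' δ ≤ 0

end

end Claimed.Agent.R210.GM.Defs
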