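/-
Row 210 (S0432), layer GM (architect helper666).  Block W, leaf UtilC: weak convergence of probability measures, general facts.
Plan and proofs: `git show origin/helper666:docs/R210_GM_plan.md`.
-/
import Claimed.Agent.R210.GM.Defs

set_option autoImplicit false

open Claims.C0366 Claims.C0366.WeakHessian
open Set Filter MeasureTheory
open scoped ENNReal NNReal Topology

namespace Claimed.Agent.R210.GM.UtilC

open Claimed.Agent.R210.GM.Defs Claimed.Agent.R210.CO.Ifc Claimed.Agent.R210.Defs

noncomputable section

variable {E : Type*} [MetricSpace E] [MeasurableSpace E] [BorelSpace E]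

theorem gm_lsc_open {U : Set E} (hU : IsOpen U) :
    LowerSemicontinuous (fun ν : ProbabilityMeasure E => (ν : Measure E) U) := by
  intro ν
  show LowerSemicontinuousAt _ ν
  rw [lowerSemicontinuousAt_iff_le_liminf]
  exact ProbabilityMeasure.le_liminf_measure_open_of_tendsto (μs := fun ν' => ν') tendsto_id hU

theorem gm_isClosed_null_open {U : Set E} (hU : IsOpen U) :
    IsClosed {ν : ProbabilityMeasure E | (ν : Measure E) U = 0} := by
  have h := (gm_lsc_open hU).isClosed_preimage 0
  have e : {ν : ProbabilityMeasure E | (ν : Measure E) U = 0} =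
      (fun ν : ProbabilityMeasure E => (ν : Measure E) U) ⁻¹' Iic 0 := by
    ext ν
    simp
  rw [e]
  exact h

theorem gm_isCompact_conc {Kc : Set E} (hK : IsCompact Kc) :
    IsCompact {ν : ProbabilityMeasure E | (ν : Measure E) Kcᶜ = 0} := by
  have h := isCompact_setOfPred_probabilityMeasure_mass_eq_compl_isCompact_le (E := E)
    (u := fun _ => 0) (K := fun _ => Kc) tendsto_const_nhds (fun _ => hK) (Or.inr monotone_const)
  have e : {ν : ProbabilityMeasure E | (ν : Measure E) Kcᶜ = 0} =
      {μ : ProbabilityMeasure E | ∀ _ : ℕ, μ Kcᶜ ≤ 0} := by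
    ext ν
    simp only [mem_ofPred_eq, forall_const, nonpos_iff_eq_zero]
    exact (ProbabilityMeasure.null_iff_toMeasure_null ν _).symm
  rw [e]
  exact h

end

end Claimed.Agent.R210.GM.UtilC
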