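/-
Row 210 (S0432), layer GM, block D (GM5, sub-architect helper104).  D2: limits of sequences of probability measures along a
filter `U ≤ atTop` (we use an ultrafilter instead of a subsequence: no metrizability needed).
Plan: `git show origin/helper666:docs/R210_GM_plan.md`, section Block D.
-/
import Claimed.Agent.R210.GM.UtilC

set_option autoImplicit false

open Claims.C0366 Claims.C0366.WeakHessian
open Set Filter MeasureTheory
open scoped ENNReal NNReal Topology

namespace Claimed.Agent.R210.GM.FvLim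

open Claimed.Agent.R210.Defs Claimed.Agent.R210.CO.Ifc Claimed.Agent.R210.GM.Defs
open Claimed.Agent.R210.GM.UtilC

section abstract

variable {E : Type*} [MetricSpace E] [MeasurableSpace E] [BorelSpace E]

/-- a sequence of probability measures on one compact set converges along some ultrafilter `≤ atTop` -/
theorem gm_fv_exists_limit {Kc : Set E} (hK : IsCompact Kc) (L : ℕ → ProbabilityMeasure E)
    (h : ∀ j, (L j : Measure E) Kcᶜ = 0) :
    ∃ (U : Filter ℕ) (L' : ProbabilityMeasure E), U.NeBot ∧ U ≤ atTop ∧ Tendsto L U (𝓝 L') ∧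
      (L' : Measure E) Kcᶜ = 0 := by
  have hc := gm_isCompact_conc (E := E) hK
  have hle : ((Ultrafilter.map L (hyperfilter ℕ) : Ultrafilter (ProbabilityMeasure E)) :
      Filter (ProbabilityMeasure E)) ≤ 𝓟 {ν : ProbabilityMeasure E | (ν : Measure E) Kcᶜ = 0} := by
    rw [le_principal_iff]
    exact Filter.mem_map.2 (Filter.univ_mem' h)
  obtain ⟨L', hL', hlim⟩ := hc.ultrafilter_le_nhds _ hle
  exact ⟨(hyperfilter ℕ : Filter ℕ), L', inferInstance, Nat.hyperfilter_le_atTop, hlim, hL'⟩

/-- vanishing on a fixed set `O` with `IsOpen O` passes to the limit -/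
theorem gm_fv_null_open {U : Filter ℕ} [U.NeBot] {L : ℕ → ProbabilityMeasure E}
    {L' : ProbabilityMeasure E} (hL : Tendsto L U (𝓝 L')) {O : Set E} (hO : IsOpen O)
    (h : ∀ᶠ j in U, (L j : Measure E) O = 0) : (L' : Measure E) O = 0 :=
  (gm_isClosed_null_open hO).mem_of_tendsto hL h

/-- an a.e. property defining a closed set passes to the limit -/
theorem gm_fv_ae_closed {U : Filter ℕ} [U.NeBot] {L : ℕ → ProbabilityMeasure E}
    {L' : ProbabilityMeasure E} (hL : Tendsto L U (𝓝 L')) {A : Set E} (hA : IsClosed A)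
    (h : ∀ᶠ j in U, ∀ᵐ p ∂(L j : Measure E), p ∈ A) : ∀ᵐ p ∂(L' : Measure E), p ∈ A := by
  have h' : ∀ᶠ j in U, (L j : Measure E) Aᶜ = 0 := by
    filter_upwards [h] with j hj
    exact mem_ae_iff.1 hj
  exact mem_ae_iff.2 (gm_fv_null_open hL hA.isOpen_compl h')

end abstract

/-- passing to the limit in `a j ≤ F (e j)` for an upper semicontinuous `F` -/
theorem gm_fv_le_of_usc {E : Type*} [TopologicalSpace E] {F : E → ℝ≥0∞} {S : Set E}
    (hF : UpperSemicontinuousOn F S) {U : Filter ℕ} [U.NeBot] {e : ℕ → E} {e' : E}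
    (he : Tendsto e U (𝓝 e')) (heS : ∀ j, e j ∈ S) (he' : e' ∈ S) {a : ℕ → ℝ≥0∞} {a' : ℝ≥0∞}
    (ha : Tendsto a U (𝓝 a')) (hle : ∀ j, a j ≤ F (e j)) : a' ≤ F e' := by
  refine le_of_forall_gt_imp_ge_of_dense fun y hy => ?_
  have h1 : Tendsto e U (𝓝[S] e') :=
    tendsto_nhdsWithin_iff.2 ⟨he, Eventually.of_forall heS⟩
  have h2 : ∀ᶠ j in U, F (e j) < y := h1.eventually (hF e' he' y hy)
  refine le_of_tendsto ha ?_
  filter_upwards [h2] with j hj
  exact (hle j).trans hj.le

variable {X : Type*} [MetricSpace X] [MeasurableSpace X] [BorelSpace X]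
  [TopologicalSpace.SeparableSpace X]

/-- D2: if the third marginal of `L j` lives on `closedBall x (R/(j+1))`, the third coordinate is `x` a.e. for the limit.
Proof: for `n : ℕ` the set `A n = {p | dist p.2.2 x ≤ R/(n+1)}` is closed and for `j ≥ n`
(`U ≤ atTop`, `eventually_ge_atTop`) `L j`-a.e. `p ∈ A j ⊆ A n` (`ae_of_ae_map` / `Measure.map_apply`, `div_le_div_of_nonneg_left`);
`gm_fv_ae_closed`; `ae_all_iff`; finally `dist p.2.2 x ≤ R/(n+1)` for all `n` gives `dist = 0`
(`tendsto_const_div_atTop_nhds_zero_nat`/`tendsto_one_div_add_atTop_nhds_zero_nat`, `ge_of_tendsto'`). -/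
theorem gm_fv_third {U : Filter ℕ} [U.NeBot] (hU : U ≤ atTop) {L : ℕ → ProbabilityMeasure (X × X × X)}
    {L' : ProbabilityMeasure (X × X × X)} (hL : Tendsto L U (𝓝 L')) {x : X} {R : ℝ} (hR : 0 < R)
    (h : ∀ j : ℕ, Measure.map (fun p : X × X × X => p.2.2) (L j : Measure (X × X × X))
      (Metric.closedBall x (R / (j + 1)))ᶜ = 0) :
    ∀ᵐ p ∂(L' : Measure (X × X × X)), p.2.2 = x := by
  have hmeas : Measurable (fun p : X × X × X => p.2.2) := measurable_snd.comp measurable_snd
  have hA : ∀ n : ℕ, ∀ᵐ p ∂(L' : Measure (X × X × X)),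
      p ∈ {p : X × X × X | dist p.2.2 x ≤ R / ((n : ℝ) + 1)} := by
    intro n
    refine gm_fv_ae_closed hL (isClosed_le (by fun_prop) continuous_const) ?_
    filter_upwards [hU (eventually_ge_atTop n)] with j hj
    have h1 := h j
    rw [Measure.map_apply hmeas (Metric.isClosed_closedBall.measurableSet.compl)] at h1
    have h2 : ∀ᵐ p ∂(L j : Measure (X × X × X)),
        p ∉ (fun p : X × X × X => p.2.2) ⁻¹' (Metric.closedBall x (R / ((j : ℝ) + 1)))ᶜ :=
      measure_eq_zero_iff_ae_notMem.1 h1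
    filter_upwards [h2] with p hp
    simp only [mem_preimage, mem_compl_iff, not_not, Metric.mem_closedBall] at hp
    refine le_trans hp ?_
    have hjn : (n : ℝ) + 1 ≤ (j : ℝ) + 1 := by
      have : (n : ℝ) ≤ (j : ℝ) := by exact_mod_cast hj
      linarith
    exact div_le_div_of_nonneg_left hR.le (by positivity) hjn
  filter_upwards [ae_all_iff.2 hA] with p hp
  have hlim : Tendsto (fun n : ℕ => R / ((n : ℝ) + 1)) atTop (𝓝 0) := by
    have := (tendsto_one_div_add_atTop_nhds_zero_nat (𝕜 := ℝ)).const_mul R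
    simpa [div_eq_mul_inv] using this
  have h0 : dist p.2.2 x ≤ 0 := ge_of_tendsto' hlim hp
  exact dist_le_zero.1 h0

end Claimed.Agent.R210.GM.FvLim
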