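/-
Row 210 (S0432), layer GM (architect helper666).  Block R, leaf UtilA: the reference measure, elementary facts on BddDens.
Plan and proofs: `git show origin/helper666:docs/R210_GM_plan.md`.
-/
import Claimed.Agent.R210.GM.Defs

set_option autoImplicit false

open Claims.C0366 Claims.C0366.WeakHessian
open Set Filter MeasureTheory
open scoped ENNReal NNReal Topology

namespace Claimed.Agent.R210.GM.UtilA

open Claimed.Agent.R210.GM.Defs Claimed.Agent.R210.CO.Ifc Claimed.Agent.R210.Defs

noncomputable section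

variable {X : Type*} [MetricSpace X] [MeasurableSpace X] [BorelSpace X]
variable {m μ : Measure X} {M M' : ℝ≥0} {o : X} {R R' : ℝ}

theorem gm_sigmaFinite (hfin : FiniteOnBoundedSets m) : SigmaFinite m := by
  rcases isEmpty_or_nonempty X with hX | ⟨⟨o⟩⟩
  · have : m = 0 := Measure.eq_zero_of_isEmpty m
    rw [this]; infer_instance
  · exact ⟨⟨{ set := fun n : ℕ => Metric.closedBall o (n : ℝ)
              set_mem := fun _ => trivial
              finite := fun n => hfin _ Metric.isBounded_closedBall
              spanning := Metric.iUnion_closedBall_nat o }⟩⟩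

theorem gm_locallyFinite (hfin : FiniteOnBoundedSets m) : IsLocallyFiniteMeasure m :=
  ⟨fun x => ⟨Metric.ball x 1, Metric.ball_mem_nhds x one_pos, hfin _ Metric.isBounded_ball⟩⟩

theorem gm_bddDens_mono (h : BddDens m μ M o R) (hM : M ≤ M') (hR : R ≤ R') :
    BddDens m μ M' o R' := by
  refine ⟨h.prob, h.le.trans ?_, ?_⟩
  · intro s
    simp only [Measure.smul_apply, smul_eq_mul]
    gcongr
  · refine measure_mono_null ?_ h.conc
    exact compl_subset_compl.mpr (Metric.closedBall_subset_closedBall hR)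

/-- a probability measure cannot have density `≤ 0` -/
theorem gm_bddDens_pos (h : BddDens m μ M o R) : 0 < M := by
  rcases eq_or_ne M 0 with hM | hM
  · exfalso
    have h1 := h.le univ
    haveI := h.prob
    simp [hM] at h1
  · exact pos_iff_ne_zero.mpr hM

theorem gm_bddDens_secondMoment (h : BddDens m μ M o R) : HasSecondMoment μ := by
  haveI := h.prob
  refine ⟨o, ?_⟩
  have hae : ∀ᵐ x ∂μ, (edist x o) ^ 2 ≤ (ENNReal.ofReal R) ^ 2 := by
    have : ∀ᵐ x ∂μ, x ∈ Metric.closedBall o R := by
      rw [ae_iff]; exact h.conc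
    filter_upwards [this] with x hx
    have : edist x o ≤ ENNReal.ofReal R := by
      rw [edist_dist]; exact ENNReal.ofReal_le_ofReal (Metric.mem_closedBall.mp hx)
    gcongr
  calc (∫⁻ x, (edist x o) ^ 2 ∂μ) ≤ ∫⁻ _x, (ENNReal.ofReal R) ^ 2 ∂μ := lintegral_mono_ae hae
    _ = (ENNReal.ofReal R) ^ 2 := by simp
    _ < ∞ := by
      exact ENNReal.pow_lt_top ENNReal.ofReal_lt_top

theorem gm_bddDens_ac (h : BddDens m μ M o R) : μ ≪ m := by
  refine (Measure.absolutelyContinuous_of_le h.le).trans ?_
  exact (Measure.AbsolutelyContinuous.refl m).smul_left _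

/-- couplings of measures concentrated on one ball of radius `R` move points by at most `2R` -/
theorem gm_HD_of_bddDens {μ₀ μ₁ : Measure X} {M₀ M₁ : ℝ≥0} (h0 : BddDens m μ₀ M₀ o R)
    (h1 : BddDens m μ₁ M₁ o R) : gm_HD μ₀ μ₁ (2 * R) := by
  intro q hq
  obtain ⟨⟨hq0, hq1⟩, -⟩ := hq
  have hms : MeasurableSet (Metric.closedBall o R)ᶜ :=
    (Metric.isClosed_closedBall.measurableSet).compl
  have e0 : ∀ᵐ p ∂q, p.1 ∈ Metric.closedBall o R := by
    have : q (Prod.fst ⁻¹' (Metric.closedBall o R)ᶜ) = 0 := by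
      rw [← Measure.map_apply measurable_fst hms, hq0]; exact h0.conc
    rw [ae_iff]; exact this
  have e1 : ∀ᵐ p ∂q, p.2 ∈ Metric.closedBall o R := by
    have : q (Prod.snd ⁻¹' (Metric.closedBall o R)ᶜ) = 0 := by
      rw [← Measure.map_apply measurable_snd hms, hq1]; exact h1.conc
    rw [ae_iff]; exact this
  filter_upwards [e0, e1] with p hp0 hp1
  have a0 : dist p.1 o ≤ R := Metric.mem_closedBall.mp hp0
  have a1 : dist p.2 o ≤ R := Metric.mem_closedBall.mp hp1
  have := dist_triangle_right p.1 p.2 o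
  linarith

end

end Claimed.Agent.R210.GM.UtilA
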