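/-
Row 210 (S0432), layer GM (architect helper666).  Block R, leaf UtilB: Radon-Nikodym densities.
Plan and proofs: `git show origin/helper666:docs/R210_GM_plan.md`.
-/
import Claimed.Agent.R210.GM.Defs

set_option autoImplicit false

open Claims.C0366 Claims.C0366.WeakHessian
open Set Filter MeasureTheory
open scoped ENNReal NNReal Topology

namespace Claimed.Agent.R210.GM.UtilB

open Claimed.Agent.R210.GM.Defs Claimed.Agent.R210.CO.Ifc Claimed.Agent.R210.Defs

noncomputable section

variable {X : Type*} [MetricSpace X] [MeasurableSpace X] [BorelSpace X]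
variable {m μ : Measure X} {M : ℝ≥0} {o : X} {R : ℝ}

theorem gm_rn_le [SigmaFinite m] (h : μ ≤ (M : ℝ≥0∞) • m) : ∀ᵐ x ∂m, μ.rnDeriv m x ≤ M := by
  refine ae_le_of_forall_setLIntegral_le_of_sigmaFinite (μ.measurable_rnDeriv m) fun s _ _ ↦ ?_
  simp only [lintegral_const, MeasurableSet.univ, Measure.restrict_apply, univ_inter]
  exact (Measure.setLIntegral_rnDeriv_le s).trans (h s)

theorem gm_rn_eq_zero [SigmaFinite m] [IsFiniteMeasure μ] {A : Set X} (hA : MeasurableSet A)
    (h : μ Aᶜ = 0) : ∀ᵐ x ∂m, x ∉ A → μ.rnDeriv m x = 0 := by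
  have h1 : ∫⁻ x in Aᶜ, μ.rnDeriv m x ∂m = 0 :=
    le_antisymm ((Measure.setLIntegral_rnDeriv_le Aᶜ).trans h.le) bot_le
  rw [lintegral_eq_zero_iff (μ.measurable_rnDeriv m)] at h1
  have h2 := (ae_restrict_iff' hA.compl).1 h1
  filter_upwards [h2] with x hx hxA
  exact hx hxA

theorem gm_ac_of_le (h : μ ≤ (M : ℝ≥0∞) • m) : μ ≪ m :=
  (Measure.absolutelyContinuous_of_le h).trans (Measure.smul_absolutelyContinuous)

theorem gm_withDensity_rn [SigmaFinite m] (h : μ ≤ (M : ℝ≥0∞) • m) :
    m.withDensity (μ.rnDeriv m) = μ := by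
  haveI : SigmaFinite ((M : ℝ≥0∞) • m) := by
    have : ((M : ℝ≥0∞) • m) = M • m := rfl
    rw [this]; infer_instance
  haveI : SigmaFinite μ := Measure.sigmaFinite_of_le _ h
  exact Measure.withDensity_rnDeriv_eq μ m (gm_ac_of_le h)

theorem gm_dens_rho [SigmaFinite m] (h : μ ≤ (M : ℝ≥0∞) • m) : dens m (rho m μ) = μ := by
  have h1 : dens m (rho m μ) = m.withDensity (μ.rnDeriv m) := by
    unfold dens rho
    refine withDensity_congr_ae ?_
    filter_upwards [gm_rn_le h] with x hx
    exact ENNReal.ofReal_toReal (ne_top_of_le_ne_top ENNReal.coe_ne_top hx)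
  rw [h1, gm_withDensity_rn h]

theorem gm_rho_dens [SigmaFinite m] {g : X → ℝ} (hg : Measurable g) (hg0 : ∀ x, 0 ≤ g x) :
    rho m (dens m g) =ᵐ[m] g := by
  have h1 := Measure.rnDeriv_withDensity m (f := fun x => ENNReal.ofReal (g x))
    hg.ennreal_ofReal
  filter_upwards [h1] with x hx
  unfold rho dens
  rw [hx, ENNReal.toReal_ofReal (hg0 x)]

theorem gm_dens_le {g : X → ℝ} (hg : ∀ x, g x ≤ M) : dens m g ≤ (M : ℝ≥0∞) • m := by
  unfold dens
  have h1 : m.withDensity (fun x => ENNReal.ofReal (g x)) ≤ m.withDensity (fun _ => (M : ℝ≥0∞)) := by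
    refine withDensity_mono (Eventually.of_forall fun x => ?_)
    exact ENNReal.ofReal_le_of_le_toReal (by simpa using hg x)
  rwa [withDensity_const] at h1

/-- Lebesgue decomposition is unique: the density of `η + g m`, `η ⟂ m` -/
theorem gm_rn_add_withDensity [SigmaFinite m] {η : Measure X} [IsFiniteMeasure η]
    (hη : η ⟂ₘ m) {g : X → ℝ≥0∞} (hg : Measurable g) (hgfin : ∫⁻ x, g x ∂m ≠ ∞) :
    (η + m.withDensity g).rnDeriv m =ᵐ[m] g :=
  (Measure.eq_rnDeriv hg hη rfl).symm

/-- ... and its singular part -/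
theorem gm_sing_add_withDensity [SigmaFinite m] {η : Measure X} [IsFiniteMeasure η]
    (hη : η ⟂ₘ m) {g : X → ℝ≥0∞} (hg : Measurable g) (hgfin : ∫⁻ x, g x ∂m ≠ ∞) :
    (η + m.withDensity g).singularPart m = η :=
  (Measure.eq_singularPart hg hη rfl).symm

theorem gm_sigmaFinite' (hfin : FiniteOnBoundedSets m) (o : X) : SigmaFinite m := by
  refine ⟨⟨⟨fun n => Metric.closedBall o n, fun _ => trivial, fun n => ?_, ?_⟩⟩⟩
  · exact hfin _ Metric.isBounded_closedBall
  · exact Metric.iUnion_closedBall_nat o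

/-- `ρ log ρ` is integrable for a bounded density with bounded support -/
theorem gm_ent_integrable (hfin : FiniteOnBoundedSets m) (h : BddDens m μ M o R) :
    Integrable (fun x => rho m μ x * Real.log (rho m μ x)) m := by
  haveI : SigmaFinite m := gm_sigmaFinite' hfin o
  haveI := h.prob
  have hmeas : Measurable (rho m μ) := (μ.measurable_rnDeriv m).ennreal_toReal
  have hle := gm_rn_le h.le
  have hz := gm_rn_eq_zero (m := m) (μ := μ) (Metric.isClosed_closedBall (x := o) (ε := R)).measurableSet h.conc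
  -- bound
  set B : ℝ := 1 + (M : ℝ) * |Real.log M| with hB
  have hbound : ∀ᵐ x ∂m, ‖rho m μ x * Real.log (rho m μ x)‖ ≤
      (Metric.closedBall o R).indicator (fun _ => B) x := by
    filter_upwards [hle, hz] with x hx1 hx2
    by_cases hxA : x ∈ Metric.closedBall o R
    · rw [indicator_of_mem hxA]
      have h0 : 0 ≤ rho m μ x := ENNReal.toReal_nonneg
      have h1 : rho m μ x ≤ M := by
        have := ENNReal.toReal_mono ENNReal.coe_ne_top hx1
        simpa [rho] using this
      rw [Real.norm_eq_abs]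
      rcases le_total (rho m μ x) 1 with h2 | h2
      · have h3 := Real.abs_log_mul_self_lt (rho m μ x)
        rcases h0.eq_or_lt with h4 | h4
        · rw [← h4]; simp [hB]; positivity
        · have := h3 h4 h2
          rw [mul_comm]
          have h5 : 0 ≤ (M : ℝ) * |Real.log M| := by positivity
          linarith
      · have h3 : 0 ≤ Real.log (rho m μ x) := Real.log_nonneg h2
        have h4 : Real.log (rho m μ x) ≤ Real.log M := Real.log_le_log (by linarith) h1
        rw [abs_of_nonneg (mul_nonneg h0 h3)]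
        have h5 : rho m μ x * Real.log (rho m μ x) ≤ (M : ℝ) * |Real.log M| :=
          mul_le_mul h1 (h4.trans (le_abs_self _)) h3 (by positivity)
        linarith
    · rw [indicator_of_notMem hxA]
      have : rho m μ x = 0 := by simp [rho, hx2 hxA]
      simp [this]
  refine Integrable.mono' (g := (Metric.closedBall o R).indicator (fun _ => B)) ?_ ?_ hbound
  · rw [integrable_indicator_iff (Metric.isClosed_closedBall).measurableSet]
    exact integrableOn_const (hfin _ Metric.isBounded_closedBall).ne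
  · exact (hmeas.mul (Real.measurable_log.comp hmeas)).aestronglyMeasurable

end

end Claimed.Agent.R210.GM.UtilB
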