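/-
Row 210 (S0432), layer GM, block D (GM5, sub-architect helper104).  D1: lower bound of the transport side of GM3
when the target measure lives on `closedBall x r`.
Plan: `git show origin/helper666:docs/R210_GM_plan.md`, section Block D.
-/
import Claimed.Agent.R210.GM.UtilA
import Claimed.Agent.R210.GM.UtilB

set_option autoImplicit false

open Claims.C0366 Claims.C0366.WeakHessian
open Set Filter MeasureTheory
open scoped ENNReal NNReal Topology

namespace Claimed.Agent.R210.GM.FvLow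

open Claimed.Agent.R210.Defs Claimed.Agent.R210.CO.Ifc Claimed.Agent.R210.GM.Defs
open Claimed.Agent.R210.GM.UtilA Claimed.Agent.R210.GM.UtilB

variable {X : Type*} [MetricSpace X] [MeasurableSpace X] [BorelSpace X]
variable {m μ₀ μ₁ : Measure X} {K N s R r : ℝ} {M₀ : ℝ≥0} {x : X}

/-- `∫ g ρ₀^(-1/N) dμ₀ = ∫ g ρ₀^(1-1/N) dm`.
Proof: `μ₀ = m.withDensity ρ₀` (`gm_withDensity_rn`), `lintegral_withDensity_eq_lintegral_mul` (all functions are measurable),
then pointwise for `ρ₀ x ≠ ∞` (a.e. by `gm_rn_le`): `ρ * (g * ρ^(-1/N)) = g * ρ^(1-1/N)`; case `ρ = 0`: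
both sides vanish (`0 * _ = 0`, `ENNReal.zero_rpow_of_pos`, `1 - 1/N > 0`); case `0 < ρ < ∞`: `ENNReal.rpow_add` with `ρ = ρ^1`. -/
theorem gm_fv_rn_identity [SigmaFinite m] (hN : 1 < N) (h0 : μ₀ ≤ (M₀ : ℝ≥0∞) • m) {g : X → ℝ≥0∞}
    (hg : Measurable g) :
    ∫⁻ y, g y * (μ₀.rnDeriv m y) ^ (-1 / N) ∂μ₀ = ∫⁻ y, g y * (μ₀.rnDeriv m y) ^ (1 - 1 / N) ∂m := by
  have hρ : Measurable (μ₀.rnDeriv m) := Measure.measurable_rnDeriv μ₀ m
  have hF : Measurable (fun y => g y * (μ₀.rnDeriv m y) ^ (-1 / N)) := hg.mul (hρ.pow_const _)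
  have h1 : ∫⁻ y, g y * (μ₀.rnDeriv m y) ^ (-1 / N) ∂μ₀
      = ∫⁻ y, g y * (μ₀.rnDeriv m y) ^ (-1 / N) ∂(m.withDensity (μ₀.rnDeriv m)) := by
    rw [gm_withDensity_rn h0]
  rw [h1, lintegral_withDensity_eq_lintegral_mul m hρ hF]
  refine lintegral_congr_ae ?_
  filter_upwards [gm_rn_le h0] with y hy
  have hy' : μ₀.rnDeriv m y ≠ ∞ := ne_top_of_le_ne_top ENNReal.coe_ne_top hy
  have hpos : 0 < 1 - 1 / N := by
    have : 1 / N < 1 := by rw [div_lt_one (by linarith)]; exact hN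
    linarith
  simp only [Pi.mul_apply]
  by_cases hz : μ₀.rnDeriv m y = 0
  · rw [hz, zero_mul, ENNReal.zero_rpow_of_pos hpos, mul_zero]
  · have h2 : (μ₀.rnDeriv m y) ^ (1 - 1 / N) = μ₀.rnDeriv m y * (μ₀.rnDeriv m y) ^ (-1 / N) := by
      have e : (1 - 1 / N) = 1 + (-1 / N) := by ring
      rw [e, ENNReal.rpow_add _ _ hz hy', ENNReal.rpow_one]
    rw [h2]; ring

/-- D1.  `q` is a coupling of `μ₀` and a measure living on `closedBall x r`.  Then `q`-a.e. `dist p.2 x ≤ r`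
(`ae_of_ae_map`/`Measure.map_apply` for `Prod.snd`), so `dist p.1 p.2 ≤ dist p.1 x + r` and by `co_tauCoeff_antitone`
`tau (dist p.1 x + r) ≤ tau (dist p.1 p.2)`.  `lintegral_mono_ae`, then the integrand depends on `p.1` only:
`lintegral_map` for `Prod.fst` (measurability: `co_tauCoeff_measurable`, `Measure.measurable_rnDeriv`), `hq.1`, and `gm_fv_rn_identity`. -/
theorem gm_fv_lower [SigmaFinite m] (hK : K < 0) (hN : 1 < N) (h0 : μ₀ ≤ (M₀ : ℝ≥0∞) • m)
    {q : Measure (X × X)} (hq : IsCoupling q μ₀ μ₁) (h1 : μ₁ (Metric.closedBall x r)ᶜ = 0)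
    (hs0 : 0 < s) (hs1 : s < 1) :
    ∫⁻ y, tauCoeff K N (1 - s) (dist y x + r) * (μ₀.rnDeriv m y) ^ (1 - 1 / N) ∂m
      ≤ ∫⁻ p, tauCoeff K N (1 - s) (dist p.1 p.2) * (μ₀.rnDeriv m p.1) ^ (-1 / N) ∂q := by
  have hg : Measurable (fun y : X => tauCoeff K N (1 - s) (dist y x + r)) :=
    (co_tauCoeff_measurable K N (1 - s)).comp ((continuous_id.dist continuous_const).measurable.add_const r)
  rw [← gm_fv_rn_identity hN h0 hg]
  have hF : Measurable (fun y : X => tauCoeff K N (1 - s) (dist y x + r) * (μ₀.rnDeriv m y) ^ (-1 / N)) :=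
    hg.mul ((Measure.measurable_rnDeriv μ₀ m).pow_const _)
  have hae : ∀ᵐ p ∂q, dist p.2 x ≤ r := by
    have h2 : q (Prod.snd ⁻¹' (Metric.closedBall x r)ᶜ) = 0 := by
      rw [← Measure.map_apply measurable_snd Metric.isClosed_closedBall.measurableSet.compl, hq.2]
      exact h1
    rw [ae_iff]
    refine measure_mono_null ?_ h2
    intro p hp
    simpa [Metric.mem_closedBall] using hp
  calc ∫⁻ y, tauCoeff K N (1 - s) (dist y x + r) * (μ₀.rnDeriv m y) ^ (-1 / N) ∂μ₀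
      = ∫⁻ y, tauCoeff K N (1 - s) (dist y x + r) * (μ₀.rnDeriv m y) ^ (-1 / N)
          ∂(Measure.map Prod.fst q) := by rw [hq.1]
    _ = ∫⁻ p, tauCoeff K N (1 - s) (dist p.1 x + r) * (μ₀.rnDeriv m p.1) ^ (-1 / N) ∂q :=
        lintegral_map hF measurable_fst
    _ ≤ _ := by
        refine lintegral_mono_ae ?_
        filter_upwards [hae] with p hp
        refine mul_le_mul_left (co_tauCoeff_antitone hK hN (by linarith) (by linarith) dist_nonneg ?_) _
        have h3 := dist_triangle p.1 x p.2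
        rw [dist_comm x p.2] at h3
        linarith

end Claimed.Agent.R210.GM.FvLow
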