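/-
Row 210 (S0432), layer GM, block D (GM5, sub-architect helper104).  D5: monotone convergence `r_j = R/(j+1) → 0`.
Plan: `git show origin/helper666:docs/R210_GM_plan.md`, section Block D.
-/
import Claimed.Agent.R210.GM.Defs

set_option autoImplicit false

open Claims.C0366 Claims.C0366.WeakHessian
open Set Filter MeasureTheory
open scoped ENNReal NNReal Topology

namespace Claimed.Agent.R210.GM.FvMono

open Claimed.Agent.R210.Defs Claimed.Agent.R210.CO.Ifc Claimed.Agent.R210.GM.Defs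

/-- `θ ↦ tauCoeff K N t θ` is right continuous along `θ + R/(j+1)`.
Proof: `co_tau_eq`, `ENNReal.tendsto_ofReal`, `co_tau_continuousOn` at `θ ∈ Ici 0` (`ContinuousWithinAt.tendsto` composed with
`tendsto_nhdsWithin_iff`: `θ + R/(j+1) → θ` and stays in `Ici 0`). -/
theorem gm_fv_tau_tendsto {K N t θ R : ℝ} (hK : K < 0) (hN : 1 < N) (ht0 : 0 ≤ t) (ht1 : t ≤ 1)
    (hθ : 0 ≤ θ) (hR : 0 < R) :
    Tendsto (fun j : ℕ => tauCoeff K N t (θ + R / (j + 1))) atTop (𝓝 (tauCoeff K N t θ)) := by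
  have h0 : Tendsto (fun j : ℕ => θ + R / ((j : ℝ) + 1)) atTop (𝓝 θ) := by
    have h1 : Tendsto (fun j : ℕ => R * (1 / ((j : ℝ) + 1))) atTop (𝓝 (R * 0)) :=
      tendsto_one_div_add_atTop_nhds_zero_nat.const_mul R
    have h2 := h1.const_add θ
    rw [mul_zero, add_zero] at h2
    refine h2.congr fun j => ?_
    rw [mul_one_div]
  have h1 : Tendsto (fun j : ℕ => θ + R / ((j : ℝ) + 1)) atTop (𝓝[Set.Ici 0] θ) := by
    refine tendsto_nhdsWithin_iff.2 ⟨h0, Eventually.of_forall fun j => ?_⟩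
    have : 0 ≤ R / ((j : ℝ) + 1) := by positivity
    exact add_nonneg hθ this
  have h2 : Tendsto (fun j : ℕ => co_tau K N t (θ + R / ((j : ℝ) + 1))) atTop (𝓝 (co_tau K N t θ)) :=
    ((co_tau_continuousOn hK hN ht0 ht1) θ hθ).tendsto.comp h1
  simp only [co_tau_eq hK hN ht0 ht1]
  exact (ENNReal.continuous_ofReal.tendsto _).comp h2

variable {X : Type*} [MetricSpace X] [MeasurableSpace X] [BorelSpace X]

/-- D5.  `lintegral_tendsto_of_tendsto_of_monotone`: the integrands are measurable (`co_tauCoeff_measurable` composed with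
`y ↦ dist y x + R/(j+1)`), monotone in `j` (`co_tauCoeff_antitone`, `R/(j+1)` antitone) and converge pointwise
(`gm_fv_tau_tendsto`, `ENNReal.Tendsto.mul_const` with `co_tauCoeff_ne_top`). -/
theorem gm_fv_mono_lim {m : Measure X} {K N s R : ℝ} {x : X} (hK : K < 0) (hN : 1 < N) (hs0 : 0 < s)
    (hs1 : s < 1) (hR : 0 < R) {f : X → ℝ≥0∞} (hf : Measurable f) :
    Tendsto (fun j : ℕ => ∫⁻ y, tauCoeff K N (1 - s) (dist y x + R / (j + 1)) * f y ∂m) atTop
      (𝓝 (∫⁻ y, tauCoeff K N (1 - s) (dist y x) * f y ∂m)) := by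
  have h0 : (0 : ℝ) ≤ 1 - s := by linarith
  have h1 : (1 : ℝ) - s ≤ 1 := by linarith
  refine lintegral_tendsto_of_tendsto_of_monotone (fun j => ?_) (Eventually.of_forall fun y => ?_)
    (Eventually.of_forall fun y => ?_)
  · exact (((co_tauCoeff_measurable K N (1 - s)).comp
      ((continuous_id.dist continuous_const).measurable.add_const _)).mul hf).aemeasurable
  · intro i j hij
    have hij' : (i : ℝ) ≤ j := by exact_mod_cast hij
    have h2 : R / ((j : ℝ) + 1) ≤ R / ((i : ℝ) + 1) := by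
      apply div_le_div_of_nonneg_left hR.le (by positivity) (by linarith)
    have h3 : 0 ≤ R / ((j : ℝ) + 1) := by positivity
    exact mul_le_mul_left (co_tauCoeff_antitone hK hN h0 h1 (add_nonneg dist_nonneg h3)
      (by linarith)) _
  · exact ENNReal.Tendsto.mul_const (gm_fv_tau_tendsto hK hN h0 h1 dist_nonneg hR)
      (Or.inl (co_tauCoeff_pos hK hN (by linarith) h1 dist_nonneg).ne')

end Claimed.Agent.R210.GM.FvMono
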