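/-
Row 210 (S0432), layer GM, block D (GM5, sub-architect helper104).  D2/D3: from the limit triple plan to the coupling of GM5.
Plan: `git show origin/helper666:docs/R210_GM_plan.md`, section Block D.
-/
import Claimed.Agent.R210.GM.Defs

set_option autoImplicit false

open Claims.C0366 Claims.C0366.WeakHessian
open Set Filter MeasureTheory
open scoped ENNReal NNReal Topology

namespace Claimed.Agent.R210.GM.FvPlan

open Claimed.Agent.R210.Defs Claimed.Agent.R210.CO.Ifc Claimed.Agent.R210.GM.Defs

variable {X : Type*} [MetricSpace X] [MeasurableSpace X] [BorelSpace X]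
  [TopologicalSpace.SeparableSpace X]
variable {μ₀ : Measure X} {s R : ℝ} {x : X}

/-- `Λ` on triples `(x₀, z, x₁)` with first marginal `μ₀`, `x₁ = x` a.e. and aligned a.e.  Then `(p₀, p_z)_# Λ` is a coupling of
`μ₀` and `ν = (p_z)_# Λ` with the two alignment properties of GM5, and `ν` lives on `closedBall x R` if `μ₀` does.
Proof: all maps are measurable (`measurable_fst`, `measurable_snd`, `.prodMk`, `by fun_prop`); `Measure.map_map`;
a.e. statements for an image measure: `ae_map_iff` with `measurableSet_eq_fun` / `measurableSet_le` (`measurable_dist`-type facts, `by fun_prop`),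
or write the exceptional set as a preimage and use `Measure.map_apply`.
Concentration: `Λ`-a.e. `dist p.1 x ≤ R` (first marginal) and `dist p.2.1 x = (1-s) dist p.1 x ≤ dist p.1 x`. -/
theorem gm_fv_plan {Λ : Measure (X × X × X)} (h0 : Measure.map (fun p : X × X × X => p.1) Λ = μ₀)
    (hx : ∀ᵐ p ∂Λ, p.2.2 = x)
    (hal : ∀ᵐ p ∂Λ, dist p.1 p.2.1 = s * dist p.1 p.2.2 ∧ dist p.2.1 p.2.2 = (1 - s) * dist p.1 p.2.2)
    (hc : μ₀ (Metric.closedBall x R)ᶜ = 0) (hs0 : 0 < s) (hs1 : s < 1) :
    IsCoupling (Measure.map (fun p : X × X × X => (p.1, p.2.1)) Λ) μ₀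
        (Measure.map (fun p : X × X × X => p.2.1) Λ) ∧
      (∀ᵐ p ∂(Measure.map (fun p : X × X × X => (p.1, p.2.1)) Λ),
        dist p.1 p.2 = s * dist p.1 x ∧ dist p.2 x = (1 - s) * dist p.1 x) ∧
      (Measure.map (fun p : X × X × X => p.2.1) Λ) (Metric.closedBall x R)ᶜ = 0 := by
  have m12 : Measurable (fun p : X × X × X => (p.1, p.2.1)) := by fun_prop
  have m1 : Measurable (fun p : X × X × X => p.1) := by fun_prop
  have m2 : Measurable (fun p : X × X × X => p.2.1) := by fun_prop
  have hball : MeasurableSet (Metric.closedBall x R)ᶜ := Metric.isClosed_closedBall.measurableSet.compl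
  refine ⟨⟨?_, ?_⟩, ?_, ?_⟩
  · rw [Measure.map_map measurable_fst m12]
    exact h0
  · rw [Measure.map_map measurable_snd m12]
    rfl
  · have hS : MeasurableSet {p : X × X | dist p.1 p.2 = s * dist p.1 x ∧
        dist p.2 x = (1 - s) * dist p.1 x} := by
      apply MeasurableSet.inter
      · exact measurableSet_eq_fun (by fun_prop) (by fun_prop)
      · exact measurableSet_eq_fun (by fun_prop) (by fun_prop)
    rw [ae_map_iff m12.aemeasurable hS]
    filter_upwards [hx, hal] with p h1 h2
    rw [h1] at h2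
    exact h2
  · rw [Measure.map_apply m2 hball]
    have hc' : ∀ᵐ p ∂Λ, p.1 ∈ Metric.closedBall x R := by
      have : Λ ((fun p : X × X × X => p.1) ⁻¹' (Metric.closedBall x R)ᶜ) = 0 := by
        rw [← Measure.map_apply m1 hball, h0]
        exact hc
      rw [ae_iff]
      exact this
    have : ∀ᵐ p ∂Λ, p.2.1 ∈ Metric.closedBall x R := by
      filter_upwards [hx, hal, hc'] with p h1 h2 h3
      rw [h1] at h2
      rw [Metric.mem_closedBall] at h3 ⊢
      rw [h2.2]
      have hd : 0 ≤ dist p.1 x := dist_nonneg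
      nlinarith
    rw [ae_iff] at this
    exact this

end Claimed.Agent.R210.GM.FvPlan
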