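/-
Row 210 (S0432), layer GM (architect helper666).  Block T, leaf TriA: masses, plans on geodesics give triple plans, optimality via the cost.
Plan and proofs: `git show origin/helper666:docs/R210_GM_plan.md`.
-/
import Claimed.Agent.R210.GM.Defs

set_option autoImplicit false

open Claims.C0366 Claims.C0366.WeakHessian
open Set Filter MeasureTheory
open scoped ENNReal NNReal Topology

namespace Claimed.Agent.R210.GM.TriA

open Claimed.Agent.R210.GM.Defs Claimed.Agent.R210.CO.Ifc Claimed.Agent.R210.Defs

noncomputable section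

variable {X : Type*} [MetricSpace X] [MeasurableSpace X] [BorelSpace X]
  [CompleteSpace X] [TopologicalSpace.SeparableSpace X]
variable {m μ₀ μ₁ ν ν' σ : Measure X} {Λ Λ' : Measure (X × X × X)} {K N s D R : ℝ}
  {M₀ M₁ : ℝ≥0} {o : X}

theorem gm_tri_prob [IsProbabilityMeasure μ₀] (h : gm_Tri μ₀ μ₁ ν s Λ) :
    IsProbabilityMeasure Λ ∧ IsProbabilityMeasure ν ∧ IsProbabilityMeasure μ₁ := by
  have hΛ : IsProbabilityMeasure Λ := by
    constructor
    have h1 : (Measure.map (fun p : X × X × X => p.1) Λ) Set.univ = 1 := by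
      rw [h.m0]; exact measure_univ
    rwa [Measure.map_apply measurable_fst MeasurableSet.univ, Set.preimage_univ] at h1
  refine ⟨hΛ, ?_, ?_⟩
  · rw [← h.mz]
    exact Measure.isProbabilityMeasure_map (measurable_fst.comp measurable_snd).aemeasurable
  · rw [← h.m1]
    exact Measure.isProbabilityMeasure_map (measurable_snd.comp measurable_snd).aemeasurable

/-- optimality = coupling with cost `≤ W2sq` -/
theorem gm_opt_iff {q : Measure (X × X)} :
    IsOptimalCoupling q μ₀ μ₁ ↔ IsCoupling q μ₀ μ₁ ∧ QuadraticTransportCost q ≤ W2sq μ₀ μ₁ := by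
  constructor
  · intro h
    exact ⟨h.1, le_iInf₂ fun q' hq' => h.2 q' hq'⟩
  · intro h
    exact ⟨h.1, fun q' hq' => h.2.trans (iInf₂_le q' hq')⟩

theorem gm_opt_cost {q : Measure (X × X)} (h : IsOptimalCoupling q μ₀ μ₁) :
    QuadraticTransportCost q = W2sq μ₀ μ₁ :=
  le_antisymm (gm_opt_iff.1 h).2 (iInf₂_le q h.1)

/-- T1: a plan on geodesics with optimal end point coupling gives triple plans -/
theorem gm_tri_of_plan {π : Measure (Curve X)} [IsProbabilityMeasure π]
    (hgeo : ∀ᵐ γ ∂π, IsGeodesic γ) (hopt : IsOptimalCoupling (endpointCoupling π) μ₀ μ₁)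
    (t : Time) :
    gm_Tri μ₀ μ₁ (interpolation π t) (t : ℝ)
      (Measure.map (fun γ : Curve X => (γ timeZero, γ t, γ timeOne)) π) := by
  have : SecondCountableTopology X := UniformSpace.secondCountable_of_separable X
  have hev : ∀ r : Time, Measurable (fun γ : Curve X => γ r) := fun r =>
    (continuous_eval_const r).measurable
  have hg : Measurable (fun γ : Curve X => (γ timeZero, γ t, γ timeOne)) :=
    (hev timeZero).prodMk ((hev t).prodMk (hev timeOne))
  have hd1 : Measurable (fun p : X × X × X => dist p.1 p.2.1) :=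
    measurable_fst.dist (measurable_fst.comp measurable_snd)
  have hd2 : Measurable (fun p : X × X × X => dist p.1 p.2.2) :=
    measurable_fst.dist (measurable_snd.comp measurable_snd)
  have hd3 : Measurable (fun p : X × X × X => dist p.2.1 p.2.2) :=
    (measurable_fst.comp measurable_snd).dist (measurable_snd.comp measurable_snd)
  have hp1 : Measurable (fun p : X × X × X => p.1) := measurable_fst
  have hp2 : Measurable (fun p : X × X × X => p.2.1) := measurable_fst.comp measurable_snd
  have hp3 : Measurable (fun p : X × X × X => p.2.2) := measurable_snd.comp measurable_snd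
  have hp13 : Measurable (fun p : X × X × X => (p.1, p.2.2)) := hp1.prodMk hp3
  refine ⟨?_, ?_, ?_, ?_, ?_, ?_⟩
  · rw [Measure.map_map hp1 hg]
    have h0 := hopt.1.1
    unfold endpointCoupling at h0
    rw [Measure.map_map measurable_fst ((hev timeZero).prodMk (hev timeOne))] at h0
    exact h0
  · rw [Measure.map_map hp2 hg]
    rfl
  · rw [Measure.map_map hp3 hg]
    have h1 := hopt.1.2
    unfold endpointCoupling at h1
    rw [Measure.map_map measurable_snd ((hev timeZero).prodMk (hev timeOne))] at h1
    exact h1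
  · rw [Measure.map_map hp13 hg]
    exact hopt
  · rw [ae_map_iff hg.aemeasurable (measurableSet_eq_fun hd1 (hd2.const_mul _))]
    filter_upwards [hgeo] with γ hγ
    have := hγ timeZero t
    simp only [timeZero] at this ⊢
    rw [this]
    congr 1
    have ht : (0 : ℝ) ≤ (t : ℝ) := t.2.1
    rw [zero_sub, abs_neg, abs_of_nonneg ht]
  · rw [ae_map_iff hg.aemeasurable (measurableSet_eq_fun hd3 (hd2.const_mul _))]
    filter_upwards [hgeo] with γ hγ
    have := hγ t timeOne
    simp only [timeOne] at this ⊢
    rw [this]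
    congr 1
    have ht : (t : ℝ) ≤ 1 := t.2.2
    rw [abs_sub_comm, abs_of_nonneg (by linarith)]

end

end Claimed.Agent.R210.GM.TriA
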