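/-
Row 210 (S0432), layer GM (architect helper666).  Block T, leaf TriHat: the sub-problem cut out by a weight f(z) (first half of T4).
Plan and proofs: `git show origin/helper666:docs/R210_GM_plan.md`.
-/
import Claimed.Agent.R210.GM.Defs
import Claimed.Agent.R210.GM.TriA

set_option autoImplicit false

open Claims.C0366 Claims.C0366.WeakHessian
open Set Filter MeasureTheory
open scoped ENNReal NNReal Topology

namespace Claimed.Agent.R210.GM.TriHat

open Claimed.Agent.R210.GM.Defs Claimed.Agent.R210.CO.Ifc Claimed.Agent.R210.Defs Claimed.Agent.R210.GM.TriA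

noncomputable section

variable {X : Type*} [MetricSpace X] [MeasurableSpace X] [BorelSpace X]
  [CompleteSpace X] [TopologicalSpace.SeparableSpace X]
variable {m μ₀ μ₁ ν ν' σ : Measure X} {Λ Λ' : Measure (X × X × X)} {K N s D R : ℝ}
  {M₀ M₁ : ℝ≥0} {o : X}

theorem gm_hat_mass (h : gm_Tri μ₀ μ₁ ν s Λ) {f : X → ℝ≥0∞} (hf : Measurable f) :
    ∫⁻ p, f p.2.1 ∂Λ = ∫⁻ x, f x ∂ν := by
  have hp : Measurable fun p : X × X × X => p.2.1 := measurable_fst.comp measurable_snd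
  rw [← h.mz, lintegral_map hf hp]

/-- common part of `gm_hat0_bddDens`, `gm_hat1_bddDens` (`π` = one of the projections) -/
theorem gm_hat_bddDens_aux {μ : Measure X} {M : ℝ≥0} {π : X × X × X → X} (hπ : Measurable π)
    (hm : Measure.map π Λ = μ) (h0 : BddDens m μ M o R) {f : X → ℝ≥0∞}
    {c a : ℝ≥0} (hfc : ∀ x, f x ≤ c) (ha : ∫⁻ p, f p.2.1 ∂Λ = a) (ha0 : a ≠ 0) :
    BddDens m ((∫⁻ p, f p.2.1 ∂Λ)⁻¹ • Measure.map π (Λ.withDensity fun p => f p.2.1))
      (M * (c / a)) o R := by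
  have ha0' : (a : ℝ≥0∞) ≠ 0 := by exact_mod_cast ha0
  have h1 : Λ.withDensity (fun p => f p.2.1) ≤ (c : ℝ≥0∞) • Λ := by
    rw [← withDensity_const]
    exact withDensity_mono (Eventually.of_forall fun p => hfc p.2.1)
  have h2 : Measure.map π (Λ.withDensity fun p => f p.2.1) ≤ (c : ℝ≥0∞) • μ := by
    rw [← hm, ← Measure.map_smul]
    exact Measure.map_mono h1 hπ
  have h3 : (a : ℝ≥0∞)⁻¹ • Measure.map π (Λ.withDensity fun p => f p.2.1)
      ≤ ((a : ℝ≥0∞)⁻¹ * c) • μ := by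
    rw [mul_smul]
    intro S
    simp only [Measure.smul_apply, smul_eq_mul]
    exact mul_le_mul_right (by simpa using h2 S) _
  rw [ha]
  refine ⟨⟨?_⟩, ?_, ?_⟩
  · rw [Measure.smul_apply, Measure.map_apply hπ MeasurableSet.univ, preimage_univ,
      withDensity_apply _ MeasurableSet.univ, Measure.restrict_univ, ha, smul_eq_mul]
    exact ENNReal.inv_mul_cancel ha0' ENNReal.coe_ne_top
  · refine h3.trans ?_
    intro S
    have h4 := h0.le S
    simp only [Measure.smul_apply, smul_eq_mul] at h4 ⊢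
    rw [ENNReal.coe_mul, ENNReal.coe_div ha0, ENNReal.div_eq_inv_mul]
    calc (a : ℝ≥0∞)⁻¹ * c * μ S ≤ (a : ℝ≥0∞)⁻¹ * c * (M * m S) := mul_le_mul_right h4 _
      _ = M * ((a : ℝ≥0∞)⁻¹ * c) * m S := by ring
  · have h5 := h3 (Metric.closedBall o R)ᶜ
    simp only [Measure.smul_apply, smul_eq_mul, h0.conc, mul_zero] at h5
    simpa using h5

/-- the normalised marginals of `f(z) Λ` have density `≤ M c / a` if `f ≤ c`, `a = ∫ f dν` -/
theorem gm_hat0_bddDens (h : gm_Tri μ₀ μ₁ ν s Λ) (h0 : BddDens m μ₀ M₀ o R) {f : X → ℝ≥0∞}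
    (hf : Measurable f) {c a : ℝ≥0} (hfc : ∀ x, f x ≤ c) (ha : ∫⁻ x, f x ∂ν = a) (ha0 : a ≠ 0) :
    BddDens m (gm_hat0 Λ f) (M₀ * (c / a)) o R :=
  gm_hat_bddDens_aux measurable_fst h.m0 h0 hfc ((gm_hat_mass h hf).trans ha) ha0

theorem gm_hat1_bddDens (h : gm_Tri μ₀ μ₁ ν s Λ) (h1 : BddDens m μ₁ M₁ o R) {f : X → ℝ≥0∞}
    (hf : Measurable f) {c a : ℝ≥0} (hfc : ∀ x, f x ≤ c) (ha : ∫⁻ x, f x ∂ν = a) (ha0 : a ≠ 0) :
    BddDens m (gm_hat1 Λ f) (M₁ * (c / a)) o R :=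
  gm_hat_bddDens_aux (measurable_snd.comp measurable_snd) h.m1 h1 hfc ((gm_hat_mass h hf).trans ha) ha0

end

end Claimed.Agent.R210.GM.TriHat
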