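/-
Row 210 (S0432), layer GM (architect helper666).  Block T, leaf TriSurg: surgery (second half of T4).
Plan and proofs: `git show origin/helper666:docs/R210_GM_plan.md`.
-/
import Claimed.Agent.R210.GM.Defs
import Claimed.Agent.R210.GM.TriA
import Claimed.Agent.R210.GM.TriHat

set_option autoImplicit false
set_option linter.unusedSectionVars false

open Claims.C0366 Claims.C0366.WeakHessian
open Set Filter MeasureTheory
open scoped ENNReal NNReal Topology

namespace Claimed.Agent.R210.GM.TriSurg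

open Claimed.Agent.R210.GM.Defs Claimed.Agent.R210.CO.Ifc Claimed.Agent.R210.Defs Claimed.Agent.R210.GM.TriA Claimed.Agent.R210.GM.TriHat

noncomputable section

variable {X : Type*} [MetricSpace X] [MeasurableSpace X] [BorelSpace X]
  [CompleteSpace X] [TopologicalSpace.SeparableSpace X]
variable {m μ₀ μ₁ ν ν' σ : Measure X} {Λ Λ' : Measure (X × X × X)} {K N s D R : ℝ}
  {M₀ M₁ : ℝ≥0} {o : X}

/-- replacing a part `q₂` of an optimal coupling by a cheaper measure with the same marginals -/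
theorem gm_replace_opt {q₁ q₂ q₃ : Measure (X × X)} (h : IsOptimalCoupling (q₁ + q₂) μ₀ μ₁)
    (hfst : Measure.map Prod.fst q₃ = Measure.map Prod.fst q₂)
    (hsnd : Measure.map Prod.snd q₃ = Measure.map Prod.snd q₂)
    (hcost : QuadraticTransportCost q₃ ≤ QuadraticTransportCost q₂) :
    IsOptimalCoupling (q₁ + q₃) μ₀ μ₁ := by
  obtain ⟨⟨h1, h2⟩, hmin⟩ := h
  refine ⟨⟨?_, ?_⟩, fun q' hq' => le_trans ?_ (hmin q' hq')⟩
  · rw [Measure.map_add _ _ measurable_fst, hfst, ← Measure.map_add _ _ measurable_fst, h1]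
  · rw [Measure.map_add _ _ measurable_snd, hsnd, ← Measure.map_add _ _ measurable_snd, h2]
  · unfold QuadraticTransportCost at hcost ⊢
    rw [lintegral_add_measure, lintegral_add_measure]
    gcongr

/-- push-forward of a measure with a density that factors through the map -/
theorem gm_map_withDensity_comp {Y Z : Type*} [MeasurableSpace Y] [MeasurableSpace Z] (μ : Measure Y)
    {g : Y → Z} (hg : Measurable g) {k : Z → ℝ≥0∞} (hk : Measurable k) :
    Measure.map g (μ.withDensity fun y => k (g y)) = (Measure.map g μ).withDensity k := by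
  ext A hA
  rw [Measure.map_apply hg hA, withDensity_apply _ (hg hA), withDensity_apply _ hA,
    setLIntegral_map hA hk hg]

/-- `Λ = (1 - f(z)) Λ + f(z) Λ` -/
theorem gm_split (Λ : Measure (X × X × X)) {f : X → ℝ≥0∞} (hf : Measurable f) (hf1 : ∀ x, f x ≤ 1) :
    Λ.withDensity (fun p => 1 - f p.2.1) + Λ.withDensity (fun p => f p.2.1) = Λ := by
  have hm : Measurable fun p : X × X × X => f p.2.1 := hf.comp measurable_snd.fst
  rw [← withDensity_add_right _ hm]
  have : ((fun p : X × X × X => 1 - f p.2.1) + fun p => f p.2.1) = 1 := by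
    funext p
    exact tsub_add_cancel_of_le (hf1 p.2.1)
  rw [this, withDensity_one]

theorem gm_mass_ne_top [IsProbabilityMeasure μ₀] (h : gm_Tri μ₀ μ₁ ν s Λ) {f : X → ℝ≥0∞}
    (hf1 : ∀ x, f x ≤ 1) : ∫⁻ p, f p.2.1 ∂Λ ≠ ∞ := by
  have := (gm_tri_prob h).1
  refine ne_of_lt (lt_of_le_of_lt (lintegral_mono fun p => hf1 p.2.1) ?_)
  simp

/-- the heart of the surgery: an optimal coupling of the sub-problem can be glued in -/
theorem gm_glue_opt [IsProbabilityMeasure μ₀] (h : gm_Tri μ₀ μ₁ ν s Λ)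
    {f : X → ℝ≥0∞} (hf : Measurable f) (hf1 : ∀ x, f x ≤ 1) (ha0 : ∫⁻ x, f x ∂ν ≠ 0)
    {qh : Measure (X × X)} (hq : IsOptimalCoupling qh (gm_hat0 Λ f) (gm_hat1 Λ f)) :
    IsOptimalCoupling (Measure.map (fun p : X × X × X => (p.1, p.2.2))
      (Λ.withDensity fun p => 1 - f p.2.1) + (∫⁻ x, f x ∂ν) • qh) μ₀ μ₁ := by
  have hmass := gm_hat_mass h hf
  have hat : ∫⁻ p, f p.2.1 ∂Λ ≠ ∞ := gm_mass_ne_top h hf1
  rw [← hmass] at ha0 ⊢
  set a : ℝ≥0∞ := ∫⁻ p, f p.2.1 ∂Λ with ha
  have hp13 : Measurable fun p : X × X × X => (p.1, p.2.2) :=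
    measurable_fst.prodMk measurable_snd.snd
  have hopt : IsOptimalCoupling (Measure.map (fun p : X × X × X => (p.1, p.2.2))
      (Λ.withDensity fun p => 1 - f p.2.1) + Measure.map (fun p : X × X × X => (p.1, p.2.2))
      (Λ.withDensity fun p => f p.2.1)) μ₀ μ₁ := by
    rw [← Measure.map_add _ _ hp13, gm_split Λ hf hf1]
    exact h.opt
  have hfst : Measure.map Prod.fst (Measure.map (fun p : X × X × X => (p.1, p.2.2))
      (Λ.withDensity fun p => f p.2.1))
      = Measure.map (fun p : X × X × X => p.1) (Λ.withDensity fun p => f p.2.1) := by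
    rw [Measure.map_map measurable_fst hp13]
    rfl
  have hsnd : Measure.map Prod.snd (Measure.map (fun p : X × X × X => (p.1, p.2.2))
      (Λ.withDensity fun p => f p.2.1))
      = Measure.map (fun p : X × X × X => p.2.2) (Λ.withDensity fun p => f p.2.1) := by
    rw [Measure.map_map measurable_snd hp13]
    rfl
  refine gm_replace_opt hopt ?_ ?_ ?_
  · rw [Measure.map_smul, hq.1.1, hfst]
    unfold gm_hat0
    rw [smul_smul, ENNReal.mul_inv_cancel ha0 hat, one_smul]
  · rw [Measure.map_smul, hq.1.2, hsnd]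
    unfold gm_hat1
    rw [smul_smul, ENNReal.mul_inv_cancel ha0 hat, one_smul]
  · have hc : IsCoupling (a⁻¹ • Measure.map (fun p : X × X × X => (p.1, p.2.2))
        (Λ.withDensity fun p => f p.2.1)) (gm_hat0 Λ f) (gm_hat1 Λ f) := by
      constructor
      · rw [Measure.map_smul, hfst]
        rfl
      · rw [Measure.map_smul, hsnd]
        rfl
    have hle := hq.2 _ hc
    unfold QuadraticTransportCost at hle ⊢
    rw [lintegral_smul_measure] at hle ⊢
    calc a • ∫⁻ p, edist p.1 p.2 ^ 2 ∂qh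
        ≤ a • (a⁻¹ • ∫⁻ p, edist p.1 p.2 ^ 2 ∂(Measure.map (fun p : X × X × X => (p.1, p.2.2))
          (Λ.withDensity fun p => f p.2.1))) := by
          simp only [smul_eq_mul]
          simp only [smul_eq_mul] at hle
          gcongr
      _ = _ := by
          rw [smul_smul, ENNReal.mul_inv_cancel ha0 hat, one_smul]

/-- `(H_D)` is inherited by the sub-problem -/
theorem gm_hat_HD [IsProbabilityMeasure μ₀] (h : gm_Tri μ₀ μ₁ ν s Λ) (hD : gm_HD μ₀ μ₁ D)
    {f : X → ℝ≥0∞} (hf : Measurable f) (hf1 : ∀ x, f x ≤ 1) (ha0 : ∫⁻ x, f x ∂ν ≠ 0) :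
    gm_HD (gm_hat0 Λ f) (gm_hat1 Λ f) D := by
  intro qh hq
  have h1 := hD _ (gm_glue_opt h hf hf1 ha0 hq)
  rw [ae_add_measure_iff] at h1
  exact (Measure.ae_ennreal_smul_measure_iff ha0).1 h1.2

/-- **surgery** (P3): replace the part `f ν` of `ν` by any intermediate point of the sub-problem -/
theorem gm_surgery [IsProbabilityMeasure μ₀] (h : gm_Tri μ₀ μ₁ ν s Λ)
    {f : X → ℝ≥0∞} (hf : Measurable f) (hf1 : ∀ x, f x ≤ 1) (ha0 : ∫⁻ x, f x ∂ν ≠ 0)
    (h' : gm_Tri (gm_hat0 Λ f) (gm_hat1 Λ f) σ s Λ') :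
    gm_Tri μ₀ μ₁ (ν.withDensity (fun x => 1 - f x) + (∫⁻ x, f x ∂ν) • σ) s
      (Λ.withDensity (fun p => 1 - f p.2.1) + (∫⁻ x, f x ∂ν) • Λ') := by
  have hmass := gm_hat_mass h hf
  have hat : ∫⁻ p, f p.2.1 ∂Λ ≠ ∞ := gm_mass_ne_top h hf1
  have ha0' : ∫⁻ p, f p.2.1 ∂Λ ≠ 0 := by rw [hmass]; exact ha0
  have hp1 : Measurable fun p : X × X × X => p.1 := measurable_fst
  have hpz : Measurable fun p : X × X × X => p.2.1 := measurable_snd.fst
  have hp3 : Measurable fun p : X × X × X => p.2.2 := measurable_snd.snd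
  have hp13 : Measurable fun p : X × X × X => (p.1, p.2.2) :=
    measurable_fst.prodMk measurable_snd.snd
  have hac : Λ.withDensity (fun p => 1 - f p.2.1) ≪ Λ := withDensity_absolutelyContinuous _ _
  refine ⟨?_, ?_, ?_, ?_, ?_, ?_⟩
  · rw [Measure.map_add _ _ hp1, Measure.map_smul, h'.m0]
    unfold gm_hat0
    rw [← hmass, smul_smul, ENNReal.mul_inv_cancel ha0' hat, one_smul, ← Measure.map_add _ _ hp1,
      gm_split Λ hf hf1, h.m0]
  · rw [Measure.map_add _ _ hpz, Measure.map_smul, h'.mz]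
    have := gm_map_withDensity_comp Λ hpz (k := fun x => 1 - f x) (measurable_const.sub hf)
    rw [this, h.mz]
  · rw [Measure.map_add _ _ hp3, Measure.map_smul, h'.m1]
    unfold gm_hat1
    rw [← hmass, smul_smul, ENNReal.mul_inv_cancel ha0' hat, one_smul, ← Measure.map_add _ _ hp3,
      gm_split Λ hf hf1, h.m1]
  · rw [Measure.map_add _ _ hp13, Measure.map_smul]
    exact gm_glue_opt h hf hf1 ha0 h'.opt
  · rw [ae_add_measure_iff]
    exact ⟨hac.ae_le h.al0, Measure.ae_smul_measure h'.al0 _⟩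
  · rw [ae_add_measure_iff]
    exact ⟨hac.ae_le h.al1, Measure.ae_smul_measure h'.al1 _⟩

end

end Claimed.Agent.R210.GM.TriSurg
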