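/-
Row 210 (S0432), layer GM (architect helper666).  Block U, leaf Cut: cut off a part of an intermediate point and spread it with bounded density.
Plan and proofs: `git show origin/helper666:docs/R210_GM_plan.md`.
-/
import Claimed.Agent.R210.GM.Defs
import Claimed.Agent.R210.GM.UtilA
import Claimed.Agent.R210.GM.TriA
import Claimed.Agent.R210.GM.TriHat
import Claimed.Agent.R210.GM.TriSurg

set_option autoImplicit false

open Claims.C0366 Claims.C0366.WeakHessian
open Set Filter MeasureTheory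
open scoped ENNReal NNReal Topology

namespace Claimed.Agent.R210.GM.Cut

open Claimed.Agent.R210.GM.Defs Claimed.Agent.R210.CO.Ifc Claimed.Agent.R210.Defs Claimed.Agent.R210.GM.UtilA Claimed.Agent.R210.GM.TriA Claimed.Agent.R210.GM.TriHat Claimed.Agent.R210.GM.TriSurg

noncomputable section

variable {X : Type*} [MetricSpace X] [MeasurableSpace X] [BorelSpace X]
  [CompleteSpace X] [TopologicalSpace.SeparableSpace X] [ProperSpace X]
variable {m μ₀ μ₁ ν σ : Measure X} {Λ : Measure (X × X × X)} {K N s D R : ℝ}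
  {M₀ M₁ C S : ℝ≥0} {o : X}

/-- surgery with `f = 1_A` and the GM1 point of the sub-problem -/
theorem gm_cut (h : gm_Tri μ₀ μ₁ σ s Λ) (h0 : BddDens m μ₀ M₀ o R) (h1 : BddDens m μ₁ M₁ o R)
    (hD : gm_HD μ₀ μ₁ D) (hG1 : gm_G1 m s D R o M₀ M₁ S) {A : Set X} (hA : MeasurableSet A)
    (hb : σ A ≠ 0) :
    ∃ (τ : Measure X) (Λ' : Measure (X × X × X)), IsProbabilityMeasure τ ∧
      σ A • τ ≤ (S : ℝ≥0∞) • m ∧ gm_Tri μ₀ μ₁ (σ.restrict Aᶜ + σ A • τ) s Λ' := by
  haveI := h0.prob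
  obtain ⟨_, hσ, _⟩ := gm_tri_prob h
  haveI := hσ
  set f : X → ℝ≥0∞ := A.indicator 1 with hf_def
  have hf : Measurable f := measurable_one.indicator hA
  have hf1 : ∀ x, f x ≤ 1 := fun x => by
    by_cases hx : x ∈ A <;> simp [hf_def, hx]
  have hint : ∫⁻ x, f x ∂σ = σ A := by
    rw [hf_def]; exact lintegral_indicator_one hA
  set b : ℝ≥0 := (σ A).toNNReal with hb_def
  have hbA : (b : ℝ≥0∞) = σ A := ENNReal.coe_toNNReal (measure_ne_top σ A)
  have hb0 : b ≠ 0 := by
    intro h0'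
    apply hb
    rw [← hbA, h0']
    simp
  have ha : ∫⁻ x, f x ∂σ = b := by rw [hint, hbA]
  have hfc : ∀ x, f x ≤ ((1 : ℝ≥0) : ℝ≥0∞) := by simpa using hf1
  have hne : ∫⁻ x, f x ∂σ ≠ 0 := by rw [hint]; exact hb
  have H0 := gm_hat0_bddDens h h0 hf hfc ha hb0
  have H1 := gm_hat1_bddDens h h1 hf hfc ha hb0
  have HD := gm_hat_HD h hD hf hf1 hne
  obtain ⟨τ, Λ', hT, hle⟩ := hG1 (1 / b) _ _ H0 H1 HD
  haveI := H0.prob
  have hτ := (gm_tri_prob hT).2.1
  have hs := gm_surgery h hf hf1 hne hT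
  refine ⟨τ, (Λ.withDensity (fun p => 1 - f p.2.1) + σ A • Λ'), hτ, ?_, ?_⟩
  · have h2 : σ A • τ ≤ σ A • ((((1 / b) * S : ℝ≥0) : ℝ≥0∞) • m) := by
      intro B
      simp only [Measure.smul_apply, smul_eq_mul]
      exact mul_le_mul_right (by simpa using hle B) _
    refine h2.trans (le_of_eq ?_)
    rw [smul_smul, ← hbA, ← ENNReal.coe_mul]
    congr 2
    field_simp
  · have e : σ.withDensity (fun x => 1 - f x) = σ.restrict Aᶜ := by
      rw [← withDensity_indicator_one hA.compl]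
      congr 1
      funext x
      by_cases hx : x ∈ A <;> simp [hf_def, hx]
    rw [e, hint] at hs
    exact hs

end

end Claimed.Agent.R210.GM.Cut
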