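/-
Row 210 (S0432), layer GM (architect helper666).  Block T, leaf TriCons: elementary consequences of alignment (first half of T5).
Plan and proofs: `git show origin/helper666:docs/R210_GM_plan.md`.
-/
import Claimed.Agent.R210.GM.Defs
import Claimed.Agent.R210.GM.TriA

set_option autoImplicit false

open Claims.C0366 Claims.C0366.WeakHessian
open Set Filter MeasureTheory
open scoped ENNReal NNReal Topology

namespace Claimed.Agent.R210.GM.TriCons

open Claimed.Agent.R210.GM.Defs Claimed.Agent.R210.CO.Ifc Claimed.Agent.R210.Defs Claimed.Agent.R210.GM.TriA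

noncomputable section

variable {X : Type*} [MetricSpace X] [MeasurableSpace X] [BorelSpace X]
  [CompleteSpace X] [TopologicalSpace.SeparableSpace X]
variable {m μ₀ μ₁ ν ν' σ : Measure X} {Λ Λ' : Measure (X × X × X)} {K N s D R : ℝ}
  {M₀ M₁ : ℝ≥0} {o : X}

/-- (aux) transfer of concentration of the first marginal -/
theorem gm_tri_ae0 (h : gm_Tri μ₀ μ₁ ν s Λ) {A : Set X} (h0 : μ₀ Aᶜ = 0) :
    ∀ᵐ p ∂Λ, p.1 ∈ A := by
  have h1 : ∀ᵐ x ∂μ₀, x ∈ A := mem_ae_iff.2 h0
  rw [← h.m0] at h1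
  exact ae_of_ae_map measurable_fst.aemeasurable h1

/-- (aux) transfer of concentration of the last marginal -/
theorem gm_tri_ae1 (h : gm_Tri μ₀ μ₁ ν s Λ) {A : Set X} (h0 : μ₁ Aᶜ = 0) :
    ∀ᵐ p ∂Λ, p.2.2 ∈ A := by
  have h1 : ∀ᵐ x ∂μ₁, x ∈ A := mem_ae_iff.2 h0
  rw [← h.m1] at h1
  exact ae_of_ae_map measurable_snd.snd.aemeasurable h1

theorem gm_tri_conc (h : gm_Tri μ₀ μ₁ ν s Λ) (h0 : μ₀ (Metric.closedBall o R)ᶜ = 0)
    (hD : gm_HD μ₀ μ₁ D) (hs : 0 ≤ s) : ν (Metric.closedBall o (R + s * D))ᶜ = 0 := by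
  have a1 := gm_tri_ae0 h h0
  have a2 : ∀ᵐ p ∂Λ, dist p.1 p.2.2 ≤ D :=
    ae_of_ae_map (measurable_fst.prodMk measurable_snd.snd).aemeasurable (hD _ h.opt)
  have a3 : ∀ᵐ p ∂Λ, p.2.1 ∈ Metric.closedBall o (R + s * D) := by
    filter_upwards [a1, a2, h.al0] with p h1 h2 h3
    rw [Metric.mem_closedBall] at h1 ⊢
    have h4 : dist p.2.1 o ≤ dist p.2.1 p.1 + dist p.1 o := dist_triangle _ _ _
    rw [dist_comm p.2.1 p.1, h3] at h4
    have h5 : s * dist p.1 p.2.2 ≤ s * D := mul_le_mul_of_nonneg_left h2 hs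
    linarith
  rw [← h.mz, Measure.map_apply measurable_snd.fst Metric.isClosed_closedBall.measurableSet.compl]
  exact mem_ae_iff.1 a3

/-- (aux) the cost of an image coupling whose displacement is a multiple of the displacement of the
`(x₀, x₁)`-marginal -/
theorem gm_tri_cost_aux (h : gm_Tri μ₀ μ₁ ν s Λ) {c : ℝ} {φ ψ : X × X × X → X} (hφ : Measurable φ)
    (hψ : Measurable ψ) (hal : ∀ᵐ p ∂Λ, dist (φ p) (ψ p) = c * dist p.1 p.2.2) :
    QuadraticTransportCost (Measure.map (fun p => (φ p, ψ p)) Λ)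
      = ENNReal.ofReal (c ^ 2) * W2sq μ₀ μ₁ := by
  have : SecondCountableTopology X := UniformSpace.secondCountable_of_separable X
  have hm : Measurable fun p : X × X => edist p.1 p.2 ^ 2 :=
    (measurable_fst.edist measurable_snd).pow_const 2
  rw [← gm_opt_cost h.opt]
  unfold QuadraticTransportCost
  have hm' : Measurable fun a : X × X × X => edist (a.1, a.2.2).1 (a.1, a.2.2).2 ^ 2 :=
    hm.comp (measurable_fst.prodMk measurable_snd.snd)
  rw [lintegral_map hm (hφ.prodMk hψ), lintegral_map hm (measurable_fst.prodMk measurable_snd.snd),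
    ← lintegral_const_mul _ hm']
  refine lintegral_congr_ae ?_
  filter_upwards [hal] with p hp
  rw [edist_dist, edist_dist, ← ENNReal.ofReal_pow dist_nonneg, ← ENNReal.ofReal_pow dist_nonneg,
    ← ENNReal.ofReal_mul (sq_nonneg c), hp, mul_pow]

theorem gm_tri_W2sq_left (h : gm_Tri μ₀ μ₁ ν s Λ) :
    W2sq μ₀ ν ≤ ENNReal.ofReal (s ^ 2) * W2sq μ₀ μ₁ := by
  rw [← gm_tri_cost_aux h measurable_fst measurable_snd.fst h.al0]
  refine iInf₂_le _ ⟨?_, ?_⟩
  · rw [Measure.map_map measurable_fst (measurable_fst.prodMk measurable_snd.fst)]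
    exact h.m0
  · rw [Measure.map_map measurable_snd (measurable_fst.prodMk measurable_snd.fst)]
    exact h.mz

theorem gm_tri_W2sq_right (h : gm_Tri μ₀ μ₁ ν s Λ) :
    W2sq ν μ₁ ≤ ENNReal.ofReal ((1 - s) ^ 2) * W2sq μ₀ μ₁ := by
  rw [← gm_tri_cost_aux h measurable_snd.fst measurable_snd.snd h.al1]
  refine iInf₂_le _ ⟨?_, ?_⟩
  · rw [Measure.map_map measurable_fst (measurable_snd.fst.prodMk measurable_snd.snd)]
    exact h.mz
  · rw [Measure.map_map measurable_snd (measurable_snd.fst.prodMk measurable_snd.snd)]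
    exact h.m1

/-- a triple plan between measures on `closedBall o R` lives on a product of three balls -/
theorem gm_tri_conc3 (h : gm_Tri μ₀ μ₁ ν s Λ) (h0 : μ₀ (Metric.closedBall o R)ᶜ = 0)
    (h1 : μ₁ (Metric.closedBall o R)ᶜ = 0) (hs0 : 0 ≤ s) (hs1 : s ≤ 1) :
    Λ (Metric.closedBall o R ×ˢ Metric.closedBall o (3 * R) ×ˢ Metric.closedBall o R)ᶜ = 0 := by
  have a3 : ∀ᵐ p ∂Λ,
      p ∈ Metric.closedBall o R ×ˢ Metric.closedBall o (3 * R) ×ˢ Metric.closedBall o R := by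
    filter_upwards [gm_tri_ae0 h h0, gm_tri_ae1 h h1, h.al0] with p p0 p1 p2
    refine ⟨p0, ?_, p1⟩
    rw [Metric.mem_closedBall] at p0 p1 ⊢
    have h4 : dist p.2.1 o ≤ dist p.2.1 p.1 + dist p.1 o := dist_triangle _ _ _
    rw [dist_comm p.2.1 p.1, p2] at h4
    have h5 : dist p.1 p.2.2 ≤ dist p.1 o + dist o p.2.2 := dist_triangle _ _ _
    rw [dist_comm o p.2.2] at h5
    have h6 : s * dist p.1 p.2.2 ≤ 1 * dist p.1 p.2.2 :=
      mul_le_mul_of_nonneg_right hs1 dist_nonneg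
    linarith
  exact mem_ae_iff.1 a3

end

end Claimed.Agent.R210.GM.TriCons
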