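/-
Row 210 (S0432), layer GM (architect helper666).  Block U, leaf EntCmp: a minimiser among bounded densities beats every a.c. intermediate point (entropy).
Plan and proofs: `git show origin/helper666:docs/R210_GM_plan.md`.
-/
import Claimed.Agent.R210.GM.Defs
import Claimed.Agent.R210.GM.UtilA
import Claimed.Agent.R210.GM.UtilB
import Claimed.Agent.R210.GM.TriA
import Claimed.Agent.R210.GM.TriCons
import Claimed.Agent.R210.GM.Cut

set_option autoImplicit false

open Claims.C0366 Claims.C0366.WeakHessian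
open Set Filter MeasureTheory
open scoped ENNReal NNReal Topology

namespace Claimed.Agent.R210.GM.EntCmp

open Claimed.Agent.R210.GM.Defs Claimed.Agent.R210.CO.Ifc Claimed.Agent.R210.Defs Claimed.Agent.R210.GM.UtilA Claimed.Agent.R210.GM.UtilB Claimed.Agent.R210.GM.Cut
open Claimed.Agent.R210.GM.TriA Claimed.Agent.R210.GM.TriCons

noncomputable section

/-- pointwise inequality `(x+y) log (x+y) ≤ x log x + y + y log L` for `0 ≤ x, y`, `x + y ≤ L`. -/
theorem gm_xlogx_add_le {x y L : ℝ} (hx : 0 ≤ x) (hy : 0 ≤ y) (hL : x + y ≤ L) :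
    (x + y) * Real.log (x + y) ≤ x * Real.log x + y + y * Real.log L := by
  rcases hx.eq_or_lt with rfl | hx
  · rcases hy.eq_or_lt with rfl | hy
    · simp
    · have h1 : Real.log y ≤ Real.log L := Real.log_le_log hy (by linarith)
      have h2 : y * Real.log y ≤ y * Real.log L := mul_le_mul_of_nonneg_left h1 hy.le
      simp only [zero_add, zero_mul]
      linarith
  · have hxy : 0 < x + y := by linarith
    have h1 : Real.log (x + y) ≤ Real.log L := Real.log_le_log hxy hL
    have h2 : y * Real.log (x + y) ≤ y * Real.log L := mul_le_mul_of_nonneg_left h1 hy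
    have h3 : Real.log ((x + y) / x) ≤ (x + y) / x - 1 :=
      Real.log_le_sub_one_of_pos (div_pos hxy hx)
    rw [Real.log_div hxy.ne' hx.ne'] at h3
    have h4 : x * (Real.log (x + y) - Real.log x) ≤ x * ((x + y) / x - 1) :=
      mul_le_mul_of_nonneg_left h3 hx.le
    have h5 : x * ((x + y) / x - 1) = y := by field_simp; ring
    nlinarith

variable {X : Type*} [MetricSpace X] [MeasurableSpace X] [BorelSpace X]

theorem gm_measurableSet_rho_gt (m σ : Measure X) (l : ℝ) : MeasurableSet {x | l < rho m σ x} :=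
  measurableSet_lt measurable_const (Measure.measurable_rnDeriv σ m).ennreal_toReal

/-- the part of `σ` where the density is `≤ l` is `≤ l m`. -/
theorem gm_restrict_le {m σ : Measure X} [SigmaFinite m] [IsFiniteMeasure σ] (hac : σ ≪ m) (l : ℝ≥0) :
    σ.restrict {x | (l : ℝ) < rho m σ x}ᶜ ≤ (l : ℝ≥0∞) • m := by
  have hA := gm_measurableSet_rho_gt m σ l
  rw [Measure.le_iff]
  intro B hB
  rw [Measure.restrict_apply hB]
  have e : σ (B ∩ {x | (l : ℝ) < rho m σ x}ᶜ)
      = ∫⁻ x in B ∩ {x | (l : ℝ) < rho m σ x}ᶜ, σ.rnDeriv m x ∂m := by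
    rw [← withDensity_apply _ (hB.inter hA.compl), Measure.withDensity_rnDeriv_eq σ m hac]
  rw [e]
  calc ∫⁻ x in B ∩ {x | (l : ℝ) < rho m σ x}ᶜ, σ.rnDeriv m x ∂m
      ≤ ∫⁻ _ in B ∩ {x | (l : ℝ) < rho m σ x}ᶜ, (l : ℝ≥0∞) ∂m := by
        apply setLIntegral_mono_ae measurable_const.aemeasurable
        filter_upwards [Measure.rnDeriv_lt_top σ m] with x hx hxB
        have h1 : rho m σ x ≤ l := not_lt.mp hxB.2
        rw [← ENNReal.ofReal_toReal hx.ne, ← ENNReal.ofReal_coe_nnreal]
        exact ENNReal.ofReal_le_ofReal h1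
    _ = l * m (B ∩ {x | (l : ℝ) < rho m σ x}ᶜ) := by simp
    _ ≤ l * m B := by gcongr; exact inter_subset_left
    _ = ((l : ℝ≥0∞) • m) B := by simp

/-- entropy estimate for the cut measure. -/
theorem gm_ent_cut_le {m σ : Measure X} [SigmaFinite m] [IsFiniteMeasure σ] (hac : σ ≪ m)
    (hint : Integrable (fun x => rho m σ x * Real.log (rho m σ x)) m) {l S : ℝ≥0} (hl : 1 ≤ l)
    {τ' : Measure X} [IsFiniteMeasure τ'] (hτ : τ' ≤ (S : ℝ≥0∞) • m)
    (hmass : τ' univ = σ {x | (l : ℝ) < rho m σ x})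
    (hint' : Integrable (fun x => rho m (σ.restrict {x | (l : ℝ) < rho m σ x}ᶜ + τ') x *
       Real.log (rho m (σ.restrict {x | (l : ℝ) < rho m σ x}ᶜ + τ') x)) m) :
    Ent m (σ.restrict {x | (l : ℝ) < rho m σ x}ᶜ + τ')
      ≤ Ent m σ + (σ {x | (l : ℝ) < rho m σ x}).toReal * (1 + S) := by
  have hA := gm_measurableSet_rho_gt m σ l
  set A := {x | (l : ℝ) < rho m σ x} with hAdef
  have hl0 : (0 : ℝ) < l := lt_of_lt_of_le one_pos (by exact_mod_cast hl)
  have hτac : τ' ≪ m :=
    (Measure.absolutelyContinuous_of_le hτ).trans (Measure.smul_absolutelyContinuous)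
  have hden : ∀ᵐ x ∂m, rho m (σ.restrict Aᶜ + τ') x = Aᶜ.indicator (rho m σ) x + rho m τ' x := by
    filter_upwards [Measure.rnDeriv_add' (σ.restrict Aᶜ) τ' m, Measure.rnDeriv_restrict σ m hA.compl,
      Measure.rnDeriv_lt_top σ m, Measure.rnDeriv_lt_top τ' m] with x h1 h2 h3 h4
    have e : rho m (σ.restrict Aᶜ + τ') x
        = ((σ.restrict Aᶜ).rnDeriv m x + τ'.rnDeriv m x).toReal := by
      simp only [rho, h1, Pi.add_apply]
    rw [e, h2]
    by_cases hx : x ∈ Aᶜ
    · rw [Set.indicator_of_mem hx, Set.indicator_of_mem hx, ENNReal.toReal_add h3.ne h4.ne]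
      rfl
    · rw [Set.indicator_of_notMem hx, Set.indicator_of_notMem hx, zero_add, zero_add]
      rfl
  have hy_le : ∀ᵐ x ∂m, rho m τ' x ≤ S := by
    filter_upwards [gm_rn_le hτ] with x hx
    exact ENNReal.toReal_le_coe_of_le_coe hx
  have hpt : ∀ᵐ x ∂m, rho m (σ.restrict Aᶜ + τ') x * Real.log (rho m (σ.restrict Aᶜ + τ') x)
      ≤ Aᶜ.indicator (fun x => rho m σ x * Real.log (rho m σ x)) x
        + (1 + Real.log (l + S)) * rho m τ' x := by
    filter_upwards [hden, hy_le] with x h1 h2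
    rw [h1]
    have hy0 : 0 ≤ rho m τ' x := ENNReal.toReal_nonneg
    by_cases hx : x ∈ Aᶜ
    · have hxl : rho m σ x ≤ l := not_lt.mp hx
      simp only [Set.indicator_of_mem hx]
      have hx0 : 0 ≤ rho m σ x := ENNReal.toReal_nonneg
      have := gm_xlogx_add_le hx0 hy0 (L := l + S) (add_le_add hxl h2)
      linarith
    · simp only [Set.indicator_of_notMem hx]
      have := gm_xlogx_add_le (le_refl 0) hy0 (L := l + S) (by linarith)
      simp only [zero_mul] at this
      linarith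
  have hI1 : Integrable (Aᶜ.indicator (fun x => rho m σ x * Real.log (rho m σ x))) m :=
    hint.indicator hA.compl
  have hI2 : Integrable (rho m τ') m := Measure.integrable_toReal_rnDeriv
  have hI3 : Integrable (rho m σ) m := Measure.integrable_toReal_rnDeriv
  have hE1 : Ent m (σ.restrict Aᶜ + τ') ≤ (∫ x in Aᶜ, rho m σ x * Real.log (rho m σ x) ∂m)
      + (1 + Real.log (l + S)) * (τ' univ).toReal := by
    calc Ent m (σ.restrict Aᶜ + τ')
        ≤ ∫ x, (Aᶜ.indicator (fun x => rho m σ x * Real.log (rho m σ x)) x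
          + (1 + Real.log (l + S)) * rho m τ' x) ∂m :=
          integral_mono_ae hint' (hI1.add (hI2.const_mul _)) hpt
      _ = _ := by
          rw [integral_add hI1 (hI2.const_mul _), integral_indicator hA.compl, integral_const_mul]
          congr 2
          exact Measure.integral_toReal_rnDeriv hτac
  have hE2 : (σ A).toReal * Real.log l ≤ ∫ x in A, rho m σ x * Real.log (rho m σ x) ∂m := by
    have h3 : ∫ x in A, rho m σ x * Real.log l ∂m ≤ ∫ x in A, rho m σ x * Real.log (rho m σ x) ∂m := by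
      apply setIntegral_mono_on (hI3.mul_const _).integrableOn hint.integrableOn hA
      intro x hx
      apply mul_le_mul_of_nonneg_left _ ENNReal.toReal_nonneg
      exact Real.log_le_log hl0 (le_of_lt hx)
    rw [integral_mul_const] at h3
    have h4 : ∫ x in A, rho m σ x ∂m = (σ A).toReal := Measure.setIntegral_toReal_rnDeriv hac A
    rw [h4] at h3
    exact h3
  have hsplit : Ent m σ = (∫ x in A, rho m σ x * Real.log (rho m σ x) ∂m)
      + ∫ x in Aᶜ, rho m σ x * Real.log (rho m σ x) ∂m := (integral_add_compl hA hint).symm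
  have hlog : Real.log (l + S) ≤ Real.log l + S := by
    have hlS : (0 : ℝ) < l + S := by positivity
    have h3 : Real.log ((l + S) / l) ≤ (l + S) / l - 1 := Real.log_le_sub_one_of_pos (div_pos hlS hl0)
    rw [Real.log_div hlS.ne' hl0.ne'] at h3
    have h5 : ((l : ℝ) + S) / l - 1 = S / l := by field_simp; ring
    have h6 : (S : ℝ) / l ≤ S := div_le_self S.2 (by exact_mod_cast hl)
    linarith
  rw [hmass] at hE1
  have hb0 : 0 ≤ (σ A).toReal := ENNReal.toReal_nonneg
  nlinarith [mul_le_mul_of_nonneg_right hlog hb0]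

variable [CompleteSpace X] [TopologicalSpace.SeparableSpace X] [ProperSpace X]
variable {m μ₀ μ₁ ν σ : Measure X} {Λ : Measure (X × X × X)} {K N s D R : ℝ}
  {M₀ M₁ C S : ℝ≥0} {o : X}

theorem gm_ent_compare (hfin : FiniteOnBoundedSets m)
    (h0 : BddDens m μ₀ M₀ o R) (h1 : BddDens m μ₁ M₁ o R) (hD : gm_HD μ₀ μ₁ D) (hD0 : 0 ≤ D)
    (hs0 : 0 < s) (hs1 : s < 1) (hG1 : gm_G1 m s D R o M₀ M₁ S)
    (hmin : ∀ (C' : ℝ≥0) (ν' : Measure X) (Λ' : Measure (X × X × X)), gm_Tri μ₀ μ₁ ν' s Λ' →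
        ν' ≤ (C' : ℝ≥0∞) • m → Ent m ν ≤ Ent m ν')
    (h : gm_Tri μ₀ μ₁ σ s Λ) (hac : σ ≪ m)
    (hint : Integrable (fun x => rho m σ x * Real.log (rho m σ x)) m) :
    Ent m ν ≤ Ent m σ := by
  haveI := gm_sigmaFinite hfin
  haveI := h0.prob
  obtain ⟨_, hσ, _⟩ := gm_tri_prob h
  haveI := hσ
  set A : ℕ → Set X := fun n => {x | (((n : ℝ≥0) + 1 : ℝ≥0) : ℝ) < rho m σ x} with hAdef
  have hAm : ∀ n, MeasurableSet (A n) := fun n => gm_measurableSet_rho_gt m σ _
  have key : ∀ n, Ent m ν ≤ Ent m σ + (σ (A n)).toReal * (1 + S) := by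
    intro n
    by_cases hb : σ (A n) = 0
    · have e : σ.restrict (A n)ᶜ = σ := by
        conv_rhs => rw [← Measure.restrict_add_restrict_compl (μ := σ) (hAm n)]
        rw [Measure.restrict_eq_zero.mpr hb, zero_add]
      have hle : σ ≤ (((n : ℝ≥0) + 1 : ℝ≥0) : ℝ≥0∞) • m := by
        have := gm_restrict_le hac ((n : ℝ≥0) + 1)
        rwa [e] at this
      have := hmin _ σ Λ h hle
      rw [hb]
      simpa using this
    · obtain ⟨τ, Λ', hτ, hle, hT⟩ := gm_cut h h0 h1 hD hG1 (hAm n) hb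
      haveI := hτ
      have hle' : σ.restrict (A n)ᶜ + σ (A n) • τ ≤ ((((n : ℝ≥0) + 1) + S : ℝ≥0) : ℝ≥0∞) • m := by
        rw [ENNReal.coe_add, add_smul]
        exact add_le_add (gm_restrict_le hac _) hle
      have h1' := hmin _ _ Λ' hT hle'
      have hB : BddDens m (σ.restrict (A n)ᶜ + σ (A n) • τ) (((n : ℝ≥0) + 1) + S) o (R + s * D) :=
        ⟨(gm_tri_prob hT).2.1, hle', gm_tri_conc hT h0.conc hD hs0.le⟩
      haveI : IsFiniteMeasure (σ (A n) • τ) := by
        refine ⟨?_⟩
        simp only [Measure.smul_apply, measure_univ, smul_eq_mul, mul_one]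
        exact measure_lt_top σ _
      have h2' := gm_ent_cut_le hac hint (l := (n : ℝ≥0) + 1) (by simp) hle (by simp [hAdef])
        (gm_ent_integrable hfin hB)
      exact h1'.trans h2'
  have hlim : Tendsto (fun n => σ (A n)) atTop (𝓝 0) := by
    have hanti : Antitone A := by
      intro i j hij x hx
      have hx' : (((j : ℝ≥0) + 1 : ℝ≥0) : ℝ) < rho m σ x := hx
      show (((i : ℝ≥0) + 1 : ℝ≥0) : ℝ) < rho m σ x
      refine lt_of_le_of_lt ?_ hx'
      push_cast
      have : (i : ℝ) ≤ j := by exact_mod_cast hij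
      linarith
    have h3 := tendsto_measure_iInter_atTop (μ := σ) (s := A)
      (fun n => (hAm n).nullMeasurableSet) hanti ⟨0, measure_ne_top _ _⟩
    have hempty : ⋂ n, A n = ∅ := by
      ext x
      simp only [mem_iInter, mem_empty_iff_false, iff_false, not_forall]
      obtain ⟨n, hn⟩ := exists_nat_gt (rho m σ x)
      refine ⟨n, ?_⟩
      show ¬ ((((n : ℝ≥0) + 1 : ℝ≥0) : ℝ) < rho m σ x)
      push_cast
      linarith
    rw [hempty, measure_empty] at h3
    exact h3
  have hlim2 : Tendsto (fun n => Ent m σ + (σ (A n)).toReal * (1 + S)) atTop (𝓝 (Ent m σ)) := by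
    have h4 := (ENNReal.tendsto_toReal ENNReal.zero_ne_top).comp hlim
    simpa using (h4.mul_const (1 + (S : ℝ))).const_add (Ent m σ)
  exact ge_of_tendsto' hlim2 key

end

end Claimed.Agent.R210.GM.EntCmp
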