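/-
Row 210 (S0432), layer GM (architect helper666), block U = `gm_min_abs` (sub-architect helper788): DEFINITIONS of the block.
Plan: section "Block U" of `git show origin/helper666:docs/R210_GM_plan.md`;  map of the block: header of `GM/Min.lean`.
* `gm_J m C' o R'`  : probability measures with density `≤ C'` which live on `closedBall o R'`.
* `gm_Nice C' Z r`  : `r : X → ℝ` is measurable, `0 ≤ r ≤ C'` EVERYWHERE and `r = 0` off `Z`.   Every `ν ∈ gm_J` is `dens m r` for such an `r`
                      (`MnDens.gm_nice_exists`), and `gm_U m u (dens m r) = ∫ u (r x) ∂m` (`MnDens.gm_U_dens`): the block works with nice densities only.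
* `gm_slope u' Z r δ = 1_Z · u'(max r δ)` : the slope of the tangent line used for the lower semicontinuity.
-/
import Claimed.Agent.R210.GM.Defs

set_option autoImplicit false

open Claims.C0366 Claims.C0366.WeakHessian
open Set Filter MeasureTheory
open scoped ENNReal NNReal Topology

namespace Claimed.Agent.R210.GM.MnDefs

open Claimed.Agent.R210.GM.Defs Claimed.Agent.R210.Defs

noncomputable section

variable {X : Type*} [MetricSpace X] [MeasurableSpace X] [BorelSpace X]

/-- probability measures with density `≤ C'` which live on `closedBall o R'` -/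
def gm_J (m : Measure X) (C' : ℝ≥0) (o : X) (R' : ℝ) : Set (ProbabilityMeasure X) :=
  {ν | (ν : Measure X) ≤ (C' : ℝ≥0∞) • m ∧ (ν : Measure X) (Metric.closedBall o R')ᶜ = 0}

/-- intermediate points with density `≤ C'` -/
def gm_IC (m μ₀ μ₁ : Measure X) (s : ℝ) (C' : ℝ≥0) : Set (ProbabilityMeasure X) :=
  gm_I μ₀ μ₁ s ∩ {ν | (ν : Measure X) ≤ (C' : ℝ≥0∞) • m}

/-- nice densities: measurable, `0 ≤ r ≤ C'` everywhere, `r = 0` off `Z` -/
structure gm_Nice (C' : ℝ) (Z : Set X) (r : X → ℝ) : Prop where
  meas : Measurable r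
  nonneg : ∀ x, 0 ≤ r x
  le : ∀ x, r x ≤ C'
  supp : ∀ x, x ∉ Z → r x = 0

/-- `1_Z · u'(max r δ)` -/
def gm_slope (u' : ℝ → ℝ) (Z : Set X) (r : X → ℝ) (δ : ℝ) : X → ℝ :=
  Z.indicator fun x => u' (max (r x) δ)

end

/-- hygiene: the equation lemmas of the definitions of this file are generated here, once. -/
theorem gm_mnDefs_hygiene : True := by
  have := @gm_J.eq_1.{0}
  have := @gm_IC.eq_1.{0}
  have := @gm_slope.eq_1.{0}
  trivial

end Claimed.Agent.R210.GM.MnDefs
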