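/-
Row 210 (S0432), layer GM (architect helper666), block U (sub-architect helper788).   Leaf file MnDens: algebra of `dens m r = m.withDensity (ofReal ∘ r)` and nice representatives.
Pure measure theory (Mathlib `withDensity_*`, `lintegral_*`);  from the layer only `UtilB` (may still carry sorry; use its statements).
-/
import Claimed.Agent.R210.GM.MnDefs
import Claimed.Agent.R210.GM.UtilB

set_option autoImplicit false
set_option linter.unusedSectionVars false

open Claims.C0366 Claims.C0366.WeakHessian
open Set Filter MeasureTheory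
open scoped ENNReal NNReal Topology

namespace Claimed.Agent.R210.GM.MnDens

open Claimed.Agent.R210.GM.Defs Claimed.Agent.R210.Defs Claimed.Agent.R210.GM.MnDefs Claimed.Agent.R210.GM.UtilB

noncomputable section

variable {X : Type*} [MetricSpace X] [MeasurableSpace X] [BorelSpace X]
variable {m : Measure X} {Z A : Set X} {r r' g : X → ℝ}

/-! ### part a -/

/-- **nice representative.**   `r x = if x ∈ Z then min (rho m ν x) C else 0` (i.e. `Z.indicator fun x => min (rho m ν x) C`).
`rho m ν x = (ν.rnDeriv m x).toReal` is measurable (`Measure.measurable_rnDeriv`, `.ennreal_toReal`) and `≥ 0`.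
`r =ᵐ[m] rho m ν` by `gm_rn_le h` (so `rho ≤ C`: `ENNReal.toReal_mono`/`ENNReal.toReal_le_coe_of_le_coe`) and `gm_rn_eq_zero hZ hc`;
`dens m r = dens m (rho m ν)` (`withDensity_congr_ae`) `= ν` (`gm_dens_rho h`). -/
theorem gm_nice_exists [SigmaFinite m] {ν : Measure X} [IsFiniteMeasure ν] {C : ℝ≥0}
    (h : ν ≤ (C : ℝ≥0∞) • m) (hZ : MeasurableSet Z) (hc : ν Zᶜ = 0) :
    ∃ r : X → ℝ, gm_Nice (C : ℝ) Z r ∧ dens m r = ν := by
  refine ⟨Z.indicator fun x => min (rho m ν x) C, ⟨?_, ?_, ?_, ?_⟩, ?_⟩
  · exact (((ν.measurable_rnDeriv m).ennreal_toReal).min measurable_const).indicator hZ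
  · intro x
    refine Set.indicator_nonneg (fun y _ => le_min ENNReal.toReal_nonneg C.2) x
  · intro x
    by_cases hx : x ∈ Z
    · rw [Set.indicator_of_mem hx]; exact min_le_right _ _
    · rw [Set.indicator_of_notMem hx]; exact C.2
  · intro x hx
    exact Set.indicator_of_notMem hx _
  · refine Eq.trans ?_ (gm_dens_rho h)
    unfold dens
    refine withDensity_congr_ae ?_
    filter_upwards [gm_rn_le h, gm_rn_eq_zero hZ hc] with x h1 h2
    by_cases hx : x ∈ Z
    · rw [Set.indicator_of_mem hx, min_eq_left]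
      exact ENNReal.toReal_le_coe_of_le_coe h1
    · rw [Set.indicator_of_notMem hx]
      unfold rho
      rw [h2 hx]; simp

/-- `gm_rho_dens` and `integral_congr_ae`. -/
theorem gm_U_dens [SigmaFinite m] (u : ℝ → ℝ) (hr : Measurable r) (h0 : ∀ x, 0 ≤ r x) :
    gm_U m u (dens m r) = ∫ x, u (r x) ∂m := by
  unfold gm_U
  refine integral_congr_ae ?_
  filter_upwards [gm_rho_dens (m := m) hr h0] with x hx
  rw [hx]

/-- `g = Z.indicator g`; `integrable_indicator_iff`; bounded on a set of finite measure
(`Measure.integrableOn_of_bounded` / `IntegrableOn` of a constant + `Integrable.mono'`). -/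
theorem gm_integrable_of_bdd (hZ : MeasurableSet Z) (hmZ : m Z < ∞) (hg : Measurable g) {B : ℝ}
    (hb : ∀ x, |g x| ≤ B) (hs : ∀ x, x ∉ Z → g x = 0) : Integrable g m := by
  have hgi : g = Z.indicator g := by
    funext x
    by_cases hx : x ∈ Z
    · rw [Set.indicator_of_mem hx]
    · rw [Set.indicator_of_notMem hx, hs x hx]
  rw [hgi, integrable_indicator_iff hZ]
  refine Measure.integrableOn_of_bounded (M := B) hmZ.ne hg.aestronglyMeasurable ?_
  exact Eventually.of_forall fun x => by rw [Real.norm_eq_abs]; exact hb x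

/-- `integral_withDensity_eq_integral_toReal_smul`, `ENNReal.toReal_ofReal (h0 x)`, `smul_eq_mul`, `mul_comm`. -/
theorem gm_integral_dens (hr : Measurable r) (h0 : ∀ x, 0 ≤ r x) (g : X → ℝ) :
    ∫ x, g x ∂(dens m r) = ∫ x, g x * r x ∂m := by
  unfold dens
  rw [integral_withDensity_eq_integral_toReal_smul hr.ennreal_ofReal
    (Eventually.of_forall fun x => ENNReal.ofReal_lt_top)]
  refine integral_congr_ae (Eventually.of_forall fun x => ?_)
  simp only [ENNReal.toReal_ofReal (h0 x), smul_eq_mul, mul_comm]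

/-- `integral_eq_lintegral_of_nonneg_ae`, `withDensity_apply _ MeasurableSet.univ`, `Measure.restrict_univ`. -/
theorem gm_dens_univ (hr : Measurable r) (h0 : ∀ x, 0 ≤ r x) :
    ∫ x, r x ∂m = (dens m r univ).toReal := by
  unfold dens
  rw [integral_eq_lintegral_of_nonneg_ae (Eventually.of_forall h0) hr.aestronglyMeasurable,
    withDensity_apply _ MeasurableSet.univ, Measure.restrict_univ]

/-! ### part b -/

/-- `ENNReal.ofReal_add`, `withDensity_add_left`. -/
theorem gm_dens_add (hr : Measurable r) (h0 : ∀ x, 0 ≤ r x) (h0' : ∀ x, 0 ≤ r' x) :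
    dens m (fun x => r x + r' x) = dens m r + dens m r' := by
  unfold dens
  rw [← withDensity_add_left hr.ennreal_ofReal]
  congr 1
  funext x
  exact ENNReal.ofReal_add (h0 x) (h0' x)

/-- `ENNReal.ofReal_mul hc`, `withDensity_smul`  (`(fun x => ofReal c * ofReal (r x)) = ofReal c • fun x => ofReal (r x)`). -/
theorem gm_dens_smul (hr : Measurable r) {c : ℝ} (hc : 0 ≤ c) :
    dens m (fun x => c * r x) = ENNReal.ofReal c • dens m r := by
  unfold dens
  rw [← withDensity_smul _ hr.ennreal_ofReal]
  congr 1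
  funext x
  exact ENNReal.ofReal_mul hc

/-- `withDensity_indicator`/`restrict_withDensity`;  `ofReal (A.indicator r x) = A.indicator (ofReal ∘ r) x` (`ENNReal.ofReal_zero`). -/
theorem gm_dens_restrict (hA : MeasurableSet A) (r : X → ℝ) :
    (dens m r).restrict A = dens m (A.indicator r) := by
  unfold dens
  rw [restrict_withDensity hA, ← withDensity_indicator hA]
  congr 1
  funext x
  by_cases hx : x ∈ A
  · simp [hx]
  · simp [hx]

/-- `Measure.le_iff`; `withDensity_apply`; `lintegral_mono_ae` against the constant `S`; `setLIntegral_const`.   (Or: `withDensity_mono` and `withDensity_const`.) -/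
theorem gm_dens_le_of_ae {S : ℝ≥0} (h : ∀ᵐ x ∂m, r x ≤ S) : dens m r ≤ (S : ℝ≥0∞) • m := by
  unfold dens
  rw [← withDensity_const]
  refine withDensity_mono ?_
  filter_upwards [h] with x hx
  exact ENNReal.ofReal_le_of_le_toReal (by simpa using hx)

/-- `withDensity_apply _ hA`; `setLIntegral_pos_iff`/`lintegral_pos_iff_support`: the integrand `ofReal (r x)` is `> 0` on `A`, `m A ≠ 0`. -/
theorem gm_dens_apply_ne_zero (hr : Measurable r) (hA : MeasurableSet A) (hpos : ∀ x ∈ A, 0 < r x)
    (hmA : m A ≠ 0) : dens m r A ≠ 0 := by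
  unfold dens
  rw [withDensity_apply _ hA]
  have h1 : 0 < ∫⁻ x in A, ENNReal.ofReal (r x) ∂m := by
    rw [setLIntegral_pos_iff hr.ennreal_ofReal]
    have h2 : (Function.support fun x => ENNReal.ofReal (r x)) ∩ A = A := by
      apply Set.inter_eq_right.2
      intro x hx
      simpa [Function.mem_support] using hpos x hx
    rw [h2]
    exact pos_iff_ne_zero.2 hmA
  exact h1.ne'

end

end Claimed.Agent.R210.GM.MnDens
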