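/-
Row 210 (S0432), layer GM (architect helper666), block U (sub-architect helper788).   Leaf file MnComp: measurability, bounds, integrability of `u ∘ r`, `u' ∘ r`.
`u` is only continuous on `Ici 0` and `u'` only on `Ioi 0`:  compose with a clamp.  `fun z => u (max z 0)` and `fun z => u' (max z a)` (`a > 0`) are continuous on `ℝ`
(`ContinuousOn.comp_continuous`), hence measurable.
-/
import Claimed.Agent.R210.GM.MnDens

set_option autoImplicit false
set_option linter.unusedSectionVars false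

open Claims.C0366 Claims.C0366.WeakHessian
open Set Filter MeasureTheory
open scoped ENNReal NNReal Topology

namespace Claimed.Agent.R210.GM.MnComp

open Claimed.Agent.R210.GM.Defs Claimed.Agent.R210.Defs Claimed.Agent.R210.GM.MnDefs Claimed.Agent.R210.GM.MnDens

noncomputable section

variable {X : Type*} [MetricSpace X] [MeasurableSpace X] [BorelSpace X]
variable {m : Measure X} {Z A : Set X} {r q : X → ℝ} {u u' : ℝ → ℝ} {C' : ℝ}

/-- `isCompact_Icc.exists_bound_of_continuousOn (hu.mono Icc_subset_Ici_self)`. -/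
theorem gm_u_bdd (hu : ContinuousOn u (Ici 0)) (C' : ℝ) : ∃ B : ℝ, ∀ z, 0 ≤ z → z ≤ C' → |u z| ≤ B := by
  obtain ⟨B, hB⟩ := (isCompact_Icc (a := (0 : ℝ)) (b := C')).exists_bound_of_continuousOn
    (hu.mono Icc_subset_Ici_self)
  exact ⟨B, fun z h0 h1 => by simpa [Real.norm_eq_abs] using hB z ⟨h0, h1⟩⟩

theorem gm_u'_bdd (hu : ContinuousOn u' (Ioi 0)) {a : ℝ} (ha : 0 < a) (b : ℝ) :
    ∃ B : ℝ, ∀ z, a ≤ z → z ≤ b → |u' z| ≤ B := by
  obtain ⟨B, hB⟩ := (isCompact_Icc (a := a) (b := b)).exists_bound_of_continuousOn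
    (hu.mono fun z hz => lt_of_lt_of_le ha hz.1)
  exact ⟨B, fun z h0 h1 => by simpa [Real.norm_eq_abs] using hB z ⟨h0, h1⟩⟩

/-- `u (r x) = (fun z => u (max z 0)) (r x)`. -/
theorem gm_u_comp_meas (hu : ContinuousOn u (Ici 0)) (hr : Measurable r) (h0 : ∀ x, 0 ≤ r x) :
    Measurable fun x => u (r x) := by
  have hc : Continuous fun z : ℝ => u (max z 0) :=
    hu.comp_continuous (continuous_id.max continuous_const) fun z => le_max_right z 0
  have he : (fun x => u (r x)) = fun x => (fun z : ℝ => u (max z 0)) (r x) := by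
    funext x
    simp only [max_eq_left (h0 x)]
  rw [he]
  exact hc.measurable.comp hr

/-- `A.indicator (fun x => u' (q x)) = A.indicator (fun x => u' (max (q x) a))`  (`Set.indicator_congr`), `Measurable.indicator`. -/
theorem gm_u'_indicator_meas (hu : ContinuousOn u' (Ioi 0)) (hA : MeasurableSet A) (hq : Measurable q) {a : ℝ}
    (ha : 0 < a) (h : ∀ x ∈ A, a ≤ q x) : Measurable (A.indicator fun x => u' (q x)) := by
  have hc : Continuous fun z : ℝ => u' (max z a) :=
    hu.comp_continuous (continuous_id.max continuous_const) fun z => lt_of_lt_of_le ha (le_max_right z a)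
  have he : (A.indicator fun x => u' (q x)) = A.indicator fun x => (fun z : ℝ => u' (max z a)) (q x) := by
    refine Set.indicator_congr fun x hx => ?_
    simp only [max_eq_left (h x hx)]
  rw [he]
  exact (hc.measurable.comp hq).indicator hA

/-- `gm_integrable_of_bdd`, `gm_u_comp_meas`, `gm_u_bdd`, `hu.zero`. -/
theorem gm_u_comp_integrable (hZ : MeasurableSet Z) (hmZ : m Z < ∞) (hu : gm_UFun u u') (hr : gm_Nice C' Z r) :
    Integrable (fun x => u (r x)) m := by
  obtain ⟨B, hB⟩ := gm_u_bdd hu.cont C'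
  refine gm_integrable_of_bdd hZ hmZ (gm_u_comp_meas hu.cont hr.meas hr.nonneg)
    (fun x => hB _ (hr.nonneg x) (hr.le x)) fun x hx => ?_
  rw [hr.supp x hx, hu.zero]

theorem gm_slope_meas (hu : ContinuousOn u' (Ioi 0)) (hZ : MeasurableSet Z) (hr : Measurable r) {δ : ℝ} (hδ : 0 < δ) :
    Measurable (gm_slope u' Z r δ) := by
  have hc : Continuous fun z : ℝ => u' (max z δ) :=
    hu.comp_continuous (continuous_id.max continuous_const) fun z => lt_of_lt_of_le hδ (le_max_right z δ)
  exact (hc.measurable.comp hr).indicator hZ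

/-- `max (r x) δ ∈ [δ, max C' δ]`, `gm_u'_bdd`;  off `Z` the value is `0` (so take `max B 0`, or note `|u' ..| ≤ B` forces `0 ≤ B` when `Z` is nonempty; simplest: `B' = |B|`). -/
theorem gm_slope_bdd (hu : ContinuousOn u' (Ioi 0)) (hr : ∀ x, r x ≤ C') {δ : ℝ} (hδ : 0 < δ) :
    ∃ B : ℝ, ∀ x, |gm_slope u' Z r δ x| ≤ B := by
  obtain ⟨B, hB⟩ := gm_u'_bdd hu hδ (max C' δ)
  refine ⟨|B|, fun x => ?_⟩
  by_cases hx : x ∈ Z
  · rw [gm_slope, Set.indicator_of_mem hx]
    exact (hB _ (le_max_right _ _) (max_le_max_right δ (hr x))).trans (le_abs_self B)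
  · rw [gm_slope, Set.indicator_of_notMem hx, abs_zero]
    exact abs_nonneg B

theorem gm_slope_supp (u' : ℝ → ℝ) (Z : Set X) (r : X → ℝ) (δ : ℝ) : ∀ x, x ∉ Z → gm_slope u' Z r δ x = 0 :=
  fun _ hx => Set.indicator_of_notMem hx _

theorem gm_slope_of_mem (u' : ℝ → ℝ) (r : X → ℝ) (δ : ℝ) {x : X} (hx : x ∈ Z) :
    gm_slope u' Z r δ x = u' (max (r x) δ) :=
  Set.indicator_of_mem hx _

end

end Claimed.Agent.R210.GM.MnComp
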