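/-
Row 210 (S0432), layer GM (architect helper666), block U (sub-architect helper788).   Leaf file MnLscA: the tangent line bound (M2, real analysis part).
`r, r'` nice densities (`gm_Nice C' Z`), `δ > 0`, `g = gm_slope u' Z r δ = 1_Z u'(max r δ)`.
All integrands are measurable, bounded and vanish off `Z` (`m Z < ∞`): integrable by `MnDens.gm_integrable_of_bdd` (tools in `MnComp`).
-/
import Claimed.Agent.R210.GM.MnComp

set_option autoImplicit false
set_option linter.unusedSectionVars false

open Claims.C0366 Claims.C0366.WeakHessian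
open Set Filter MeasureTheory
open scoped ENNReal NNReal Topology

namespace Claimed.Agent.R210.GM.MnLscA

open Claimed.Agent.R210.GM.Defs Claimed.Agent.R210.Defs Claimed.Agent.R210.GM.MnDefs Claimed.Agent.R210.GM.MnDens
  Claimed.Agent.R210.GM.MnComp

noncomputable section

variable {X : Type*} [MetricSpace X] [MeasurableSpace X] [BorelSpace X]
variable {m : Measure X} {Z : Set X} {r r' : X → ℝ} {u u' : ℝ → ℝ} {C' δ : ℝ}

/-- product of the slope with a measurable function `q` which is bounded:  measurable, bounded, vanishes off `Z`  (`gm_slope_meas`, `gm_slope_bdd`, `gm_slope_supp`, `gm_integrable_of_bdd`). -/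
theorem gm_slope_mul_integrable (hZ : MeasurableSet Z) (hmZ : m Z < ∞) (hu : gm_UFun u u') (hr : gm_Nice C' Z r)
    (hδ : 0 < δ) {q : X → ℝ} (hq : Measurable q) {B : ℝ} (hqb : ∀ x, |q x| ≤ B) :
    Integrable (fun x => gm_slope u' Z r δ x * q x) m := by
  obtain ⟨B', hB'⟩ := gm_slope_bdd (Z := Z) hu.cont' hr.le hδ
  refine gm_integrable_of_bdd hZ hmZ ((gm_slope_meas hu.cont' hZ hr.meas hδ).mul hq) (B := B' * B)
    (fun x => ?_) (fun x hx => ?_)
  · rw [abs_mul]
    exact mul_le_mul (hB' x) (hqb x) (abs_nonneg _) ((abs_nonneg _).trans (hB' x))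
  · rw [gm_slope_supp u' Z r δ x hx, zero_mul]

/-- `fun x => u (max (r x) δ)` is measurable (`gm_u_comp_meas`) and bounded (`gm_u_bdd hu.cont (max C' δ)`), `m Z < ∞`. -/
theorem gm_u_max_integrableOn (hZ : MeasurableSet Z) (hmZ : m Z < ∞) (hu : gm_UFun u u') (hr : gm_Nice C' Z r)
    (hδ : 0 < δ) : IntegrableOn (fun x => u (max (r x) δ)) Z m := by
  obtain ⟨B, hB⟩ := gm_u_bdd hu.cont (max C' δ)
  have hmeas : Measurable fun x => u (max (r x) δ) :=
    gm_u_comp_meas hu.cont (hr.meas.max measurable_const) (fun x => hδ.le.trans (le_max_right _ _))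
  refine Measure.integrableOn_of_bounded (M := B) hmZ.ne hmeas.aestronglyMeasurable
    (Eventually.of_forall fun x => ?_)
  rw [Real.norm_eq_abs]
  exact hB _ (hδ.le.trans (le_max_right _ _)) (max_le_max (hr.le x) le_rfl)

/-- **tangent line bound.**   Pointwise, with `y = max (r x) δ > 0`:   on `Z`:  `u y + u' y * (r' x - y) ≤ u (r' x)`  (`hu.tangent (r' x) y`);   off `Z`: `r' x = 0`, `u 0 = 0`, slope `= 0`.
So   `Z.indicator (fun x => u (max (r x) δ)) x + g x * r' x - g x * max (r x) δ ≤ u (r' x)`  for all `x`;   integrate (`integral_mono`, `integral_add`, `integral_sub`, `integral_indicator hZ`). -/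
theorem gm_tangent_int (hZ : MeasurableSet Z) (hmZ : m Z < ∞) (hu : gm_UFun u u') (hr : gm_Nice C' Z r)
    (hr' : gm_Nice C' Z r') (hδ : 0 < δ) :
    (∫ x in Z, u (max (r x) δ) ∂m) + (∫ x, gm_slope u' Z r δ x * r' x ∂m)
        - (∫ x, gm_slope u' Z r δ x * max (r x) δ ∂m) ≤ ∫ x, u (r' x) ∂m := by
  have i1 : Integrable (Z.indicator fun x => u (max (r x) δ)) m :=
    (integrable_indicator_iff hZ).2 (gm_u_max_integrableOn hZ hmZ hu hr hδ)
  have i2 : Integrable (fun x => gm_slope u' Z r δ x * r' x) m :=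
    gm_slope_mul_integrable hZ hmZ hu hr hδ hr'.meas (B := C')
      (fun x => by rw [abs_of_nonneg (hr'.nonneg x)]; exact hr'.le x)
  have i3 : Integrable (fun x => gm_slope u' Z r δ x * max (r x) δ) m :=
    gm_slope_mul_integrable hZ hmZ hu hr hδ (hr.meas.max measurable_const) (B := max C' δ)
      (fun x => by
        rw [abs_of_nonneg (hδ.le.trans (le_max_right _ _))]
        exact max_le_max (hr.le x) le_rfl)
  have i4 : Integrable (fun x => u (r' x)) m := gm_u_comp_integrable hZ hmZ hu hr'
  have i12 : Integrable (fun x => Z.indicator (fun x => u (max (r x) δ)) x + gm_slope u' Z r δ x * r' x) m :=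
    i1.add i2
  have key : ∫ x, (Z.indicator (fun x => u (max (r x) δ)) x + gm_slope u' Z r δ x * r' x
      - gm_slope u' Z r δ x * max (r x) δ) ∂m ≤ ∫ x, u (r' x) ∂m := by
    refine integral_mono (i12.sub i3) i4 fun x => ?_
    by_cases hx : x ∈ Z
    · have hy : 0 < max (r x) δ := hδ.trans_le (le_max_right _ _)
      have ht := hu.tangent (r' x) (max (r x) δ) (hr'.nonneg x) hy
      simp only [indicator_of_mem hx, gm_slope_of_mem u' r δ hx]
      linarith
    · simp only [indicator_of_notMem hx, gm_slope_supp u' Z r δ x hx, hr'.supp x hx, hu.zero]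
      simp
  rw [integral_sub i12 i3, integral_add i1 i2, integral_indicator hZ] at key
  exact key

/-- at `r' = r` the linear terms have the good sign.   Pointwise `g x * max (r x) δ ≤ g x * r x`:  off `Z`: `0 ≤ 0`;  on `Z`: if `δ ≤ r x` equality;  if `r x < δ`: `max = δ`, `u' δ * δ ≤ u' δ * r x` as `u' δ ≤ 0`.   `integral_mono`. -/
theorem gm_slope_self (hZ : MeasurableSet Z) (hmZ : m Z < ∞) (hu : gm_UFun u u') (hr : gm_Nice C' Z r)
    (hδ : 0 < δ) (hneg : u' δ ≤ 0) :
    ∫ x, gm_slope u' Z r δ x * max (r x) δ ∂m ≤ ∫ x, gm_slope u' Z r δ x * r x ∂m := by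
  have i2 : Integrable (fun x => gm_slope u' Z r δ x * r x) m :=
    gm_slope_mul_integrable hZ hmZ hu hr hδ hr.meas (B := C')
      (fun x => by rw [abs_of_nonneg (hr.nonneg x)]; exact hr.le x)
  have i3 : Integrable (fun x => gm_slope u' Z r δ x * max (r x) δ) m :=
    gm_slope_mul_integrable hZ hmZ hu hr hδ (hr.meas.max measurable_const) (B := max C' δ)
      (fun x => by
        rw [abs_of_nonneg (hδ.le.trans (le_max_right _ _))]
        exact max_le_max (hr.le x) le_rfl)
  refine integral_mono i3 i2 fun x => ?_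
  by_cases hx : x ∈ Z
  · simp only [gm_slope_of_mem u' r δ hx]
    rcases le_total δ (r x) with h | h
    · rw [max_eq_left h]
    · rw [max_eq_right h]
      exact mul_le_mul_of_nonpos_left h hneg
  · simp only [gm_slope_supp u' Z r δ x hx, zero_mul, le_refl]

end

end Claimed.Agent.R210.GM.MnLscA
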