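/-
Row 210 (S0432), layer GM (architect helper666), block U (sub-architect helper788).   Leaf file MnLscB: `∫_Z u(max r δ) → ∫ u(r)` as `δ ↓ 0`.
-/
import Claimed.Agent.R210.GM.MnComp

set_option autoImplicit false
set_option linter.unusedSectionVars false

open Claims.C0366 Claims.C0366.WeakHessian
open Set Filter MeasureTheory
open scoped ENNReal NNReal Topology

namespace Claimed.Agent.R210.GM.MnLscB

open Claimed.Agent.R210.GM.Defs Claimed.Agent.R210.Defs Claimed.Agent.R210.GM.MnDefs Claimed.Agent.R210.GM.MnDens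
  Claimed.Agent.R210.GM.MnComp

noncomputable section

variable {X : Type*} [MetricSpace X] [MeasurableSpace X] [BorelSpace X]
variable {m : Measure X} {Z : Set X} {r : X → ℝ} {u u' : ℝ → ℝ} {C' : ℝ}

/-- Dominated convergence `tendsto_integral_filter_of_dominated_convergence` on `m.restrict Z` (a finite measure: `⟨by simpa using hmZ⟩`/`isFiniteMeasure_restrict`) with the constant bound `B` of
`gm_u_bdd hu.cont (max C' 1)`, valid for `δ ∈ Ioo 0 1` (`Ioo_mem_nhdsGT`);  measurability: `gm_u_comp_meas`;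
pointwise:  `δ ↦ max (r x) δ` is continuous, `→ max (r x) 0 = r x`, with values in `Ici 0`;  `hu.cont (r x) _ : ContinuousWithinAt u (Ici 0) (r x)` (`ContinuousWithinAt.tendsto`, `tendsto_nhdsWithin_iff`).
Finally `∫ x in Z, u (r x) ∂m = ∫ x, u (r x) ∂m`  (`setIntegral_eq_integral_of_forall_compl_eq_zero`, `hr.supp`, `hu.zero`). -/
theorem gm_tendsto_max (hZ : MeasurableSet Z) (hmZ : m Z < ∞) (hu : gm_UFun u u') (hr : gm_Nice C' Z r) :
    Tendsto (fun δ : ℝ => ∫ x in Z, u (max (r x) δ) ∂m) (𝓝[>] 0) (𝓝 (∫ x, u (r x) ∂m)) := by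
  have hfin : IsFiniteMeasure (m.restrict Z) := ⟨by simpa using hmZ⟩
  obtain ⟨B, hB⟩ := gm_u_bdd hu.cont (max C' 1)
  have heq : ∫ x, u (r x) ∂m = ∫ x in Z, u (r x) ∂m := by
    symm
    apply setIntegral_eq_integral_of_forall_compl_eq_zero
    intro x hx
    rw [hr.supp x hx, hu.zero]
  rw [heq]
  apply tendsto_integral_filter_of_dominated_convergence (fun _ => B)
  · have : ∀ᶠ δ : ℝ in 𝓝[>] 0, 0 < δ := eventually_mem_nhdsWithin
    filter_upwards [this] with δ hδ
    exact (gm_u_comp_meas hu.cont (hr.meas.max measurable_const)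
      (fun x => le_max_of_le_left (hr.nonneg x))).aestronglyMeasurable
  · have : ∀ᶠ δ : ℝ in 𝓝[>] 0, δ ∈ Ioo (0:ℝ) 1 := Ioo_mem_nhdsGT one_pos
    filter_upwards [this] with δ hδ
    refine Eventually.of_forall fun x => ?_
    rw [Real.norm_eq_abs]
    exact hB _ (le_max_of_le_left (hr.nonneg x)) (max_le_max (hr.le x) hδ.2.le)
  · exact integrable_const B
  · refine Eventually.of_forall fun x => ?_
    have h1 : Tendsto (fun δ : ℝ => max (r x) δ) (𝓝[>] 0) (𝓝 (max (r x) 0)) :=
      ((continuous_const.max continuous_id).tendsto 0).mono_left nhdsWithin_le_nhds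
    rw [max_eq_left (hr.nonneg x)] at h1
    have h2 : Tendsto (fun δ : ℝ => max (r x) δ) (𝓝[>] 0) (𝓝[Ici 0] (r x)) :=
      tendsto_nhdsWithin_iff.2 ⟨h1, Eventually.of_forall fun δ => le_max_of_le_left (hr.nonneg x)⟩
    exact (hu.cont (r x) (hr.nonneg x)).tendsto.comp h2

end

end Claimed.Agent.R210.GM.MnLscB
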