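/-
Row 210 (S0432), layer GM (architect helper666).  Block W, leaf UtilE: weak convergence + uniform density bound tests against bounded Borel functions.
Plan and proofs: `git show origin/helper666:docs/R210_GM_plan.md`.
-/
import Claimed.Agent.R210.GM.Defs
import Claimed.Agent.R210.GM.UtilA

set_option autoImplicit false

open Claims.C0366 Claims.C0366.WeakHessian
open Set Filter MeasureTheory
open scoped ENNReal NNReal Topology

namespace Claimed.Agent.R210.GM.UtilE

open Claimed.Agent.R210.GM.Defs Claimed.Agent.R210.CO.Ifc Claimed.Agent.R210.Defs Claimed.Agent.R210.GM.UtilA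

noncomputable section

variable {X : Type*} [MetricSpace X] [MeasurableSpace X] [BorelSpace X]
variable {m : Measure X} {o : X} {R : ℝ}

/-- under a uniform density bound, weak convergence tests against bounded Borel functions with
bounded support -/
theorem gm_continuousOn_integral [ProperSpace X] (hfin : FiniteOnBoundedSets m) (C : ℝ≥0)
    {g : X → ℝ} (hg : Measurable g) {B : ℝ} (hgb : ∀ x, |g x| ≤ B)
    (hgs : ∀ x, x ∉ Metric.closedBall o R → g x = 0) :
    ContinuousOn (fun ν : ProbabilityMeasure X => ∫ x, g x ∂(ν : Measure X))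
      {ν | (ν : Measure X) ≤ (C : ℝ≥0∞) • m} := by
  have hlf : IsLocallyFiniteMeasure m :=
    ⟨fun x => ⟨Metric.ball x 1, Metric.ball_mem_nhds x one_pos, hfin _ Metric.isBounded_ball⟩⟩
  -- `g` is integrable w.r.t. `m`
  have hgi : Integrable g m := by
    have h1 : Integrable ((Metric.closedBall o R).indicator fun _ => B) m :=
      (integrable_indicator_iff Metric.isClosed_closedBall.measurableSet).2
        (integrableOn_const (hfin _ Metric.isBounded_closedBall).ne)
    refine h1.mono' hg.aestronglyMeasurable (Eventually.of_forall fun x => ?_)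
    by_cases hx : x ∈ Metric.closedBall o R
    · rw [indicator_of_mem hx, Real.norm_eq_abs]
      exact hgb x
    · rw [indicator_of_notMem hx, hgs x hx, norm_zero]
  -- approximation by bounded continuous functions
  choose gk hgk1 hgk2 using fun k : ℕ =>
    hgi.exists_boundedContinuous_integral_sub_le (ε := 1 / ((k : ℝ) + 1)) (by positivity)
  have hunif : TendstoUniformlyOn
      (fun (k : ℕ) (ν : ProbabilityMeasure X) => ∫ x, gk k x ∂(ν : Measure X))
      (fun ν : ProbabilityMeasure X => ∫ x, g x ∂(ν : Measure X)) atTop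
      {ν | (ν : Measure X) ≤ (C : ℝ≥0∞) • m} := by
    rw [Metric.tendstoUniformlyOn_iff]
    intro ε hε
    have hlim : Tendsto (fun k : ℕ => (C : ℝ) * (1 / ((k : ℝ) + 1))) atTop (𝓝 ((C : ℝ) * 0)) :=
      tendsto_one_div_add_atTop_nhds_zero_nat.const_mul _
    rw [mul_zero] at hlim
    filter_upwards [hlim.eventually (gt_mem_nhds hε)] with k hk ν hν
    refine lt_of_le_of_lt ?_ hk
    have hgν : Integrable g (ν : Measure X) :=
      Integrable.of_bound hg.aestronglyMeasurable B (Eventually.of_forall fun x => by
        rw [Real.norm_eq_abs]; exact hgb x)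
    have hkν : Integrable (gk k) (ν : Measure X) := (gk k).integrable _
    rw [Real.dist_eq, ← integral_sub hgν hkν]
    have hdm : Integrable (fun x => ‖g x - gk k x‖) ((C : ℝ≥0∞) • m) :=
      ((hgi.sub (hgk2 k)).norm).smul_measure ENNReal.coe_ne_top
    calc |∫ x, (g x - gk k x) ∂(ν : Measure X)|
        ≤ ∫ x, ‖g x - gk k x‖ ∂(ν : Measure X) := by
          rw [← Real.norm_eq_abs]; exact norm_integral_le_integral_norm _
      _ ≤ ∫ x, ‖g x - gk k x‖ ∂((C : ℝ≥0∞) • m) :=
          integral_mono_measure hν (Eventually.of_forall fun x => norm_nonneg _) hdm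
      _ = (C : ℝ) * ∫ x, ‖g x - gk k x‖ ∂m := by
          rw [integral_smul_measure]; simp
      _ ≤ (C : ℝ) * (1 / ((k : ℝ) + 1)) := mul_le_mul_of_nonneg_left (hgk1 k) C.coe_nonneg
  refine hunif.continuousOn (Frequently.of_forall fun k => Continuous.continuousOn ?_)
  exact ProbabilityMeasure.continuous_integral_boundedContinuousFunction (gk k)

end

end Claimed.Agent.R210.GM.UtilE
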