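/-
Row 210 (S0432), layer GM (architect helper666), block U (sub-architect helper788).   File MnLsc: **M2**, `ν ↦ ∫ u(ρ_ν) dm` is lower semicontinuous on `gm_J m C' o R'`
(probability measures with density `≤ C'` on a fixed ball).   EXPORT for block D (GM5) as well.
-/
import Claimed.Agent.R210.GM.MnLscA
import Claimed.Agent.R210.GM.MnLscB
import Claimed.Agent.R210.GM.UtilA
import Claimed.Agent.R210.GM.UtilE

set_option autoImplicit false
set_option linter.unusedSectionVars false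

open Claims.C0366 Claims.C0366.WeakHessian
open Set Filter MeasureTheory
open scoped ENNReal NNReal Topology

namespace Claimed.Agent.R210.GM.MnLsc

open Claimed.Agent.R210.GM.Defs Claimed.Agent.R210.Defs Claimed.Agent.R210.GM.MnDefs Claimed.Agent.R210.GM.MnDens
  Claimed.Agent.R210.GM.MnComp Claimed.Agent.R210.GM.MnLscA Claimed.Agent.R210.GM.MnLscB
  Claimed.Agent.R210.GM.UtilA Claimed.Agent.R210.GM.UtilE

noncomputable section

variable {X : Type*} [MetricSpace X] [MeasurableSpace X] [BorelSpace X]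
variable {m : Measure X} {u u' : ℝ → ℝ}

/-- nice representative of an element of `gm_J` -/
theorem gm_J_nice (hfin : FiniteOnBoundedSets m) {C' : ℝ≥0} {o : X} {R' : ℝ} {ν : ProbabilityMeasure X}
    (hν : ν ∈ gm_J m C' o R') :
    ∃ r : X → ℝ, gm_Nice (C' : ℝ) (Metric.closedBall o R') r ∧ dens m r = (ν : Measure X) := by
  haveI := gm_sigmaFinite hfin
  exact gm_nice_exists hν.1 measurableSet_closedBall hν.2

/-- **M2.** -/
theorem gm_U_lsc [ProperSpace X] (hfin : FiniteOnBoundedSets m) (hu : gm_UFun u u') (C' : ℝ≥0) (o : X) (R' : ℝ) :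
    LowerSemicontinuousOn (fun ν : ProbabilityMeasure X => gm_U m u (ν : Measure X)) (gm_J m C' o R') := by
  haveI := gm_sigmaFinite hfin
  set Z := Metric.closedBall o R' with hZdef
  have hZ : MeasurableSet Z := measurableSet_closedBall
  have hmZ : m Z < ∞ := hfin Z Metric.isBounded_closedBall
  intro ν hν y hy
  obtain ⟨r, hr, hrν⟩ := gm_J_nice hfin hν
  have hUν : gm_U m u (ν : Measure X) = ∫ x, u (r x) ∂m := by
    rw [← hrν]; exact gm_U_dens u hr.meas hr.nonneg
  simp only at hy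
  rw [hUν] at hy
  obtain ⟨δ₀, hδ₀, hneg⟩ := hu.neg
  -- choose δ
  have h1 : ∀ᶠ δ in 𝓝[>] (0 : ℝ), y < ∫ x in Z, u (max (r x) δ) ∂m :=
    (gm_tendsto_max hZ hmZ hu hr).eventually (lt_mem_nhds hy)
  have h2 : ∀ᶠ δ in 𝓝[>] (0 : ℝ), δ ∈ Ioo 0 δ₀ := Ioo_mem_nhdsGT hδ₀
  obtain ⟨δ, hδy, hδ⟩ := (h1.and h2).exists
  set g := gm_slope u' Z r δ with hg
  have hgm : Measurable g := gm_slope_meas hu.cont' hZ hr.meas hδ.1
  obtain ⟨B, hB⟩ := gm_slope_bdd (Z := Z) hu.cont' hr.le hδ.1
  have hcont := gm_continuousOn_integral hfin C' hgm hB (gm_slope_supp u' Z r δ)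
  set c₀ := (∫ x in Z, u (max (r x) δ) ∂m) - ∫ x, g x * max (r x) δ ∂m with hc₀
  have hcw : ContinuousWithinAt (fun ν' : ProbabilityMeasure X => c₀ + ∫ x, g x ∂(ν' : Measure X))
      (gm_J m C' o R') ν :=
    (continuousWithinAt_const.add (hcont ν hν.1)).mono fun ν' h => h.1
  have hLν : y < c₀ + ∫ x, g x ∂(ν : Measure X) := by
    rw [← hrν, gm_integral_dens hr.meas hr.nonneg]
    have := gm_slope_self hZ hmZ hu hr hδ.1 (hneg δ hδ.1 hδ.2)
    rw [hc₀]
    linarith
  have hev := hcw.eventually (lt_mem_nhds hLν)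
  filter_upwards [hev, self_mem_nhdsWithin] with ν' hν'y hν'
  obtain ⟨r', hr', hrν'⟩ := gm_J_nice hfin hν'
  have hUν' : gm_U m u (ν' : Measure X) = ∫ x, u (r' x) ∂m := by
    rw [← hrν']; exact gm_U_dens u hr'.meas hr'.nonneg
  rw [hUν']
  rw [← hrν', gm_integral_dens hr'.meas hr'.nonneg] at hν'y
  have := gm_tangent_int hZ hmZ hu hr hr' hδ.1
  rw [hc₀] at hν'y
  linarith

end

end Claimed.Agent.R210.GM.MnLsc
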