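/-
Row 210 (S0432), layer GM (architect helper666), block U (sub-architect helper788).   Leaf file MnVarA: first variation (M4), the two POINTWISE inequalities (real numbers only).
`y = (1-ε) a + ε b = a + ε (b - a)`.   Tangent at `y > 0`:  `hu.tangent a y : u y + u' y * (a - y) ≤ u a`, `a - y = -ε (b - a)`, so `u y - u a ≤ ε (b - a) u' y`.
`hu.mono.monotoneOn` compares `u' y` with `u'` at the end point.
-/
import Claimed.Agent.R210.GM.MnDefs

set_option autoImplicit false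
set_option linter.unusedSectionVars false

open Claims.C0366 Claims.C0366.WeakHessian
open Set Filter MeasureTheory
open scoped ENNReal NNReal Topology

namespace Claimed.Agent.R210.GM.MnVarA

open Claimed.Agent.R210.GM.Defs Claimed.Agent.R210.Defs Claimed.Agent.R210.GM.MnDefs

variable {u u' : ℝ → ℝ} {a b S C' ε : ℝ}

/-- off `A`:  `0 ≤ a ≤ S`, `a ≤ b ≤ C'`.   `y ≤ a + ε b ≤ S + ε C'`.   If `y = 0` then `a = b = 0` and both sides are `0`.   If `y > 0`: `u' y ≤ u' (S + ε C')` and `b - a ≥ 0`. -/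
theorem gm_var_pt_off (hu : gm_UFun u u') (hS : 0 < S) (ha0 : 0 ≤ a) (haS : a ≤ S) (hab : a ≤ b) (hb : b ≤ C')
    (hε0 : 0 < ε) (hε1 : ε < 1) :
    u ((1 - ε) * a + ε * b) - u a ≤ ε * (u' (S + ε * C') * (b - a)) := by
  have hb0 : 0 ≤ b := ha0.trans hab
  have hy0 : 0 ≤ (1 - ε) * a + ε * b := by
    have : 0 ≤ (1 - ε) * a := mul_nonneg (by linarith) ha0
    have : 0 ≤ ε * b := mul_nonneg hε0.le hb0
    linarith
  rcases hy0.eq_or_lt with hy | hy
  · -- y = 0: a = b = 0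
    have h1 : 0 ≤ (1 - ε) * a := mul_nonneg (by linarith) ha0
    have h2 : 0 ≤ ε * b := mul_nonneg hε0.le hb0
    have h3 : ε * b = 0 := by linarith
    have hb' : b = 0 := by
      rcases mul_eq_zero.1 h3 with h | h
      · exact absurd h hε0.ne'
      · exact h
    have ha' : a = 0 := le_antisymm (hab.trans hb'.le) ha0
    subst ha' hb'
    simp
  · have ht := hu.tangent a _ ha0 hy
    have hyle : (1 - ε) * a + ε * b ≤ S + ε * C' := by
      have h1 : (1 - ε) * a ≤ a := by nlinarith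
      have h2 : ε * b ≤ ε * C' := mul_le_mul_of_nonneg_left hb hε0.le
      linarith
    have hpos : 0 < S + ε * C' := lt_of_lt_of_le hy hyle
    have hm : u' ((1 - ε) * a + ε * b) ≤ u' (S + ε * C') :=
      hu.mono.monotoneOn (mem_Ioi.2 hy) (mem_Ioi.2 hpos) hyle
    have e : a - ((1 - ε) * a + ε * b) = -(ε * (b - a)) := by ring
    rw [e] at ht
    have h5 : 0 ≤ ε * (b - a) := mul_nonneg hε0.le (by linarith)
    have h6 : u' ((1 - ε) * a + ε * b) * (ε * (b - a)) ≤ u' (S + ε * C') * (ε * (b - a)) :=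
      mul_le_mul_of_nonneg_right hm h5
    nlinarith

/-- on `A`:  `S < a`, `0 ≤ b ≤ S`.   `y ≥ (1-ε) a > 0`, `u' ((1-ε) a) ≤ u' y`, `b - a < 0`. -/
theorem gm_var_pt_on (hu : gm_UFun u u') (hS : 0 < S) (haS : S < a) (hb0 : 0 ≤ b) (hbS : b ≤ S)
    (hε0 : 0 < ε) (hε1 : ε < 1) :
    u ((1 - ε) * a + ε * b) - u a ≤ ε * (u' ((1 - ε) * a) * (b - a)) := by
  have ha : 0 < a := hS.trans haS
  have h1 : 0 < (1 - ε) * a := mul_pos (by linarith) ha
  have h2 : 0 ≤ ε * b := mul_nonneg hε0.le hb0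
  have hy : 0 < (1 - ε) * a + ε * b := by linarith
  have ht := hu.tangent a _ ha.le hy
  have hm : u' ((1 - ε) * a) ≤ u' ((1 - ε) * a + ε * b) :=
    hu.mono.monotoneOn (mem_Ioi.2 h1) (mem_Ioi.2 hy) (by linarith)
  have e : a - ((1 - ε) * a + ε * b) = ε * (a - b) := by ring
  rw [e] at ht
  have h5 : 0 ≤ ε * (a - b) := mul_nonneg hε0.le (by linarith)
  have h6 : u' ((1 - ε) * a) * (ε * (a - b)) ≤ u' ((1 - ε) * a + ε * b) * (ε * (a - b)) :=
    mul_le_mul_of_nonneg_right hm h5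
  nlinarith

end Claimed.Agent.R210.GM.MnVarA
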