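/-
Row 210 (S0432), layer GM (architect helper666), block U (sub-architect helper788).   Leaf file MnVarB: first variation (M4), the INTEGRAL inequality.
`A = {x | S < r x}` (measurable: `measurableSet_lt measurable_const hr.meas`; `A ⊆ Z` since `r = 0 ≤ S` off `Z`), `h = r' - r`.
-/
import Claimed.Agent.R210.GM.MnComp
import Claimed.Agent.R210.GM.MnVarA

set_option autoImplicit false
set_option linter.unusedSectionVars false

open Claims.C0366 Claims.C0366.WeakHessian
open Set Filter MeasureTheory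
open scoped ENNReal NNReal Topology

namespace Claimed.Agent.R210.GM.MnVarB

open Claimed.Agent.R210.GM.Defs Claimed.Agent.R210.Defs Claimed.Agent.R210.GM.MnDefs Claimed.Agent.R210.GM.MnDens
  Claimed.Agent.R210.GM.MnComp Claimed.Agent.R210.GM.MnVarA

noncomputable section

variable {X : Type*} [MetricSpace X] [MeasurableSpace X] [BorelSpace X]
variable {m : Measure X} {Z : Set X} {r r' : X → ℝ} {u u' : ℝ → ℝ} {C' S ε : ℝ}

/-- convex combinations of nice densities are nice -/
theorem gm_nice_conv (hr : gm_Nice C' Z r) (hr' : gm_Nice C' Z r') (hε0 : 0 ≤ ε) (hε1 : ε ≤ 1) :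
    gm_Nice C' Z (fun x => (1 - ε) * r x + ε * r' x) := by
  refine ⟨(hr.meas.const_mul _).add (hr'.meas.const_mul _), fun x => ?_, fun x => ?_, fun x hx => ?_⟩
  · have h1 : 0 ≤ (1 - ε) * r x := mul_nonneg (by linarith) (hr.nonneg x)
    have h2 : 0 ≤ ε * r' x := mul_nonneg hε0 (hr'.nonneg x)
    linarith
  · have h1 : (1 - ε) * r x ≤ (1 - ε) * C' := mul_le_mul_of_nonneg_left (hr.le x) (by linarith)
    have h2 : ε * r' x ≤ ε * C' := mul_le_mul_of_nonneg_left (hr'.le x) hε0
    linarith
  · simp only [hr.supp x hx, hr'.supp x hx, mul_zero, add_zero]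

/-- `gm_integrable_of_bdd` with `B = C'`. -/
theorem gm_nice_integrable (hZ : MeasurableSet Z) (hmZ : m Z < ∞) (hr : gm_Nice C' Z r) : Integrable r m := by
  refine gm_integrable_of_bdd hZ hmZ hr.meas (B := C') (fun x => ?_) hr.supp
  rw [abs_of_nonneg (hr.nonneg x)]
  exact hr.le x

/-- the integrand on `A`:  `A.indicator (fun x => u' ((1-ε) * r x) * (r' x - r x))` is measurable (`gm_u'_indicator_meas` with `a = (1-ε) S`; `Set.indicator_mul_left`/rewrite as product of an indicator with `r' - r`),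
bounded (`gm_u'_bdd` on `[(1-ε) S, C']`, `|r' - r| ≤ C'`) and vanishes off `Z`. -/
theorem gm_var_integrableOn (hZ : MeasurableSet Z) (hmZ : m Z < ∞) (hu : gm_UFun u u') (hS : 0 < S)
    (hr : gm_Nice C' Z r) (hr' : gm_Nice C' Z r') (hε0 : 0 < ε) (hε1 : ε < 1) :
    IntegrableOn (fun x => u' ((1 - ε) * r x) * (r' x - r x)) {x | S < r x} m := by
  have hA : MeasurableSet {x | S < r x} := measurableSet_lt measurable_const hr.meas
  rw [← integrable_indicator_iff hA]
  have h1ε : 0 < 1 - ε := by linarith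
  have ha : 0 < (1 - ε) * S := mul_pos h1ε hS
  obtain ⟨B, hB⟩ := gm_u'_bdd hu.cont' ha C'
  have hm1 : Measurable ({x | S < r x}.indicator fun x => u' ((1 - ε) * r x)) :=
    gm_u'_indicator_meas hu.cont' hA (hr.meas.const_mul _) ha
      (fun x hx => mul_le_mul_of_nonneg_left (le_of_lt hx) h1ε.le)
  have heq : ({x | S < r x}.indicator fun x => u' ((1 - ε) * r x) * (r' x - r x)) =
      fun x => ({x | S < r x}.indicator fun x => u' ((1 - ε) * r x)) x * (r' x - r x) := by
    funext x
    by_cases hx : x ∈ {x | S < r x}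
    · rw [indicator_of_mem hx, indicator_of_mem hx]
    · rw [indicator_of_notMem hx, indicator_of_notMem hx, zero_mul]
  rw [heq]
  refine gm_integrable_of_bdd hZ hmZ (hm1.mul (hr'.meas.sub hr.meas)) (B := |B| * C') (fun x => ?_)
    (fun x hx => ?_)
  · have hC : 0 ≤ C' := (hr.nonneg x).trans (hr.le x)
    have hd : |r' x - r x| ≤ C' := by
      rw [abs_le]
      constructor <;> linarith [hr.nonneg x, hr.le x, hr'.nonneg x, hr'.le x]
    rw [abs_mul]
    refine mul_le_mul ?_ hd (abs_nonneg _) (abs_nonneg _)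
    by_cases hx : x ∈ {x | S < r x}
    · rw [indicator_of_mem hx]
      refine (hB _ (mul_le_mul_of_nonneg_left (le_of_lt hx) h1ε.le) ?_).trans (le_abs_self _)
      calc (1 - ε) * r x ≤ 1 * r x := mul_le_mul_of_nonneg_right (by linarith) (hr.nonneg x)
        _ = r x := one_mul _
        _ ≤ C' := hr.le x
    · rw [indicator_of_notMem hx, abs_zero]
      exact abs_nonneg _
  · rw [hr.supp x hx, hr'.supp x hx, sub_zero, mul_zero]

/-- **integral inequality.**   Pointwise (`gm_var_pt_on`, `gm_var_pt_off`), for all `x`: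
`u ((1-ε) r + ε r') - u r ≤ ε * (A.indicator (fun x => u' ((1-ε) r x) * h x) x + Aᶜ.indicator (fun x => u' (S + ε C') * h x) x)`.
Integrate:  `∫ u(..) - ∫ u(r) ≤ ε (∫_A u'((1-ε) r) h + u'(S+εC') ∫_{Aᶜ} h)`  and  `∫_{Aᶜ} h = ∫ h - ∫_A h = -∫_A h`  (`hint`, `integral_add_compl`/`setIntegral_compl`),
so the bracket is `∫_A (u'((1-ε) r) - u'(S+εC')) h`  (`integral_sub`, `integral_const_mul`). -/
theorem gm_var_int (hZ : MeasurableSet Z) (hmZ : m Z < ∞) (hu : gm_UFun u u') (hS : 0 < S)
    (hr : gm_Nice C' Z r) (hr' : gm_Nice C' Z r') (hint : ∫ x, r x ∂m = ∫ x, r' x ∂m)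
    (h1 : ∀ x, S < r x → r' x ≤ S) (h2 : ∀ x, r x ≤ S → r x ≤ r' x) (hε0 : 0 < ε) (hε1 : ε < 1) :
    (∫ x, u ((1 - ε) * r x + ε * r' x) ∂m) - ∫ x, u (r x) ∂m
      ≤ ε * ∫ x in {x | S < r x}, (u' ((1 - ε) * r x) - u' (S + ε * C')) * (r' x - r x) ∂m := by
  have hA : MeasurableSet {x | S < r x} := measurableSet_lt measurable_const hr.meas
  set A : Set X := {x | S < r x} with hAdef
  set c : ℝ := u' (S + ε * C') with hc
  have ir : Integrable r m := gm_nice_integrable hZ hmZ hr
  have ir' : Integrable r' m := gm_nice_integrable hZ hmZ hr'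
  have ih : Integrable (fun x => r' x - r x) m := ir'.sub ir
  have iu1 : Integrable (fun x => u ((1 - ε) * r x + ε * r' x)) m :=
    gm_u_comp_integrable hZ hmZ hu (gm_nice_conv hr hr' hε0.le hε1.le)
  have iu2 : Integrable (fun x => u (r x)) m := gm_u_comp_integrable hZ hmZ hu hr
  have if1 : IntegrableOn (fun x => u' ((1 - ε) * r x) * (r' x - r x)) A m :=
    gm_var_integrableOn hZ hmZ hu hS hr hr' hε0 hε1
  have if2 : Integrable (fun x => c * (r' x - r x)) m := ih.const_mul c
  have j1 : Integrable (A.indicator fun x => u' ((1 - ε) * r x) * (r' x - r x)) m :=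
    if1.integrable_indicator hA
  have j2 : Integrable (Aᶜ.indicator fun x => c * (r' x - r x)) m := if2.indicator hA.compl
  have hpt : ∀ x, u ((1 - ε) * r x + ε * r' x) - u (r x) ≤
      ε * (A.indicator (fun x => u' ((1 - ε) * r x) * (r' x - r x)) x +
        Aᶜ.indicator (fun x => c * (r' x - r x)) x) := by
    intro x
    by_cases hx : x ∈ A
    · rw [Set.indicator_of_mem hx, Set.indicator_of_notMem (show x ∉ Aᶜ from fun h => h hx), add_zero]
      exact gm_var_pt_on hu hS hx (hr'.nonneg x) (h1 x hx) hε0 hε1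
    · rw [Set.indicator_of_notMem hx, Set.indicator_of_mem (show x ∈ Aᶜ from hx), zero_add]
      have hx' : r x ≤ S := not_lt.mp hx
      exact gm_var_pt_off hu hS (hr.nonneg x) hx' (h2 x hx') (hr'.le x) hε0 hε1
  have hmono : ∫ x, (u ((1 - ε) * r x + ε * r' x) - u (r x)) ∂m ≤
      ∫ x, ε * (A.indicator (fun x => u' ((1 - ε) * r x) * (r' x - r x)) x +
        Aᶜ.indicator (fun x => c * (r' x - r x)) x) ∂m :=
    integral_mono (iu1.sub iu2) ((j1.add j2).const_mul ε) hpt
  rw [integral_sub iu1 iu2, integral_const_mul, integral_add j1 j2, integral_indicator hA,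
    integral_indicator hA.compl, integral_const_mul] at hmono
  have hsplit : ∫ x in A, (r' x - r x) ∂m + ∫ x in Aᶜ, (r' x - r x) ∂m = 0 := by
    rw [integral_add_compl hA ih, integral_sub ir' ir, hint, sub_self]
  have hrhs : ∫ x in A, (u' ((1 - ε) * r x) - c) * (r' x - r x) ∂m =
      ∫ x in A, u' ((1 - ε) * r x) * (r' x - r x) ∂m - c * ∫ x in A, (r' x - r x) ∂m := by
    rw [← integral_const_mul, ← integral_sub if1 if2.integrableOn]
    congr 1
    funext x
    ring
  rw [hrhs]
  have h3 : ∫ x in Aᶜ, (r' x - r x) ∂m = -∫ x in A, (r' x - r x) ∂m := by linarith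
  rw [h3] at hmono
  calc _ ≤ _ := hmono
    _ = _ := by ring

end

end Claimed.Agent.R210.GM.MnVarB
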