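/-
Row 210 (S0432), layer GM (architect helper666), block U (sub-architect helper788).   Leaf file MnVarC: first variation (M4), the LIMIT `ε ↓ 0` and its strict sign.
`A = {x | S < r x}`, `h = r' - r < 0` on `A` (as `r' ≤ S < r`).
-/
import Claimed.Agent.R210.GM.MnComp

set_option autoImplicit false
set_option linter.unusedSectionVars false

open Claims.C0366 Claims.C0366.WeakHessian
open Set Filter MeasureTheory
open scoped ENNReal NNReal Topology

namespace Claimed.Agent.R210.GM.MnVarC

open Claimed.Agent.R210.GM.Defs Claimed.Agent.R210.Defs Claimed.Agent.R210.GM.MnDefs Claimed.Agent.R210.GM.MnDens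
  Claimed.Agent.R210.GM.MnComp

noncomputable section

variable {X : Type*} [MetricSpace X] [MeasurableSpace X] [BorelSpace X]
variable {m : Measure X} {Z : Set X} {r r' : X → ℝ} {u u' : ℝ → ℝ} {C' S : ℝ}

/-- the limit integrand is `< 0` on `A` (`hu.mono`: `u' S < u' (r x)`; `r' x - r x < 0`), `m A ≠ 0`:   apply `setIntegral_pos_iff_support_of_nonneg_ae` (or `integral_pos_iff_support_of_nonneg` on `m.restrict A`) to the NEGATIVE of the integrand.
Integrability on `A`: measurable (`gm_u'_indicator_meas` with `a = S`), bounded (`gm_u'_bdd` on `[S, C']`), `m A ≤ m Z < ∞`. -/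
theorem gm_var_lim_neg (hZ : MeasurableSet Z) (hmZ : m Z < ∞) (hu : gm_UFun u u') (hS : 0 < S)
    (hr : gm_Nice C' Z r) (hr' : gm_Nice C' Z r') (hA : m {x | S < r x} ≠ 0) (h1 : ∀ x, S < r x → r' x ≤ S) :
    ∫ x in {x | S < r x}, (u' (r x) - u' S) * (r' x - r x) ∂m < 0 := by
  have hAm : MeasurableSet {x | S < r x} := measurableSet_lt measurable_const hr.meas
  have hAZ : ∀ x, x ∉ Z → x ∉ {x | S < r x} := by
    intro x hx hxA
    have h0 : r x = 0 := hr.supp x hx
    have h2 : S < r x := hxA
    linarith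
  obtain ⟨B, hB⟩ := gm_u'_bdd hu.cont' hS C'
  have hm1 : Measurable ({x | S < r x}.indicator fun x => u' (r x)) :=
    gm_u'_indicator_meas hu.cont' hAm hr.meas hS (fun x hx => le_of_lt hx)
  have hgeq : ({x | S < r x}.indicator (fun x => (u' (r x) - u' S) * (r x - r' x)))
      = fun x => ({x | S < r x}.indicator (fun x => u' (r x)) x
          - {x | S < r x}.indicator (fun _ => u' S) x) * (r x - r' x) := by
    funext x
    by_cases hx : x ∈ {x | S < r x}
    · rw [indicator_of_mem hx, indicator_of_mem hx, indicator_of_mem hx]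
    · rw [indicator_of_notMem hx, indicator_of_notMem hx, indicator_of_notMem hx]; ring
  have hgm : Measurable ({x | S < r x}.indicator (fun x => (u' (r x) - u' S) * (r x - r' x))) := by
    rw [hgeq]
    exact (hm1.sub (measurable_const.indicator hAm)).mul (hr.meas.sub hr'.meas)
  have hpos : ∀ x, x ∈ {x | S < r x} → 0 < (u' (r x) - u' S) * (r x - r' x) := by
    intro x hx
    have hx' : S < r x := hx
    have h2 : u' S < u' (r x) := hu.mono (mem_Ioi.2 hS) (mem_Ioi.2 (hS.trans hx')) hx'
    have h3 := h1 x hx'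
    exact mul_pos (by linarith) (by linarith)
  have hgb : ∀ x, |({x | S < r x}.indicator (fun x => (u' (r x) - u' S) * (r x - r' x))) x|
      ≤ |B + B| * |C'| := by
    intro x
    by_cases hx : x ∈ {x | S < r x}
    · rw [indicator_of_mem hx, abs_mul]
      have hx' : S < r x := hx
      have e1 := hB (r x) hx'.le (hr.le x)
      have e2 := hB S le_rfl (hx'.le.trans (hr.le x))
      have e3 : |u' (r x) - u' S| ≤ |B + B| := by
        refine le_trans ?_ (le_abs_self _)
        rw [abs_le] at e1 e2 ⊢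
        constructor <;> linarith [e1.1, e1.2, e2.1, e2.2]
      have e4 : |r x - r' x| ≤ |C'| := by
        refine le_trans ?_ (le_abs_self _)
        rw [abs_le]
        constructor <;> linarith [hr.nonneg x, hr.le x, hr'.nonneg x, hr'.le x]
      exact mul_le_mul e3 e4 (abs_nonneg _) (abs_nonneg _)
    · rw [indicator_of_notMem hx, abs_zero]; positivity
  have hgi : Integrable ({x | S < r x}.indicator (fun x => (u' (r x) - u' S) * (r x - r' x))) m :=
    gm_integrable_of_bdd hZ hmZ hgm hgb (fun x hx => indicator_of_notMem (hAZ x hx) _)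
  have hnn : 0 ≤ ({x | S < r x}.indicator (fun x => (u' (r x) - u' S) * (r x - r' x))) := by
    intro x
    by_cases hx : x ∈ {x | S < r x}
    · rw [indicator_of_mem hx]; exact (hpos x hx).le
    · rw [indicator_of_notMem hx]; exact le_rfl
  have hsupp : Function.support ({x | S < r x}.indicator (fun x => (u' (r x) - u' S) * (r x - r' x)))
      = {x | S < r x} := by
    ext x
    rw [Function.mem_support]
    by_cases hx : x ∈ {x | S < r x}
    · rw [indicator_of_mem hx]
      exact ⟨fun _ => hx, fun _ => (hpos x hx).ne'⟩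
    · rw [indicator_of_notMem hx]
      exact ⟨fun h => absurd rfl h, fun h => absurd h hx⟩
  have hP : 0 < ∫ x, ({x | S < r x}.indicator (fun x => (u' (r x) - u' S) * (r x - r' x))) x ∂m := by
    rw [integral_pos_iff_support_of_nonneg hnn hgi, hsupp]
    exact pos_iff_ne_zero.2 hA
  rw [integral_indicator hAm] at hP
  have hneg : ∫ x in {x | S < r x}, (u' (r x) - u' S) * (r' x - r x) ∂m
      = - ∫ x in {x | S < r x}, (u' (r x) - u' S) * (r x - r' x) ∂m := by
    rw [← integral_neg]
    congr 1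
    funext x
    ring
  rw [hneg]
  linarith

/-- dominated convergence (`tendsto_integral_filter_of_dominated_convergence`) on `m.restrict A` (finite measure), `ε ∈ Ioo 0 (1/2)` (`Ioo_mem_nhdsGT`):
for `x ∈ A` (`ae_restrict_mem`): `(1-ε) r x ∈ [S/2, C']`, `S + ε C' ∈ [S/2, S + C']`, so `|u' ..| ≤ B` (`gm_u'_bdd hu.cont' (a := S/2) _ (S + C')`), `|r' x - r x| ≤ C'`: bound `2 B C'`.
Measurability: `AEStronglyMeasurable` on `m.restrict A` from `gm_u'_indicator_meas` (`aestronglyMeasurable_indicator_iff`), or via the clamp `u' (max ((1-ε) r x) (S/2))` which agrees on `A`.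
Pointwise: `u'` is continuous at `r x > 0` and at `S > 0` (`hu.cont'.continuousAt (Ioi_mem_nhds _)`), `(1-ε) r x → r x`, `S + ε C' → S` as `ε → 0` (restrict `𝓝 0` to `𝓝[>] 0`: `tendsto_nhdsWithin_of_tendsto_nhds`). -/
theorem gm_var_tendsto (hZ : MeasurableSet Z) (hmZ : m Z < ∞) (hu : gm_UFun u u') (hS : 0 < S)
    (hr : gm_Nice C' Z r) (hr' : gm_Nice C' Z r') :
    Tendsto (fun ε : ℝ => ∫ x in {x | S < r x}, (u' ((1 - ε) * r x) - u' (S + ε * C')) * (r' x - r x) ∂m)
      (𝓝[>] 0) (𝓝 (∫ x in {x | S < r x}, (u' (r x) - u' S) * (r' x - r x) ∂m)) := by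
  have hAm : MeasurableSet {x | S < r x} := measurableSet_lt measurable_const hr.meas
  have hAZ : {x | S < r x} ⊆ Z := by
    intro x hxA
    by_contra hx
    have h0 : r x = 0 := hr.supp x hx
    have h2 : S < r x := hxA
    linarith
  have hmA : m {x | S < r x} < ∞ := lt_of_le_of_lt (measure_mono hAZ) hmZ
  have : IsFiniteMeasure (m.restrict {x | S < r x}) :=
    ⟨by rw [Measure.restrict_apply_univ]; exact hmA⟩
  obtain ⟨B, hB⟩ := gm_u'_bdd hu.cont' (half_pos hS) (S + C')
  have hI : Ioo (0:ℝ) (1/2) ∈ 𝓝[>] (0:ℝ) := Ioo_mem_nhdsGT (by norm_num)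
  have key : ∀ ε ∈ Ioo (0:ℝ) (1/2), ∀ x ∈ {x | S < r x},
      S / 2 ≤ (1 - ε) * r x ∧ (1 - ε) * r x ≤ S + C' ∧ S / 2 ≤ S + ε * C' ∧ S + ε * C' ≤ S + C' := by
    intro ε hε x hx
    have hx' : S < r x := hx
    have hC : r x ≤ C' := hr.le x
    have h1 := hε.1
    have h2 := hε.2
    refine ⟨by nlinarith, by nlinarith, by nlinarith, by nlinarith⟩
  apply tendsto_integral_filter_of_dominated_convergence (fun _ => |B + B| * |C'|)
  · filter_upwards [hI] with ε hε
    have hm1 : Measurable ({x | S < r x}.indicator fun x => u' ((1 - ε) * r x)) :=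
      gm_u'_indicator_meas hu.cont' hAm (measurable_const.mul hr.meas) (half_pos hS)
        (fun x hx => (key ε hε x hx).1)
    have hgeq : ({x | S < r x}.indicator
        (fun x => (u' ((1 - ε) * r x) - u' (S + ε * C')) * (r' x - r x)))
      = fun x => ({x | S < r x}.indicator (fun x => u' ((1 - ε) * r x)) x
          - {x | S < r x}.indicator (fun _ => u' (S + ε * C')) x) * (r' x - r x) := by
      funext x
      by_cases hx : x ∈ {x | S < r x}
      · rw [indicator_of_mem hx, indicator_of_mem hx, indicator_of_mem hx]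
      · rw [indicator_of_notMem hx, indicator_of_notMem hx, indicator_of_notMem hx]; ring
    have hgm : Measurable ({x | S < r x}.indicator
        (fun x => (u' ((1 - ε) * r x) - u' (S + ε * C')) * (r' x - r x))) := by
      rw [hgeq]
      exact (hm1.sub (measurable_const.indicator hAm)).mul (hr'.meas.sub hr.meas)
    exact (aestronglyMeasurable_indicator_iff hAm).1 hgm.aestronglyMeasurable
  · filter_upwards [hI] with ε hε
    filter_upwards [ae_restrict_mem hAm] with x hx
    obtain ⟨k1, k2, k3, k4⟩ := key ε hε x hx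
    rw [Real.norm_eq_abs, abs_mul]
    have e1 := hB _ k1 k2
    have e2 := hB _ k3 k4
    have e3 : |u' ((1 - ε) * r x) - u' (S + ε * C')| ≤ |B + B| := by
      refine le_trans ?_ (le_abs_self _)
      rw [abs_le] at e1 e2 ⊢
      constructor <;> linarith [e1.1, e1.2, e2.1, e2.2]
    have e4 : |r' x - r x| ≤ |C'| := by
      refine le_trans ?_ (le_abs_self _)
      rw [abs_le]
      constructor <;> linarith [hr.nonneg x, hr.le x, hr'.nonneg x, hr'.le x]
    exact mul_le_mul e3 e4 (abs_nonneg _) (abs_nonneg _)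
  · exact integrable_const _
  · filter_upwards [ae_restrict_mem hAm] with x hx
    have hx' : S < r x := hx
    have c1 : ContinuousAt u' (r x) := hu.cont'.continuousAt (Ioi_mem_nhds (hS.trans hx'))
    have c2 : ContinuousAt u' S := hu.cont'.continuousAt (Ioi_mem_nhds hS)
    have t1 : Tendsto (fun ε : ℝ => (1 - ε) * r x) (𝓝 0) (𝓝 (r x)) := by
      have : Continuous (fun ε : ℝ => (1 - ε) * r x) := by fun_prop
      have h := this.tendsto 0
      simpa using h
    have t2 : Tendsto (fun ε : ℝ => S + ε * C') (𝓝 0) (𝓝 S) := by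
      have : Continuous (fun ε : ℝ => S + ε * C') := by fun_prop
      have h := this.tendsto 0
      simpa using h
    have t3 : Tendsto (fun ε : ℝ => (u' ((1 - ε) * r x) - u' (S + ε * C')) * (r' x - r x)) (𝓝 0)
        (𝓝 ((u' (r x) - u' S) * (r' x - r x))) :=
      ((c1.tendsto.comp t1).sub (c2.tendsto.comp t2)).mul_const _
    exact tendsto_nhdsWithin_of_tendsto_nhds t3

theorem gm_var_neg (hZ : MeasurableSet Z) (hmZ : m Z < ∞) (hu : gm_UFun u u') (hS : 0 < S)
    (hr : gm_Nice C' Z r) (hr' : gm_Nice C' Z r') (hA : m {x | S < r x} ≠ 0) (h1 : ∀ x, S < r x → r' x ≤ S) :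
    ∃ ε : ℝ, 0 < ε ∧ ε < 1 ∧
      ∫ x in {x | S < r x}, (u' ((1 - ε) * r x) - u' (S + ε * C')) * (r' x - r x) ∂m < 0 := by
  have h := (gm_var_tendsto hZ hmZ hu hS hr hr').eventually
    (gt_mem_nhds (gm_var_lim_neg hZ hmZ hu hS hr hr' hA h1))
  have h2 : ∀ᶠ ε in 𝓝[>] (0 : ℝ), ε ∈ Ioo (0 : ℝ) 1 := Ioo_mem_nhdsGT one_pos
  obtain ⟨ε, hε, hε2⟩ := (h.and h2).exists
  exact ⟨ε, hε2.1, hε2.2, hε⟩

end

end Claimed.Agent.R210.GM.MnVarC
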