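/-
Row 210 (S0432), layer GM (architect helper666), block U (sub-architect helper788).   File MnVar: **M4**, the first variation lemma (glue of MnVarB, MnVarC).
-/
import Claimed.Agent.R210.GM.MnVarB
import Claimed.Agent.R210.GM.MnVarC

set_option autoImplicit false
set_option linter.unusedSectionVars false

open Claims.C0366 Claims.C0366.WeakHessian
open Set Filter MeasureTheory
open scoped ENNReal NNReal Topology

namespace Claimed.Agent.R210.GM.MnVar

open Claimed.Agent.R210.GM.Defs Claimed.Agent.R210.Defs Claimed.Agent.R210.GM.MnDefs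
  Claimed.Agent.R210.GM.MnVarB Claimed.Agent.R210.GM.MnVarC

noncomputable section

variable {X : Type*} [MetricSpace X] [MeasurableSpace X] [BorelSpace X]
variable {m : Measure X} {Z : Set X} {r r' : X → ℝ} {u u' : ℝ → ℝ} {C' S : ℝ}

/-- **M4.**  Moving mass from `{r > S}` to `{r ≤ S}` strictly decreases `∫ u(r)`, to first order. -/
theorem gm_first_var (hZ : MeasurableSet Z) (hmZ : m Z < ∞) (hu : gm_UFun u u') (hS : 0 < S)
    (hr : gm_Nice C' Z r) (hr' : gm_Nice C' Z r') (hint : ∫ x, r x ∂m = ∫ x, r' x ∂m)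
    (hA : m {x | S < r x} ≠ 0) (h1 : ∀ x, S < r x → r' x ≤ S) (h2 : ∀ x, r x ≤ S → r x ≤ r' x) :
    ∃ ε : ℝ, 0 < ε ∧ ε < 1 ∧ ∫ x, u ((1 - ε) * r x + ε * r' x) ∂m < ∫ x, u (r x) ∂m := by
  obtain ⟨ε, hε0, hε1, hneg⟩ := gm_var_neg hZ hmZ hu hS hr hr' hA h1
  refine ⟨ε, hε0, hε1, ?_⟩
  have h := gm_var_int hZ hmZ hu hS hr hr' hint h1 h2 hε0 hε1
  have h3 := mul_neg_of_pos_of_neg hε0 hneg
  linarith

end

end Claimed.Agent.R210.GM.MnVar
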