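/-
Row 210 (S0432), layer GM (architect helper666).  Block T, leaf TriConv: convex combinations of triple plans (T2).
Plan and proofs: `git show origin/helper666:docs/R210_GM_plan.md`.
-/
import Claimed.Agent.R210.GM.Defs
import Claimed.Agent.R210.GM.TriA

set_option autoImplicit false

open Claims.C0366 Claims.C0366.WeakHessian
open Set Filter MeasureTheory
open scoped ENNReal NNReal Topology

namespace Claimed.Agent.R210.GM.TriConv

open Claimed.Agent.R210.GM.Defs Claimed.Agent.R210.CO.Ifc Claimed.Agent.R210.Defs Claimed.Agent.R210.GM.TriA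

noncomputable section

variable {X : Type*} [MetricSpace X] [MeasurableSpace X] [BorelSpace X]
  [CompleteSpace X] [TopologicalSpace.SeparableSpace X]
variable {m μ₀ μ₁ ν ν' σ : Measure X} {Λ Λ' : Measure (X × X × X)} {K N s D R : ℝ}
  {M₀ M₁ : ℝ≥0} {o : X}

/-- push-forward of a weighted sum of measures -/
theorem gm_map_sum_smul {α β ι : Type*} [MeasurableSpace α] [MeasurableSpace β]
    {f : α → β} (hf : Measurable f) (w : ι → ℝ≥0∞) (Ms : ι → Measure α) :
    Measure.map f (Measure.sum fun i => w i • Ms i)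
      = Measure.sum fun i => w i • Measure.map f (Ms i) := by
  rw [Measure.map_sum hf.aemeasurable]
  congr 1
  funext i
  rw [Measure.map_smul]

/-- a weighted sum of copies of one measure, total weight one -/
theorem gm_sum_smul_const {α ι : Type*} [MeasurableSpace α] {w : ι → ℝ≥0∞}
    (hw : ∑' i, w i = 1) (μ : Measure α) : (Measure.sum fun i => w i • μ) = μ := by
  ext A hA
  rw [Measure.sum_apply _ hA]
  simp only [Measure.smul_apply, smul_eq_mul]
  rw [ENNReal.tsum_mul_right, hw, one_mul]

theorem gm_tri_sum {ι : Type*} [Countable ι] {νs : ι → Measure X} {Λs : ι → Measure (X × X × X)}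
    (h : ∀ i, gm_Tri μ₀ μ₁ (νs i) s (Λs i)) {w : ι → ℝ≥0∞} (hw : ∑' i, w i = 1) :
    gm_Tri μ₀ μ₁ (Measure.sum fun i => w i • νs i) s (Measure.sum fun i => w i • Λs i) := by
  have hm0 : Measurable (fun p : X × X × X => p.1) := measurable_fst
  have hmz : Measurable (fun p : X × X × X => p.2.1) := measurable_fst.comp measurable_snd
  have hm1 : Measurable (fun p : X × X × X => p.2.2) := measurable_snd.comp measurable_snd
  have hmp : Measurable (fun p : X × X × X => (p.1, p.2.2)) := hm0.prodMk hm1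
  have e0 : Measure.map (fun p : X × X × X => p.1) (Measure.sum fun i => w i • Λs i) = μ₀ := by
    rw [gm_map_sum_smul hm0]
    simp only [(h _).m0]
    exact gm_sum_smul_const hw μ₀
  have e1 : Measure.map (fun p : X × X × X => p.2.2) (Measure.sum fun i => w i • Λs i) = μ₁ := by
    rw [gm_map_sum_smul hm1]
    simp only [(h _).m1]
    exact gm_sum_smul_const hw μ₁
  refine ⟨e0, ?_, e1, ⟨⟨?_, ?_⟩, ?_⟩, ?_, ?_⟩
  · rw [gm_map_sum_smul hmz]
    simp only [(h _).mz]
  · rw [Measure.map_map measurable_fst hmp]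
    exact e0
  · rw [Measure.map_map measurable_snd hmp]
    exact e1
  · intro q' hq'
    rw [gm_map_sum_smul hmp]
    unfold QuadraticTransportCost
    rw [lintegral_sum_measure]
    simp only [lintegral_smul_measure, smul_eq_mul]
    calc ∑' i, w i * ∫⁻ p, (edist p.1 p.2) ^ 2
            ∂(Measure.map (fun p : X × X × X => (p.1, p.2.2)) (Λs i))
        ≤ ∑' i, w i * ∫⁻ p, (edist p.1 p.2) ^ 2 ∂q' :=
          ENNReal.tsum_le_tsum fun i => mul_le_mul_right ((h i).opt.2 q' hq') _
      _ = ∫⁻ p, (edist p.1 p.2) ^ 2 ∂q' := by rw [ENNReal.tsum_mul_right, hw, one_mul]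
  · rw [Measure.ae_sum_iff]
    intro i
    exact Measure.ae_smul_measure (h i).al0 _
  · rw [Measure.ae_sum_iff]
    intro i
    exact Measure.ae_smul_measure (h i).al1 _

theorem gm_tri_add (h : gm_Tri μ₀ μ₁ ν s Λ) (h' : gm_Tri μ₀ μ₁ ν' s Λ') {a b : ℝ≥0∞}
    (hab : a + b = 1) : gm_Tri μ₀ μ₁ (a • ν + b • ν') s (a • Λ + b • Λ') := by
  have key := gm_tri_sum (ι := Bool) (μ₀ := μ₀) (μ₁ := μ₁) (s := s)
    (νs := fun c => cond c ν ν') (Λs := fun c => cond c Λ Λ')
    (fun c => by cases c <;> simpa) (w := fun c => cond c a b)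
    (by rw [tsum_bool]; simpa [add_comm] using hab)
  simpa [Measure.sum_bool] using key

end

end Claimed.Agent.R210.GM.TriConv
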