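/-
Row 210 (S0432), layer GM (architect helper666), block U (sub-architect helper788).   File MnStep: **M5**, a minimiser of `U` on `I^{C'}`, `C' ≥ 2S`, has density `≤ S`.
-/
import Claimed.Agent.R210.GM.MnVar
import Claimed.Agent.R210.GM.UtilA
import Claimed.Agent.R210.GM.TriConv
import Claimed.Agent.R210.GM.TriCons
import Claimed.Agent.R210.GM.Cut

set_option autoImplicit false
set_option linter.unusedSectionVars false

open Claims.C0366 Claims.C0366.WeakHessian
open Set Filter MeasureTheory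
open scoped ENNReal NNReal Topology

namespace Claimed.Agent.R210.GM.MnStep

open Claimed.Agent.R210.GM.Defs Claimed.Agent.R210.Defs Claimed.Agent.R210.GM.MnDefs Claimed.Agent.R210.GM.MnDens
  Claimed.Agent.R210.GM.MnVarB Claimed.Agent.R210.GM.MnVar Claimed.Agent.R210.GM.UtilA Claimed.Agent.R210.GM.UtilB
  Claimed.Agent.R210.GM.TriA Claimed.Agent.R210.GM.TriConv Claimed.Agent.R210.GM.TriCons Claimed.Agent.R210.GM.Cut

noncomputable section

variable {X : Type*} [MetricSpace X] [MeasurableSpace X] [BorelSpace X]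
  [CompleteSpace X] [TopologicalSpace.SeparableSpace X] [ProperSpace X]
variable {m μ₀ μ₁ : Measure X} {s D R : ℝ} {M₀ M₁ S C' : ℝ≥0} {o : X} {u u' : ℝ → ℝ}

/-- GM1 with `t = 1`:  there is an intermediate point with density `≤ S`. -/
theorem gm_G1_one (h0 : BddDens m μ₀ M₀ o R) (h1 : BddDens m μ₁ M₁ o R) (hD : gm_HD μ₀ μ₁ D)
    (hG1 : gm_G1 m s D R o M₀ M₁ S) :
    ∃ (σ : Measure X) (Λ : Measure (X × X × X)), gm_Tri μ₀ μ₁ σ s Λ ∧ σ ≤ (S : ℝ≥0∞) • m := by
  have := hG1 1 μ₀ μ₁ (by simpa using h0) (by simpa using h1) hD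
  simpa using this

/-- a probability measure is not `≤ 0 • m` -/
theorem gm_G1_pos (h0 : BddDens m μ₀ M₀ o R) (h1 : BddDens m μ₁ M₁ o R) (hD : gm_HD μ₀ μ₁ D)
    (hG1 : gm_G1 m s D R o M₀ M₁ S) : 0 < S := by
  obtain ⟨σ, Λ, hΛ, hσ⟩ := gm_G1_one h0 h1 hD hG1
  have := h0.prob
  have := (gm_tri_prob hΛ).2.1
  by_contra hS
  have hS0 : S = 0 := le_antisymm (not_lt.mp hS) zero_le
  have h := hσ univ
  rw [hS0] at h
  simp at h

/-- **M5.** -/
theorem gm_min_le (hfin : FiniteOnBoundedSets m) (hu : gm_UFun u u')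
    (h0 : BddDens m μ₀ M₀ o R) (h1 : BddDens m μ₁ M₁ o R) (hD : gm_HD μ₀ μ₁ D)
    (hs0 : 0 < s) (hG1 : gm_G1 m s D R o M₀ M₁ S) (hC : 2 * S ≤ C')
    {ν : ProbabilityMeasure X} (hν : ν ∈ gm_IC m μ₀ μ₁ s C')
    (hmin : ∀ ν' ∈ gm_IC m μ₀ μ₁ s C', gm_U m u (ν : Measure X) ≤ gm_U m u (ν' : Measure X)) :
    (ν : Measure X) ≤ (S : ℝ≥0∞) • m := by
  have := gm_sigmaFinite hfin
  have := h0.prob
  have hS : 0 < S := gm_G1_pos h0 h1 hD hG1
  have hSr : (0 : ℝ) < (S : ℝ) := by exact_mod_cast hS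
  have hCr : 2 * (S : ℝ) ≤ (C' : ℝ) := by exact_mod_cast hC
  set Z := Metric.closedBall o (R + s * D) with hZdef
  have hZ : MeasurableSet Z := measurableSet_closedBall
  have hmZ : m Z < ∞ := hfin Z Metric.isBounded_closedBall
  obtain ⟨⟨Λ, hΛ⟩, hle⟩ := hν
  have hle' : (ν : Measure X) ≤ (C' : ℝ≥0∞) • m := hle
  have hconc : (ν : Measure X) Zᶜ = 0 := gm_tri_conc hΛ h0.conc hD hs0.le
  obtain ⟨r, hr, hrν⟩ := gm_nice_exists hle' hZ hconc
  set A := {x | (S : ℝ) < r x} with hAdef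
  have hA : MeasurableSet A := measurableSet_lt measurable_const hr.meas
  by_cases hmA : m A = 0
  · rw [← hrν]
    refine gm_dens_le_of_ae ?_
    have hae : ∀ᵐ x ∂m, x ∉ A := measure_eq_zero_iff_ae_notMem.mp hmA
    filter_upwards [hae] with x hx
    exact not_lt.mp hx
  · exfalso
    have hνA : (ν : Measure X) A ≠ 0 := by
      rw [← hrν]
      exact gm_dens_apply_ne_zero hr.meas hA (fun x hx => lt_trans hSr hx) hmA
    obtain ⟨τ, Λ', hτ, hτS, hΛ'⟩ := gm_cut hΛ h0 h1 hD hG1 hA hνA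
    set η := (ν : Measure X) A • τ with hη
    have : IsFiniteMeasure η := by
      rw [hη]
      exact ⟨by simp [Measure.smul_apply, measure_lt_top]⟩
    have hprob' : IsProbabilityMeasure ((ν : Measure X).restrict Aᶜ + η) := (gm_tri_prob hΛ').2.1
    have hconc' : ((ν : Measure X).restrict Aᶜ + η) Zᶜ = 0 := gm_tri_conc hΛ' h0.conc hD hs0.le
    have hηZ : η Zᶜ = 0 := by
      have h3 : η Zᶜ ≤ ((ν : Measure X).restrict Aᶜ + η) Zᶜ := by
        rw [Measure.add_apply]; exact le_add_self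
      exact le_antisymm (h3.trans hconc'.le) zero_le
    obtain ⟨t, ht, htη⟩ := gm_nice_exists hτS hZ hηZ
    have hind0 : ∀ x, 0 ≤ Aᶜ.indicator r x := fun x => Set.indicator_nonneg (fun y _ => hr.nonneg y) x
    set r' : X → ℝ := fun x => Aᶜ.indicator r x + t x with hr'def
    have hr'dens : dens m r' = (ν : Measure X).restrict Aᶜ + η := by
      rw [hr'def, gm_dens_add (hr.meas.indicator hA.compl) hind0 ht.nonneg, ← gm_dens_restrict hA.compl,
        hrν, htη]
    have hon : ∀ x, (S : ℝ) < r x → r' x = t x := by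
      intro x hx
      have hxA : x ∉ Aᶜ := fun h => h hx
      simp only [hr'def, Set.indicator_of_notMem hxA, zero_add]
    have hoff : ∀ x, r x ≤ (S : ℝ) → r' x = r x + t x := by
      intro x hx
      have hxA : x ∈ Aᶜ := fun h => absurd h (not_lt.mpr hx)
      simp only [hr'def, Set.indicator_of_mem hxA]
    have hr' : gm_Nice (C' : ℝ) Z r' := by
      refine ⟨(hr.meas.indicator hA.compl).add ht.meas, fun x => add_nonneg (hind0 x) (ht.nonneg x), fun x => ?_,
        fun x hx => ?_⟩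
      · rcases lt_or_ge (S : ℝ) (r x) with h | h
        · rw [hon x h]; linarith [ht.le x]
        · rw [hoff x h]; linarith [ht.le x]
      · have h : r x ≤ (S : ℝ) := by rw [hr.supp x hx]; exact hSr.le
        rw [hoff x h, hr.supp x hx, ht.supp x hx, add_zero]
    have hint : ∫ x, r x ∂m = ∫ x, r' x ∂m := by
      rw [gm_dens_univ hr.meas hr.nonneg, gm_dens_univ hr'.meas hr'.nonneg, hrν, hr'dens, measure_univ,
        measure_univ]
    obtain ⟨ε, hε0, hε1, hlt⟩ := gm_first_var hZ hmZ hu hSr hr hr' hint hmA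
      (fun x hx => by rw [hon x hx]; exact ht.le x)
      (fun x hx => by rw [hoff x hx]; linarith [ht.nonneg x])
    have hconv := gm_nice_conv hr hr' hε0.le hε1.le
    have hab : ENNReal.ofReal (1 - ε) + ENNReal.ofReal ε = 1 := by
      rw [← ENNReal.ofReal_add (by linarith) hε0.le]; simp
    have hΛε := gm_tri_add hΛ hΛ' hab
    have hdε : dens m (fun x => (1 - ε) * r x + ε * r' x)
        = ENNReal.ofReal (1 - ε) • (ν : Measure X) + ENNReal.ofReal ε • ((ν : Measure X).restrict Aᶜ + η) := by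
      rw [gm_dens_add (hr.meas.const_mul _) (fun x => mul_nonneg (by linarith) (hr.nonneg x))
        (fun x => mul_nonneg hε0.le (hr'.nonneg x)), gm_dens_smul hr.meas (by linarith),
        gm_dens_smul hr'.meas hε0.le, hrν, hr'dens]
    rw [← hdε] at hΛε
    have : IsProbabilityMeasure (dens m (fun x => (1 - ε) * r x + ε * r' x)) := (gm_tri_prob hΛε).2.1
    have hmem : (⟨dens m (fun x => (1 - ε) * r x + ε * r' x), inferInstance⟩ : ProbabilityMeasure X)
        ∈ gm_IC m μ₀ μ₁ s C' := ⟨⟨_, hΛε⟩, gm_dens_le hconv.le⟩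
    have h5 := hmin _ hmem
    rw [ProbabilityMeasure.coe_mk, gm_U_dens u hconv.meas hconv.nonneg, ← hrν, gm_U_dens u hr.meas hr.nonneg] at h5
    exact absurd hlt (not_lt.mpr h5)

end

end Claimed.Agent.R210.GM.MnStep
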