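/-
Row 210 (S0432), layer GM (architect helper666).  Block T, leaf TriCptA: closed conditions on probability measures on the triple product (T3).
Plan and proofs: `git show origin/helper666:docs/R210_GM_plan.md`.
-/
import Claimed.Agent.R210.GM.Defs
import Claimed.Agent.R210.GM.UtilC

set_option autoImplicit false

open Claims.C0366 Claims.C0366.WeakHessian
open Set Filter MeasureTheory
open scoped ENNReal NNReal Topology

namespace Claimed.Agent.R210.GM.TriCptA

open Claimed.Agent.R210.GM.Defs Claimed.Agent.R210.CO.Ifc Claimed.Agent.R210.Defs Claimed.Agent.R210.GM.UtilC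

noncomputable section

variable {X : Type*} [MetricSpace X] [MeasurableSpace X] [BorelSpace X]
  [CompleteSpace X] [TopologicalSpace.SeparableSpace X]
variable {μ₀ μ₁ : Measure X} {s R : ℝ} {o : X}

/-- prescribing the image measure under a continuous map is a closed condition -/
theorem gm_isClosed_map_eq {E E' : Type*} [MetricSpace E] [MeasurableSpace E] [BorelSpace E]
    [MetricSpace E'] [MeasurableSpace E'] [BorelSpace E'] {f : E → E'} (hf : Continuous f)
    (μ : Measure E') : IsClosed {Λ : ProbabilityMeasure E | Measure.map f (Λ : Measure E) = μ} := by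
  by_cases hμ : IsProbabilityMeasure μ
  · have hc := ProbabilityMeasure.continuous_map hf
    have e : {Λ : ProbabilityMeasure E | Measure.map f (Λ : Measure E) = μ}
        = (fun ν : ProbabilityMeasure E => ν.map hf.measurable.aemeasurable) ⁻¹'
          {(⟨μ, hμ⟩ : ProbabilityMeasure E')} := by
      ext Λ
      simp only [mem_setOf_eq, mem_preimage, mem_singleton_iff]
      constructor
      · intro h
        exact Subtype.ext h
      · intro h
        exact congrArg Subtype.val h
    rw [e]
    exact isClosed_singleton.preimage hc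
  · have e : {Λ : ProbabilityMeasure E | Measure.map f (Λ : Measure E) = μ} = ∅ := by
      ext Λ
      simp only [mem_setOf_eq, mem_empty_iff_false, iff_false]
      intro h
      apply hμ
      rw [← h]
      exact Measure.isProbabilityMeasure_map hf.measurable.aemeasurable
    rw [e]
    exact isClosed_empty

/-- the set of aligned triples is closed -/
theorem gm_isClosed_aligned (s : ℝ) :
    IsClosed {p : X × X × X | dist p.1 p.2.1 = s * dist p.1 p.2.2 ∧
      dist p.2.1 p.2.2 = (1 - s) * dist p.1 p.2.2} := by
  exact (isClosed_eq (by fun_prop) (by fun_prop)).inter (isClosed_eq (by fun_prop) (by fun_prop))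

/-- an upper bound for the (truncated) cost is a closed condition -/
theorem gm_isClosed_cost (T : ℝ) (c : ℝ≥0∞) :
    IsClosed {Λ : ProbabilityMeasure (X × X × X) |
      ∫⁻ p, ENNReal.ofReal (min (dist p.1 p.2.2 ^ 2) T) ∂(Λ : Measure (X × X × X)) ≤ c} := by
  have hcont : Continuous (fun p : X × X × X => Real.toNNReal (min (dist p.1 p.2.2 ^ 2) T)) := by
    fun_prop
  have hbd : ∀ p q : X × X × X, dist (Real.toNNReal (min (dist p.1 p.2.2 ^ 2) T))
      (Real.toNNReal (min (dist q.1 q.2.2 ^ 2) T)) ≤ max T 0 := by
    intro p q
    have h : ∀ r : X × X × X, ((Real.toNNReal (min (dist r.1 r.2.2 ^ 2) T) : ℝ≥0) : ℝ) ≤ max T 0 := by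
      intro r
      rw [Real.coe_toNNReal']
      exact max_le_max (min_le_right _ _) le_rfl
    rw [NNReal.dist_eq, abs_le]
    have h1 := h p
    have h2 := h q
    have h3 := (Real.toNNReal (min (dist p.1 p.2.2 ^ 2) T)).2
    have h4 := (Real.toNNReal (min (dist q.1 q.2.2 ^ 2) T)).2
    constructor <;> linarith
  let φ : BoundedContinuousFunction (X × X × X) ℝ≥0 :=
    BoundedContinuousFunction.mkOfBound ⟨_, hcont⟩ (max T 0) hbd
  have hc : Continuous (fun Λ : ProbabilityMeasure (X × X × X) =>
      ∫⁻ p, (φ p : ℝ≥0∞) ∂(Λ : Measure (X × X × X))) :=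
    continuous_iff_continuousAt.2 fun Λ =>
      (ProbabilityMeasure.tendsto_iff_forall_lintegral_tendsto.1 tendsto_id) φ
  exact isClosed_le hc continuous_const

end

end Claimed.Agent.R210.GM.TriCptA
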