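/-
Row 210 (S0432), layer GM (architect helper666).  Block T, leaf TriCptB: the set of triple plans is compact (T3).
Plan and proofs: `git show origin/helper666:docs/R210_GM_plan.md`.
-/
import Claimed.Agent.R210.GM.Defs
import Claimed.Agent.R210.GM.UtilC
import Claimed.Agent.R210.GM.TriA
import Claimed.Agent.R210.GM.TriCons
import Claimed.Agent.R210.GM.TriCptA

set_option autoImplicit false

open Claims.C0366 Claims.C0366.WeakHessian
open Set Filter MeasureTheory
open scoped ENNReal NNReal Topology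

namespace Claimed.Agent.R210.GM.TriCptB

open Claimed.Agent.R210.GM.Defs Claimed.Agent.R210.CO.Ifc Claimed.Agent.R210.Defs Claimed.Agent.R210.GM.UtilC Claimed.Agent.R210.GM.TriA Claimed.Agent.R210.GM.TriCons Claimed.Agent.R210.GM.TriCptA

noncomputable section

variable {X : Type*} [MetricSpace X] [MeasurableSpace X] [BorelSpace X]
  [CompleteSpace X] [TopologicalSpace.SeparableSpace X]
variable {μ₀ μ₁ : Measure X} {s R : ℝ} {o : X}

/-- the set of triple plans, as a set of probability measures -/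
def gm_L (μ₀ μ₁ : Measure X) (s : ℝ) : Set (ProbabilityMeasure (X × X × X)) :=
  {Λ | gm_Tri μ₀ μ₁ (Measure.map (fun p : X × X × X => p.2.1) (Λ : Measure (X × X × X))) s
    (Λ : Measure (X × X × X))}

/-- the cost of the `(x₀, x₁)`-marginal of a measure on triples -/
theorem gm_cost_map13 [SecondCountableTopology X] (Λ : Measure (X × X × X)) :
    QuadraticTransportCost (Measure.map (fun p : X × X × X => (p.1, p.2.2)) Λ) =
      ∫⁻ p, (edist p.1 p.2.2) ^ 2 ∂Λ := by
  unfold QuadraticTransportCost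
  rw [lintegral_map (measurable_edist.pow_const 2) (by fun_prop)]

theorem gm_trunc_le_edist (x y : X) (T : ℝ) :
    ENNReal.ofReal (min (dist x y ^ 2) T) ≤ (edist x y) ^ 2 := by
  rw [edist_dist, ← ENNReal.ofReal_pow dist_nonneg]
  exact ENNReal.ofReal_le_ofReal (min_le_left _ _)

theorem gm_trunc_eq_edist {x y : X} {T : ℝ} (h : dist x y ^ 2 ≤ T) :
    ENNReal.ofReal (min (dist x y ^ 2) T) = (edist x y) ^ 2 := by
  rw [edist_dist, ← ENNReal.ofReal_pow dist_nonneg, min_eq_left h]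

theorem gm_L_eq [ProperSpace X]
    (h0 : μ₀ (Metric.closedBall o R)ᶜ = 0) (h1 : μ₁ (Metric.closedBall o R)ᶜ = 0)
    (hs0 : 0 ≤ s) (hs1 : s ≤ 1) :
    gm_L μ₀ μ₁ s =
      {Λ : ProbabilityMeasure (X × X × X) | (Λ : Measure (X × X × X))
        (Metric.closedBall o R ×ˢ Metric.closedBall o (3 * R) ×ˢ Metric.closedBall o R)ᶜ = 0} ∩
      ((({Λ : ProbabilityMeasure (X × X × X) |
          Measure.map (fun p : X × X × X => p.1) (Λ : Measure (X × X × X)) = μ₀} ∩
        {Λ : ProbabilityMeasure (X × X × X) |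
          Measure.map (fun p : X × X × X => p.2.2) (Λ : Measure (X × X × X)) = μ₁}) ∩
        {Λ : ProbabilityMeasure (X × X × X) | (Λ : Measure (X × X × X))
          {p : X × X × X | dist p.1 p.2.1 = s * dist p.1 p.2.2 ∧
            dist p.2.1 p.2.2 = (1 - s) * dist p.1 p.2.2}ᶜ = 0}) ∩
        {Λ : ProbabilityMeasure (X × X × X) |
          ∫⁻ p, ENNReal.ofReal (min (dist p.1 p.2.2 ^ 2) ((2 * R) ^ 2))
            ∂(Λ : Measure (X × X × X)) ≤ W2sq μ₀ μ₁}) := by
  ext Λ
  constructor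
  · intro h
    have h' : gm_Tri μ₀ μ₁ (Measure.map (fun p : X × X × X => p.2.1)
      (Λ : Measure (X × X × X))) s (Λ : Measure (X × X × X)) := h
    refine ⟨gm_tri_conc3 h' h0 h1 hs0 hs1, ⟨⟨⟨h'.m0, h'.m1⟩, ?_⟩, ?_⟩⟩
    · exact ae_iff.1 (h'.al0.and h'.al1)
    · show ∫⁻ p, ENNReal.ofReal (min (dist p.1 p.2.2 ^ 2) ((2 * R) ^ 2))
            ∂(Λ : Measure (X × X × X)) ≤ W2sq μ₀ μ₁
      rw [← gm_opt_cost h'.opt, gm_cost_map13]
      exact lintegral_mono fun p => gm_trunc_le_edist _ _ _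
  · rintro ⟨hK, ⟨⟨⟨hm0, hm1⟩, hal⟩, hc⟩⟩
    have hm0' : Measure.map (fun p : X × X × X => p.1) (Λ : Measure (X × X × X)) = μ₀ := hm0
    have hm1' : Measure.map (fun p : X × X × X => p.2.2) (Λ : Measure (X × X × X)) = μ₁ := hm1
    have hal' : ∀ᵐ p ∂(Λ : Measure (X × X × X)), dist p.1 p.2.1 = s * dist p.1 p.2.2 ∧
            dist p.2.1 p.2.2 = (1 - s) * dist p.1 p.2.2 := ae_iff.2 hal
    have hK' : ∀ᵐ p ∂(Λ : Measure (X × X × X)), p ∈
        (Metric.closedBall o R ×ˢ Metric.closedBall o (3 * R) ×ˢ Metric.closedBall o R) :=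
      ae_iff.2 hK
    have hc' : ∫⁻ p, ENNReal.ofReal (min (dist p.1 p.2.2 ^ 2) ((2 * R) ^ 2))
            ∂(Λ : Measure (X × X × X)) ≤ W2sq μ₀ μ₁ := hc
    show gm_Tri μ₀ μ₁ (Measure.map (fun p : X × X × X => p.2.1)
      (Λ : Measure (X × X × X))) s (Λ : Measure (X × X × X))
    refine ⟨hm0', rfl, hm1', gm_opt_iff.2 ⟨⟨?_, ?_⟩, ?_⟩, hal'.mono fun p hp => hp.1,
      hal'.mono fun p hp => hp.2⟩
    · rw [Measure.map_map measurable_fst (by fun_prop)]
      exact hm0'
    · rw [Measure.map_map measurable_snd (by fun_prop)]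
      exact hm1'
    · rw [gm_cost_map13]
      refine le_trans (le_of_eq ?_) hc'
      refine lintegral_congr_ae (hK'.mono fun p hp => ?_)
      have hp1 : dist p.1 o ≤ R := hp.1
      have hp2 : dist p.2.2 o ≤ R := hp.2.2
      have hd : dist p.1 p.2.2 ≤ 2 * R := by
        have := dist_triangle_right p.1 p.2.2 o
        linarith
      exact (gm_trunc_eq_edist (pow_le_pow_left₀ dist_nonneg hd 2)).symm

theorem gm_L_isCompact [ProperSpace X] [IsProbabilityMeasure μ₀] [IsProbabilityMeasure μ₁]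
    (h0 : μ₀ (Metric.closedBall o R)ᶜ = 0) (h1 : μ₁ (Metric.closedBall o R)ᶜ = 0)
    (hs0 : 0 ≤ s) (hs1 : s ≤ 1) : IsCompact (gm_L μ₀ μ₁ s) := by
  rw [gm_L_eq h0 h1 hs0 hs1]
  refine IsCompact.inter_right (gm_isCompact_conc ((isCompact_closedBall o R).prod
    ((isCompact_closedBall o (3 * R)).prod (isCompact_closedBall o R)))) ?_
  refine IsClosed.inter (IsClosed.inter (IsClosed.inter ?_ ?_) ?_) ?_
  · exact gm_isClosed_map_eq (by fun_prop) μ₀
  · exact gm_isClosed_map_eq (by fun_prop) μ₁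
  · exact gm_isClosed_null_open (gm_isClosed_aligned s).isOpen_compl
  · exact gm_isClosed_cost ((2 * R) ^ 2) (W2sq μ₀ μ₁)

end

end Claimed.Agent.R210.GM.TriCptB
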