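/-
Row 210 (S0432), layer GM (architect helper666).  Block T, leaf TriCptC: the set of intermediate points is compact (T3).
Plan and proofs: `git show origin/helper666:docs/R210_GM_plan.md`.
-/
import Claimed.Agent.R210.GM.Defs
import Claimed.Agent.R210.GM.TriA
import Claimed.Agent.R210.GM.TriCptB

set_option autoImplicit false

open Claims.C0366 Claims.C0366.WeakHessian
open Set Filter MeasureTheory
open scoped ENNReal NNReal Topology

namespace Claimed.Agent.R210.GM.TriCptC

open Claimed.Agent.R210.GM.Defs Claimed.Agent.R210.CO.Ifc Claimed.Agent.R210.Defs Claimed.Agent.R210.GM.TriA Claimed.Agent.R210.GM.TriCptB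

noncomputable section

variable {X : Type*} [MetricSpace X] [MeasurableSpace X] [BorelSpace X]
  [CompleteSpace X] [TopologicalSpace.SeparableSpace X]
variable {μ₀ μ₁ : Measure X} {s R : ℝ} {o : X}

theorem gm_I_isCompact [ProperSpace X] [IsProbabilityMeasure μ₀] [IsProbabilityMeasure μ₁]
    (h0 : μ₀ (Metric.closedBall o R)ᶜ = 0) (h1 : μ₁ (Metric.closedBall o R)ᶜ = 0)
    (hs0 : 0 ≤ s) (hs1 : s ≤ 1) : IsCompact (gm_I μ₀ μ₁ s) := by
  have hc : Continuous (fun p : X × X × X => p.2.1) := continuous_snd.fst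
  have himg : gm_I μ₀ μ₁ s = (fun Λ : ProbabilityMeasure (X × X × X) =>
      Λ.map hc.measurable.aemeasurable) '' gm_L μ₀ μ₁ s := by
    ext ν
    constructor
    · rintro ⟨Λ, hΛ⟩
      have := (gm_tri_prob hΛ).1
      refine ⟨⟨Λ, inferInstance⟩, ?_, ?_⟩
      · change gm_Tri μ₀ μ₁ (Measure.map (fun p : X × X × X => p.2.1) Λ) s Λ
        rw [hΛ.mz]
        exact hΛ
      · apply Subtype.ext
        change Measure.map (fun p : X × X × X => p.2.1) Λ = (ν : Measure X)
        exact hΛ.mz
    · rintro ⟨Λ, hΛ, rfl⟩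
      exact ⟨(Λ : Measure (X × X × X)), hΛ⟩
  rw [himg]
  exact (gm_L_isCompact h0 h1 hs0 hs1).image (ProbabilityMeasure.continuous_map hc)

end

end Claimed.Agent.R210.GM.TriCptC
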