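/-
Row 210 (S0432), layer GM (architect helper666).  Block U (minimisation of integral functionals on intermediate points with bounded density): TOP statement.
Plan and proofs: `git show origin/helper666:docs/R210_GM_plan.md`, section "Block U", steps M1-M6.      Sub-architect of the block: helper788.
MAP.   MnDefs (gm_J, gm_IC, gm_Nice, gm_slope)  ->  MnDens (algebra of `dens`, nice representatives)  ->  MnComp (u ∘ r, u' ∘ r: measurable, bounded, integrable)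
       ->  MnLscA (tangent bound), MnLscB (limit δ -> 0)  ->  MnLsc (**M2** `gm_U_lsc`: lower semicontinuity on `gm_J m C' o R'`; also for block D)
       ->  MnVarA (pointwise), MnVarB (integral inequality), MnVarC (limit ε -> 0)  ->  MnVar (**M4** `gm_first_var`)
       ->  MnStep (**M5** `gm_min_le`)  ->  Min (M1, M3, M6, this file).
-/
import Claimed.Agent.R210.GM.MnLsc
import Claimed.Agent.R210.GM.MnStep
import Claimed.Agent.R210.GM.UtilD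
import Claimed.Agent.R210.GM.TriCptC

set_option autoImplicit false

open Claims.C0366 Claims.C0366.WeakHessian
open Set Filter MeasureTheory
open scoped ENNReal NNReal Topology

namespace Claimed.Agent.R210.GM.Min

open Claimed.Agent.R210.GM.Defs Claimed.Agent.R210.CO.Ifc Claimed.Agent.R210.Defs
open Claimed.Agent.R210.GM.MnDefs Claimed.Agent.R210.GM.MnLsc Claimed.Agent.R210.GM.MnStep
  Claimed.Agent.R210.GM.UtilD Claimed.Agent.R210.GM.TriA Claimed.Agent.R210.GM.TriCons Claimed.Agent.R210.GM.TriCptC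

noncomputable section

variable {X : Type*} [MetricSpace X] [MeasurableSpace X] [BorelSpace X]
  [CompleteSpace X] [TopologicalSpace.SeparableSpace X] [ProperSpace X]
variable {m μ₀ μ₁ ν σ : Measure X} {Λ : Measure (X × X × X)} {K N s D R : ℝ}
  {M₀ M₁ C S : ℝ≥0} {o : X}

/-- M1: `I^{C'}` is compact -/
theorem gm_IC_isCompact (hfin : FiniteOnBoundedSets m) (h0 : BddDens m μ₀ M₀ o R) (h1 : BddDens m μ₁ M₁ o R)
    (hs0 : 0 < s) (hs1 : s < 1) (C' : ℝ≥0) : IsCompact (gm_IC m μ₀ μ₁ s C') := by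
  haveI := h0.prob
  haveI := h1.prob
  exact (gm_I_isCompact h0.conc h1.conc hs0.le hs1.le).inter_right (gm_isClosed_le hfin C')

/-- M1: the elements of `I^{C'}` live on `closedBall o (R + s D)` -/
theorem gm_IC_subset_J (h0 : BddDens m μ₀ M₀ o R) (hD : gm_HD μ₀ μ₁ D) (hs0 : 0 < s) (C' : ℝ≥0) :
    gm_IC m μ₀ μ₁ s C' ⊆ gm_J m C' o (R + s * D) := by
  rintro ν ⟨⟨Λ, hΛ⟩, hle⟩
  exact ⟨hle, gm_tri_conc hΛ h0.conc hD hs0.le⟩

/-- an intermediate point with density `≤ C'`, as an element of `I^{C'}` -/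
theorem gm_mem_IC (h0 : BddDens m μ₀ M₀ o R) {C' : ℝ≥0} (hΛ : gm_Tri μ₀ μ₁ ν s Λ) (hle : ν ≤ (C' : ℝ≥0∞) • m) :
    ∃ ν' : ProbabilityMeasure X, (ν' : Measure X) = ν ∧ ν' ∈ gm_IC m μ₀ μ₁ s C' := by
  haveI := h0.prob
  haveI := (gm_tri_prob hΛ).2.1
  exact ⟨⟨ν, inferInstance⟩, rfl, ⟨Λ, hΛ⟩, hle⟩

theorem gm_IC_mono {C' C'' : ℝ≥0} (h : C' ≤ C'') : gm_IC m μ₀ μ₁ s C' ⊆ gm_IC m μ₀ μ₁ s C'' := by
  rintro ν ⟨hI, hle⟩
  have hle' : (ν : Measure X) ≤ (C' : ℝ≥0∞) • m := hle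
  have h2 : (C' : ℝ≥0∞) • m ≤ (C'' : ℝ≥0∞) • m := Measure.le_iff.mpr fun A _ => by
    simp only [Measure.smul_apply, smul_eq_mul]
    gcongr
  exact ⟨hI, hle'.trans h2⟩

/-- M3: existence of a minimiser on `I^{C'}`, `C' ≥ S` -/
theorem gm_exists_min (hfin : FiniteOnBoundedSets m) {u u' : ℝ → ℝ} (hu : gm_UFun u u')
    (h0 : BddDens m μ₀ M₀ o R) (h1 : BddDens m μ₁ M₁ o R) (hD : gm_HD μ₀ μ₁ D)
    (hs0 : 0 < s) (hs1 : s < 1) (hG1 : gm_G1 m s D R o M₀ M₁ S) {C' : ℝ≥0} (hC : S ≤ C') :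
    ∃ ν ∈ gm_IC m μ₀ μ₁ s C', ∀ ν' ∈ gm_IC m μ₀ μ₁ s C',
      gm_U m u (ν : Measure X) ≤ gm_U m u (ν' : Measure X) := by
  have hne : (gm_IC m μ₀ μ₁ s C').Nonempty := by
    obtain ⟨σ, Λ, hΛ, hσ⟩ := gm_G1_one h0 h1 hD hG1
    obtain ⟨ν', -, hν'⟩ := gm_mem_IC h0 hΛ hσ
    exact ⟨ν', gm_IC_mono hC hν'⟩
  obtain ⟨ν, hν, hmin⟩ := LowerSemicontinuousOn.exists_isMinOn hne (gm_IC_isCompact hfin h0 h1 hs0 hs1 C')
    ((gm_U_lsc hfin hu C' o (R + s * D)).mono (gm_IC_subset_J h0 hD hs0 C'))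
  exact ⟨ν, hν, fun ν' hν' => hmin hν'⟩

/-- **abstract GM2/GM3**: there is an intermediate point with density `≤ S` which minimises
`∫ u(ρ) dm` among ALL intermediate points with bounded density. -/
theorem gm_min_abs (hfin : FiniteOnBoundedSets m) {u u' : ℝ → ℝ} (hu : gm_UFun u u')
    (h0 : BddDens m μ₀ M₀ o R) (h1 : BddDens m μ₁ M₁ o R) (hD : gm_HD μ₀ μ₁ D) (hD0 : 0 ≤ D)
    (hs0 : 0 < s) (hs1 : s < 1) (hG1 : gm_G1 m s D R o M₀ M₁ S) :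
    ∃ (ν : Measure X) (Λ : Measure (X × X × X)), gm_Tri μ₀ μ₁ ν s Λ ∧ ν ≤ (S : ℝ≥0∞) • m ∧
      ∀ (C' : ℝ≥0) (ν' : Measure X) (Λ' : Measure (X × X × X)), gm_Tri μ₀ μ₁ ν' s Λ' →
        ν' ≤ (C' : ℝ≥0∞) • m → gm_U m u ν ≤ gm_U m u ν' := by
  have hS2 : S ≤ 2 * S := by
    have : (1 : ℝ≥0) * S ≤ 2 * S := mul_le_mul_left (by norm_num) S
    simpa using this
  obtain ⟨ν, hν, hmin⟩ := gm_exists_min hfin hu h0 h1 hD hs0 hs1 hG1 hS2
  have hνS := gm_min_le hfin hu h0 h1 hD hs0 hG1 le_rfl hν hmin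
  obtain ⟨Λ, hΛ⟩ := hν.1
  refine ⟨ν, Λ, hΛ, hνS, fun C' ν' Λ' hΛ' hle' => ?_⟩
  obtain ⟨ν'', hν''eq, hν''⟩ := gm_mem_IC h0 hΛ' hle'
  rw [← hν''eq]
  -- the minimiser on the larger class
  have hC2 : 2 * S ≤ max C' (2 * S) := le_max_right _ _
  obtain ⟨ν₂, hν₂, hmin₂⟩ := gm_exists_min hfin hu h0 h1 hD hs0 hs1 hG1 (hS2.trans hC2)
  have hν₂S := gm_min_le hfin hu h0 h1 hD hs0 hG1 hC2 hν₂ hmin₂
  have hν₂' : ν₂ ∈ gm_IC m μ₀ μ₁ s (2 * S) := gm_IC_mono hS2 ⟨hν₂.1, hν₂S⟩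
  exact (hmin ν₂ hν₂').trans (hmin₂ ν'' (gm_IC_mono (le_max_left _ _) hν''))

end

end Claimed.Agent.R210.GM.Min
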