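/-
Row 210 (S0432), layer GM (architect helper666).  Block S (the intermediate points given by the CD condition): glue from CD/Ifc.
Plan and proofs: `git show origin/helper666:docs/R210_GM_plan.md`.
-/
import Claimed.Agent.R210.GM.Defs
import Claimed.Agent.R210.GM.UtilA
import Claimed.Agent.R210.GM.TriA
import Claimed.Agent.R210.CD.Ifc

set_option autoImplicit false

open Claims.C0366 Claims.C0366.WeakHessian
open Set Filter MeasureTheory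
open scoped ENNReal NNReal Topology

namespace Claimed.Agent.R210.GM.CDpt

open Claimed.Agent.R210.GM.Defs Claimed.Agent.R210.CO.Ifc Claimed.Agent.R210.Defs Claimed.Agent.R210.GM.UtilA Claimed.Agent.R210.GM.TriA Claimed.Agent.R210.CD.Ifc

noncomputable section

open Claimed.Agent.R210.CD.Defs Claimed.Agent.R210.CD.Ent.Base

theorem gm_cs_inv {K N s D : ℝ} (hK : K < 0) (hN : 1 < N) (hD0 : 0 ≤ D) (hs0 : 0 < s) (hs1 : s < 1)
    (t M₀ : ℝ≥0) :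
    ((t * gm_cs K N s D M₀ : ℝ≥0) : ℝ≥0∞)⁻¹
      = tauCoeff K N (1 - s) D ^ N * ((M₀ * t : ℝ≥0) : ℝ≥0∞)⁻¹ := by
  have hτ : 0 < co_tau K N (1 - s) D := co_tau_pos hK hN (by linarith) (by linarith) hD0
  rw [co_tau_eq hK hN (by linarith) (by linarith), ENNReal.ofReal_rpow_of_pos hτ]
  have h1 : ((t * gm_cs K N s D M₀ : ℝ≥0) : ℝ≥0∞)
      = ENNReal.ofReal (co_tau K N (1 - s) D ^ (-N)) * ((M₀ * t : ℝ≥0) : ℝ≥0∞) := by
    unfold gm_cs
    push_cast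
    rw [ENNReal.ofReal]
    ring
  rw [h1, ENNReal.mul_inv (Or.inr ENNReal.coe_ne_top) (Or.inl ENNReal.ofReal_ne_top),
    ← ENNReal.ofReal_inv_of_pos (Real.rpow_pos_of_pos hτ _), Real.rpow_neg hτ.le, inv_inv]

theorem gm_ch_inv {K N D : ℝ} (hK : K < 0) (hN : 1 < N) (t M : ℝ≥0) :
    ((t * gm_ch K N D M : ℝ≥0) : ℝ≥0∞)⁻¹
      = (2 * tauCoeff K N (1 / 2) D) ^ N * ((M * t : ℝ≥0) : ℝ≥0∞)⁻¹ := by
  have hc : 0 < Real.cosh (D * co_k K N / 2) := Real.cosh_pos _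
  have hτ : 0 < 2 * co_tau K N (1 / 2) D := by
    rw [co_tau_half hK hN]
    have := Real.rpow_pos_of_pos hc (-((N - 1) / N))
    positivity
  have e2 : (2 : ℝ≥0∞) = ENNReal.ofReal 2 := by simp
  rw [co_tau_eq hK hN (by norm_num) (by norm_num), e2, ← ENNReal.ofReal_mul (by norm_num),
    ENNReal.ofReal_rpow_of_pos hτ]
  have h1 : ((t * gm_ch K N D M : ℝ≥0) : ℝ≥0∞)
      = ENNReal.ofReal (Real.cosh (D * co_k K N / 2) ^ (N - 1)) * ((M * t : ℝ≥0) : ℝ≥0∞) := by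
    unfold gm_ch
    push_cast
    rw [ENNReal.ofReal]
    ring
  rw [h1, ENNReal.mul_inv (Or.inr ENNReal.coe_ne_top) (Or.inl ENNReal.ofReal_ne_top),
    ← ENNReal.ofReal_inv_of_pos (Real.rpow_pos_of_pos hc _), ← co_two_tau_half_rpow hK hN,
    Real.rpow_neg hτ.le, inv_inv]

variable {X : Type*} [MetricSpace X] [MeasurableSpace X] [BorelSpace X]
  [CompleteSpace X] [TopologicalSpace.SeparableSpace X]
variable {m μ₀ μ₁ ν σ : Measure X} {Λ : Measure (X × X × X)} {K N s D R : ℝ}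
  {M₀ M₁ C S : ℝ≥0} {o : X}

/-- the CD point: spread and Renyi inequality -/
theorem gm_cd_point (hS : Std m K N) (h0 : BddDens m μ₀ M₀ o R) (h1 : BddDens m μ₁ M₁ o R)
    (hD : gm_HD μ₀ μ₁ D) (hs0 : 0 < s) (hs1 : s < 1) :
    ∃ (σ : Measure X) (Λ : Measure (X × X × X)), gm_Tri μ₀ μ₁ σ s Λ ∧
      (tauCoeff K N (1 - s) D * (M₀ : ℝ≥0∞) ^ (-1 / N) + tauCoeff K N s D * (M₁ : ℝ≥0∞) ^ (-1 / N)) ^ N
        ≤ m {x | 0 < σ.rnDeriv m x} ∧
      ∃ q : Measure (X × X), IsOptimalCoupling q μ₀ μ₁ ∧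
        ∫⁻ p, tauCoeff K N (1 - s) (dist p.1 p.2) * (μ₀.rnDeriv m p.1) ^ (-1 / N) ∂q
          ≤ renyiIntegral m σ N := by
  obtain ⟨π, hπ⟩ := cd_exists_plan hS.cd h0 h1
  have := hπ.prob
  let t : Time := ⟨s, hs0.le, hs1.le⟩
  exact ⟨interpolation π t, _, gm_tri_of_plan hπ.geo hπ.opt t,
    cd_spread hS h0 h1 hπ (hD _ hπ.opt) t, endpointCoupling π, hπ.opt, cd_renyi hπ t⟩

/-- the CD midpoint: entropy inequality -/
theorem gm_cd_mid (hS : Std m K N) (h0 : BddDens m μ₀ M₀ o R) (h1 : BddDens m μ₁ M₁ o R) :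
    ∃ (σ : Measure X) (Λ : Measure (X × X × X)), gm_Tri μ₀ μ₁ σ (1 / 2) Λ ∧ σ ≪ m ∧
      Integrable (fun x => rho m σ x * Real.log (rho m σ x)) m ∧
      Ent m σ ≤ Ent m μ₀ / 2 + Ent m μ₁ / 2 - K / 8 * W2sqR μ₀ μ₁ := by
  obtain ⟨π, hπ⟩ := cd_exists_plan hS.cd h0 h1
  have := hπ.prob
  obtain ⟨a, b, c⟩ := cd_entropy_mid hS h0 h1 hπ
  have hT := gm_tri_of_plan hπ.geo hπ.opt cd_ent_half
  rw [cd_ent_half_coe] at hT
  exact ⟨_, _, hT, a, b, c⟩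

theorem gm_SP_s (hS : Std m K N) (hD0 : 0 ≤ D) (hs0 : 0 < s) (hs1 : s < 1) :
    gm_SP m s D R o M₀ M₁ (gm_cs K N s D M₀) := by
  intro t α β hα hβ hD
  obtain ⟨π, hπ⟩ := cd_exists_plan hS.cd hα hβ
  have := hπ.prob
  let tt : Time := ⟨s, hs0.le, hs1.le⟩
  exact ⟨interpolation π tt, _, gm_tri_of_plan hπ.geo hπ.opt tt,
    le_trans (le_of_eq (gm_cs_inv hS.K_neg hS.one_lt_N hD0 hs0 hs1 t M₀))
    (cd_spread_left hS hα hβ hπ (hD _ hπ.opt) tt)⟩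

theorem gm_SP_half (hS : Std m K N) :
    gm_SP m (1 / 2) D R o M₀ M₁ (gm_ch K N D (max M₀ M₁)) := by
  intro t α β hα hβ hD
  obtain ⟨π, hπ⟩ := cd_exists_plan hS.cd hα hβ
  have := hπ.prob
  have hT := gm_tri_of_plan hπ.geo hπ.opt cd_ent_half
  rw [cd_ent_half_coe] at hT
  exact ⟨_, _, hT, le_trans (le_of_eq (gm_ch_inv hS.K_neg hS.one_lt_N t (max M₀ M₁)))
    (cd_spread_mid hS hα hβ hπ (hD _ hπ.opt) (mul_le_mul_left (le_max_left _ _) t)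
      (mul_le_mul_left (le_max_right _ _) t))⟩

end

end Claimed.Agent.R210.GM.CDpt
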