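/-
Row 210 (S0432), layer GM (architect helper666).  Block W, leaf UtilD: a density bound passes to weak limits.
Plan and proofs: `git show origin/helper666:docs/R210_GM_plan.md`.
-/
import Claimed.Agent.R210.GM.Defs
import Claimed.Agent.R210.GM.UtilA
import Claimed.Agent.R210.GM.UtilC

set_option autoImplicit false

open Claims.C0366 Claims.C0366.WeakHessian
open Set Filter MeasureTheory
open scoped ENNReal NNReal Topology

namespace Claimed.Agent.R210.GM.UtilD

open Claimed.Agent.R210.GM.Defs Claimed.Agent.R210.CO.Ifc Claimed.Agent.R210.Defs Claimed.Agent.R210.GM.UtilA Claimed.Agent.R210.GM.UtilC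

noncomputable section

variable {X : Type*} [MetricSpace X] [MeasurableSpace X] [BorelSpace X]
variable {m : Measure X}

theorem gm_outerRegular [ProperSpace X] (hfin : FiniteOnBoundedSets m) : m.OuterRegular := by
  have : IsLocallyFiniteMeasure m :=
    ⟨fun x => ⟨Metric.ball x 1, Metric.ball_mem_nhds x one_pos, hfin _ Metric.isBounded_ball⟩⟩
  infer_instance

/-- a density bound passes to weak limits -/
theorem gm_isClosed_le [ProperSpace X] (hfin : FiniteOnBoundedSets m) (C : ℝ≥0) :
    IsClosed {ν : ProbabilityMeasure X | (ν : Measure X) ≤ (C : ℝ≥0∞) • m} := by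
  have hreg : m.OuterRegular := gm_outerRegular hfin
  have e : {ν : ProbabilityMeasure X | (ν : Measure X) ≤ (C : ℝ≥0∞) • m} =
      ⋂ (U : Set X) (_ : IsOpen U), (fun ν : ProbabilityMeasure X => (ν : Measure X) U) ⁻¹' Iic ((C : ℝ≥0∞) * m U) := by
    ext ν
    simp only [mem_ofPred_eq, mem_iInter, mem_preimage, mem_Iic]
    constructor
    · intro h U _
      have := h U
      simpa only [Measure.smul_apply, smul_eq_mul] using this
    · intro h
      refine Measure.le_iff.2 fun A _ => ?_
      simp only [Measure.smul_apply, smul_eq_mul]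
      by_cases hC : C = 0
      · have h1 := h univ isOpen_univ
        rw [hC, ENNReal.coe_zero, zero_mul] at h1
        rw [hC, ENNReal.coe_zero, zero_mul]
        exact (measure_mono (subset_univ A)).trans h1
      · have hC0 : (C : ℝ≥0∞) ≠ 0 := ENNReal.coe_ne_zero.2 hC
        rw [Set.measure_eq_iInf_isOpen A m]
        simp only [ENNReal.mul_iInf_of_ne hC0 ENNReal.coe_ne_top]
        exact le_iInf fun U => le_iInf fun hAU => le_iInf fun hU => (measure_mono hAU).trans (h U hU)
  rw [e]
  exact isClosed_biInter fun U hU => (gm_lsc_open hU).isClosed_preimage _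

end

end Claimed.Agent.R210.GM.UtilD
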