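/-
Row 210 (S0432), layer GM (architect helper666).  Block F (excess mass functional; sub-architect helper988, files GM/Exc/*): TOP statement of the block = abstract GM1.
Plan and proofs: `git show origin/helper666:docs/R210_GM_plan.md`.
-/
import Claimed.Agent.R210.GM.Defs
import Claimed.Agent.R210.GM.TriConv
import Claimed.Agent.R210.GM.TriSurg
import Claimed.Agent.R210.GM.TriCptC
import Claimed.Agent.R210.GM.Exc.Lsc
import Claimed.Agent.R210.GM.Exc.Abs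

set_option autoImplicit false

open Claims.C0366 Claims.C0366.WeakHessian
open Set Filter MeasureTheory
open scoped ENNReal NNReal Topology

namespace Claimed.Agent.R210.GM.Excess

open Claimed.Agent.R210.GM.Defs Claimed.Agent.R210.CO.Ifc Claimed.Agent.R210.Defs
open Claimed.Agent.R210.GM.UtilA Claimed.Agent.R210.GM.UtilD Claimed.Agent.R210.GM.TriA
  Claimed.Agent.R210.GM.TriConv Claimed.Agent.R210.GM.TriHat Claimed.Agent.R210.GM.TriSurg
  Claimed.Agent.R210.GM.TriCptC Claimed.Agent.R210.GM.Exc.Dec Claimed.Agent.R210.GM.Exc.Comb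
  Claimed.Agent.R210.GM.Exc.Lsc Claimed.Agent.R210.GM.Exc.Abs

noncomputable section

variable {X : Type*} [MetricSpace X] [MeasurableSpace X] [BorelSpace X]
  [CompleteSpace X] [TopologicalSpace.SeparableSpace X] [ProperSpace X]
variable {m μ₀ μ₁ ν σ : Measure X} {Λ : Measure (X × X × X)} {K N s D R : ℝ}
  {M₀ M₁ C S : ℝ≥0} {o : X}

/-- **abstract GM1**: SPREAD with constant `C` implies intermediate points with density `≤ t C`. -/
theorem gm_G1_of_SP (hfin : FiniteOnBoundedSets m) (hs0 : 0 < s) (hs1 : s < 1) (hD0 : 0 ≤ D)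
    (hC : 0 < C) (hSP : gm_SP m s D R o M₀ M₁ C) : gm_G1 m s D R o M₀ M₁ C := by
  intro t α β hα hβ hHD
  have hσf := gm_sigmaFinite hfin
  have hor := gm_outerRegular hfin
  have hαp := hα.prob
  have hβp := hβ.prob
  have ht : 0 < t := by
    have h := gm_bddDens_pos hα
    rcases eq_or_ne t 0 with h0 | h0
    · simp [h0] at h
    · exact pos_iff_ne_zero.2 h0
  have htC : 0 < t * C := mul_pos ht hC
  have hprob : ∀ ν ∈ {ν : Measure X | ∃ Λ, gm_Tri α β ν s Λ}, IsProbabilityMeasure ν :=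
    fun ν ⟨Λ, h⟩ => (gm_tri_prob h).2.1
  have hsum : ∀ (νs : ℕ → Measure X) (w : ℕ → ℝ≥0∞), (∀ i, νs i ∈ {ν : Measure X | ∃ Λ, gm_Tri α β ν s Λ}) →
      ∑' i, w i = 1 → Measure.sum (fun i => w i • νs i) ∈ {ν : Measure X | ∃ Λ, gm_Tri α β ν s Λ} := by
    intro νs w h hw
    choose Λs hΛ using h
    exact ⟨_, gm_tri_sum hΛ hw⟩
  have hne : (gm_I α β s).Nonempty := by
    obtain ⟨σ, Λ, hT, -⟩ := hSP t α β hα hβ hHD
    exact ⟨⟨σ, (gm_tri_prob hT).2.1⟩, Λ, hT⟩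
  have hmin : ∃ ν, gm1_IsMin m (t * C) {ν : Measure X | ∃ Λ, gm_Tri α β ν s Λ} ν := by
    obtain ⟨ν, hνI, hν⟩ := gm1_exists_min (m := m) htC (gm_I_isCompact hα.conc hβ.conc hs0.le hs1.le) hne
    refine ⟨ν, hνI, fun ν' ⟨Λ', h'⟩ => ?_⟩
    exact hν ⟨ν', (gm_tri_prob h').2.1⟩ ⟨Λ', h'⟩
  obtain ⟨ν, ⟨Λ, hT⟩, hle⟩ := gm1_abstract htC hprob hsum hmin (by
    intro ν ⟨Λ, hT⟩ f ε hf hε0 hε1 hfε ha0
    have hνp := (gm_tri_prob hT).2.1
    have hafin : ∫⁻ x, f x ∂ν ≠ ∞ := by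
      refine ne_top_of_le_ne_top (b := (ε : ℝ≥0∞)) ENNReal.coe_ne_top ?_
      calc ∫⁻ x, f x ∂ν ≤ ∫⁻ _, (ε : ℝ≥0∞) ∂ν := lintegral_mono hfε
        _ = ε := by simp
    obtain ⟨a, ha⟩ : ∃ a : ℝ≥0, ∫⁻ x, f x ∂ν = a := ⟨_, (ENNReal.coe_toNNReal hafin).symm⟩
    have ha0' : a ≠ 0 := by
      intro h
      rw [h] at ha
      exact ha0 (by simpa using ha)
    have b0 := gm_hat0_bddDens hT hα hf hfε ha ha0'
    have b1 := gm_hat1_bddDens hT hβ hf hfε ha ha0'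
    have hf1 : ∀ x, f x ≤ 1 := fun x => (hfε x).trans (by exact_mod_cast hε1)
    have hHD' := gm_hat_HD hT hHD hf hf1 ha0
    obtain ⟨σ, Λ', hT', hv⟩ := hSP (t * (ε / a)) _ _ (by rwa [← mul_assoc]) (by rwa [← mul_assoc]) hHD'
    have hb0p := b0.prob
    refine ⟨σ, (gm_tri_prob hT').2.1, ⟨_, gm_surgery hT hf hf1 ha0 hT'⟩, le_trans (le_of_eq ?_) hv⟩
    have hne1 : ε * (t * C) ≠ 0 := (mul_pos hε0 htC).ne'
    have hne2 : t * (ε / a) * C ≠ 0 :=
      (mul_pos (mul_pos ht (div_pos hε0 (pos_iff_ne_zero.2 ha0'))) hC).ne'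
    rw [ha, ← ENNReal.coe_mul, ← ENNReal.coe_div hne1, ← ENNReal.coe_inv hne2]
    congr 1
    field_simp)
  exact ⟨ν, Λ, hT, hle⟩

end

end Claimed.Agent.R210.GM.Excess
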