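/-
Row 210 (S0432), layer GM (architect helper666).  GM1 (glue): from abstract GM1 (Excess) and SPREAD (CDpt).
Plan and proofs: `git show origin/helper666:docs/R210_GM_plan.md`.
-/
import Claimed.Agent.R210.GM.Defs
import Claimed.Agent.R210.GM.UtilA
import Claimed.Agent.R210.GM.TriA
import Claimed.Agent.R210.GM.TriCons
import Claimed.Agent.R210.GM.Excess
import Claimed.Agent.R210.GM.CDpt

set_option autoImplicit false

open Claims.C0366 Claims.C0366.WeakHessian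
open Set Filter MeasureTheory
open scoped ENNReal NNReal Topology

namespace Claimed.Agent.R210.GM.One

open Claimed.Agent.R210.GM.Defs Claimed.Agent.R210.CO.Ifc Claimed.Agent.R210.Defs Claimed.Agent.R210.GM.UtilA Claimed.Agent.R210.GM.TriA Claimed.Agent.R210.GM.TriCons Claimed.Agent.R210.GM.Excess Claimed.Agent.R210.GM.CDpt

noncomputable section

variable {X : Type*} [MetricSpace X] [MeasurableSpace X] [BorelSpace X]
  [CompleteSpace X] [TopologicalSpace.SeparableSpace X] [ProperSpace X]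
variable {m μ₀ μ₁ : Measure X} {K N s D R : ℝ} {M₀ M₁ : ℝ≥0} {o : X}

theorem gm_cs_pos (hK : K < 0) (hN : 1 < N) (hD0 : 0 ≤ D) (hs0 : 0 < s) (hs1 : s < 1)
    (hM : 0 < M₀) : 0 < gm_cs K N s D M₀ := by
  unfold gm_cs
  refine mul_pos hM (Real.toNNReal_pos.2 (Real.rpow_pos_of_pos ?_ _))
  exact co_tau_pos hK hN (by linarith) (by linarith) hD0

theorem gm_ch_pos (hM : 0 < M₀) : 0 < gm_ch K N D M₀ := by
  unfold gm_ch
  exact mul_pos hM (Real.toNNReal_pos.2 (Real.rpow_pos_of_pos (Real.cosh_pos _) _))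

/-- GM1 for all sub-problems, general `s` -/
theorem gm_G1_s (hS : Std m K N) (hD0 : 0 ≤ D) (hs0 : 0 < s) (hs1 : s < 1) (hM : 0 < M₀) :
    gm_G1 m s D R o M₀ M₁ (gm_cs K N s D M₀) :=
  gm_G1_of_SP hS.finite hs0 hs1 hD0 (gm_cs_pos hS.K_neg hS.one_lt_N hD0 hs0 hs1 hM)
    (gm_SP_s hS hD0 hs0 hs1)

/-- GM1 for all sub-problems, midpoints -/
theorem gm_G1_half (hS : Std m K N) (hD0 : 0 ≤ D) (hM : 0 < M₀) :
    gm_G1 m (1 / 2) D R o M₀ M₁ (gm_ch K N D (max M₀ M₁)) :=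
  gm_G1_of_SP hS.finite (by norm_num) (by norm_num) hD0 (gm_ch_pos (lt_max_of_lt_left hM))
    (gm_SP_half hS)

/-- **GM1**, general `s` -/
theorem gm_one (hS : Std m K N) (h0 : BddDens m μ₀ M₀ o R) (h1 : BddDens m μ₁ M₁ o R)
    (hD : gm_HD μ₀ μ₁ D) (hD0 : 0 ≤ D) (hs0 : 0 < s) (hs1 : s < 1) :
    ∃ (ν : Measure X) (Λ : Measure (X × X × X)), gm_Tri μ₀ μ₁ ν s Λ ∧
      BddDens m ν (gm_cs K N s D M₀) o (R + s * D) := by
  obtain ⟨ν, Λ, hT, hle⟩ := gm_G1_s (R := R) (o := o) (M₁ := M₁) hS hD0 hs0 hs1 (gm_bddDens_pos h0)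
    1 μ₀ μ₁ (by simpa using h0) (by simpa using h1) hD
  haveI := h0.prob
  exact ⟨ν, Λ, hT, (gm_tri_prob hT).2.1, by simpa using hle, gm_tri_conc hT h0.conc hD hs0.le⟩

/-- **GM1**, midpoints -/
theorem gm_one_half (hS : Std m K N) (h0 : BddDens m μ₀ M₀ o R) (h1 : BddDens m μ₁ M₁ o R)
    (hD : gm_HD μ₀ μ₁ D) (hD0 : 0 ≤ D) :
    ∃ (ν : Measure X) (Λ : Measure (X × X × X)), gm_Tri μ₀ μ₁ ν (1 / 2) Λ ∧
      BddDens m ν (gm_ch K N D (max M₀ M₁)) o (R + D / 2) := by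
  obtain ⟨ν, Λ, hT, hle⟩ := gm_G1_half (R := R) (o := o) (M₁ := M₁) hS hD0 (gm_bddDens_pos h0)
    1 μ₀ μ₁ (by simpa using h0) (by simpa using h1) hD
  haveI := h0.prob
  refine ⟨ν, Λ, hT, (gm_tri_prob hT).2.1, by simpa using hle, ?_⟩
  have := gm_tri_conc hT h0.conc hD (by norm_num : (0 : ℝ) ≤ 1 / 2)
  rwa [show R + 1 / 2 * D = R + D / 2 by ring] at this

end

end Claimed.Agent.R210.GM.One
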