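/-
Row 210 (S0432), layer GM (architect helper666).  Block U, leaf RenCmp: a minimiser among bounded densities beats every intermediate point (Renyi).
Plan and proofs: `git show origin/helper666:docs/R210_GM_plan.md`.
-/
import Claimed.Agent.R210.GM.Defs
import Claimed.Agent.R210.GM.UtilA
import Claimed.Agent.R210.GM.UtilB
import Claimed.Agent.R210.GM.Cut
import Claimed.Agent.R210.GM.TriCons

set_option autoImplicit false

open Claims.C0366 Claims.C0366.WeakHessian
open Set Filter MeasureTheory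
open scoped ENNReal NNReal Topology

namespace Claimed.Agent.R210.GM.RenCmp

open Claimed.Agent.R210.GM.Defs Claimed.Agent.R210.CO.Ifc Claimed.Agent.R210.Defs Claimed.Agent.R210.GM.UtilA Claimed.Agent.R210.GM.UtilB Claimed.Agent.R210.GM.Cut Claimed.Agent.R210.GM.TriA Claimed.Agent.R210.GM.TriCons

noncomputable section

variable {X : Type*} [MetricSpace X] [MeasurableSpace X] [BorelSpace X]
  [CompleteSpace X] [TopologicalSpace.SeparableSpace X] [ProperSpace X]
variable {m μ₀ μ₁ ν σ : Measure X} {Λ : Measure (X × X × X)} {K N s D R : ℝ}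
  {M₀ M₁ C S : ℝ≥0} {o : X}

/-- for a bounded density living on a set of finite measure the Renyi integral is `-U`. -/
theorem gm_renyi_eq_ofReal [SigmaFinite m] (hN : 1 < N) {ν' : Measure X} [IsFiniteMeasure ν']
    {C' : ℝ≥0} {Z : Set X} (hZ : MeasurableSet Z) (hmZ : m Z < ∞)
    (hle : ν' ≤ (C' : ℝ≥0∞) • m) (hconc : ν' Zᶜ = 0) :
    renyiIntegral m ν' N = ENNReal.ofReal (-(gm_U m (fun z => -(z ^ (1 - 1 / N))) ν')) := by
  have hp : 0 < 1 - 1 / N := by
    have : 1 / N < 1 := by rw [div_lt_one (by linarith)]; exact hN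
    linarith
  have hmeas : Measurable (fun x => rho m ν' x ^ (1 - 1 / N)) :=
    ((Measure.measurable_rnDeriv ν' m).ennreal_toReal).pow_const _
  have hint : Integrable (fun x => rho m ν' x ^ (1 - 1 / N)) m := by
    refine Integrable.mono' (g := Z.indicator (fun _ => (C' : ℝ) ^ (1 - 1 / N)))
      ((integrableOn_const hmZ.ne).integrable_indicator hZ) hmeas.aestronglyMeasurable ?_
    filter_upwards [gm_rn_le hle, gm_rn_eq_zero hZ hconc] with x h1 h2
    have h0 : 0 ≤ rho m ν' x := ENNReal.toReal_nonneg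
    rw [Real.norm_eq_abs, abs_of_nonneg (Real.rpow_nonneg h0 _)]
    by_cases hx : x ∈ Z
    · rw [indicator_of_mem hx]
      refine Real.rpow_le_rpow h0 ?_ hp.le
      have := ENNReal.toReal_mono ENNReal.coe_ne_top h1
      simpa [rho] using this
    · rw [indicator_of_notMem hx]
      have : rho m ν' x = 0 := by simp [rho, h2 hx]
      rw [this, Real.zero_rpow hp.ne']
  have h1 : gm_U m (fun z => -(z ^ (1 - 1 / N))) ν' = - ∫ x, rho m ν' x ^ (1 - 1 / N) ∂m := by
    unfold gm_U
    exact integral_neg _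
  rw [h1, neg_neg, ofReal_integral_eq_lintegral_ofReal hint
    (Eventually.of_forall fun x => Real.rpow_nonneg ENNReal.toReal_nonneg _)]
  unfold renyiIntegral
  refine lintegral_congr_ae ?_
  filter_upwards [gm_rn_le hle] with x hx
  have hfin : ν'.rnDeriv m x ≠ ∞ := ne_top_of_le_ne_top ENNReal.coe_ne_top hx
  unfold rho
  rw [← ENNReal.ofReal_rpow_of_nonneg ENNReal.toReal_nonneg hp.le, ENNReal.ofReal_toReal hfin]

/-- the part of `σ` where the density is `≤ n`, off the carrier of the singular part, is `≤ n m`. -/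
theorem gm_restrict_le [SigmaFinite m] [IsFiniteMeasure σ] {c : ℝ≥0} {B : Set X}
    (hB : MeasurableSet B) (hs : σ.singularPart m B = 0) (hc : ∀ x ∈ B, σ.rnDeriv m x ≤ c) :
    σ.restrict B ≤ (c : ℝ≥0∞) • m := by
  have h1 : σ.restrict B = (m.restrict B).withDensity (σ.rnDeriv m) := by
    conv_lhs => rw [← Measure.singularPart_add_rnDeriv σ m]
    rw [Measure.restrict_add, Measure.restrict_eq_zero.2 hs, zero_add, restrict_withDensity hB]
  rw [h1]
  calc (m.restrict B).withDensity (σ.rnDeriv m)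
      ≤ (m.restrict B).withDensity (fun _ => (c : ℝ≥0∞)) :=
        withDensity_mono (ae_restrict_of_forall_mem hB hc)
    _ = (c : ℝ≥0∞) • m.restrict B := withDensity_const _
    _ ≤ (c : ℝ≥0∞) • m := by
        gcongr
        exact Measure.restrict_le_self

theorem gm_renyi_compare (hfin : FiniteOnBoundedSets m) (hN : 1 < N)
    (h0 : BddDens m μ₀ M₀ o R) (h1 : BddDens m μ₁ M₁ o R) (hD : gm_HD μ₀ μ₁ D) (hD0 : 0 ≤ D)
    (hs0 : 0 < s) (hs1 : s < 1) (hG1 : gm_G1 m s D R o M₀ M₁ S)
    {Λν : Measure (X × X × X)} (hν : gm_Tri μ₀ μ₁ ν s Λν) (hνS : ν ≤ (S : ℝ≥0∞) • m)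
    (hmin : ∀ (C' : ℝ≥0) (ν' : Measure X) (Λ' : Measure (X × X × X)), gm_Tri μ₀ μ₁ ν' s Λ' →
        ν' ≤ (C' : ℝ≥0∞) • m →
        gm_U m (fun z => -(z ^ (1 - 1 / N))) ν ≤ gm_U m (fun z => -(z ^ (1 - 1 / N))) ν')
    (h : gm_Tri μ₀ μ₁ σ s Λ) :
    renyiIntegral m σ N ≤ renyiIntegral m ν N := by
  haveI : SigmaFinite m := gm_sigmaFinite hfin
  haveI := h0.prob
  haveI : IsProbabilityMeasure σ := (gm_tri_prob h).2.1
  haveI : IsProbabilityMeasure ν := (gm_tri_prob hν).2.1
  have hp : 0 < 1 - 1 / N := by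
    have : 1 / N < 1 := by rw [div_lt_one (by linarith)]; exact hN
    linarith
  set Z : Set X := Metric.closedBall o (R + s * D) with hZdef
  have hZ : MeasurableSet Z := Metric.isClosed_closedBall.measurableSet
  have hmZ : m Z < ∞ := hfin Z Metric.isBounded_closedBall
  -- step 1: bounded densities
  have step1 : ∀ (C' : ℝ≥0) (ν' : Measure X) (Λ' : Measure (X × X × X)), gm_Tri μ₀ μ₁ ν' s Λ' →
      ν' ≤ (C' : ℝ≥0∞) • m → renyiIntegral m ν' N ≤ renyiIntegral m ν N := by
    intro C' ν' Λ' hT hle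
    haveI : IsProbabilityMeasure ν' := (gm_tri_prob hT).2.1
    rw [gm_renyi_eq_ofReal hN hZ hmZ hle (gm_tri_conc hT h0.conc hD hs0.le),
      gm_renyi_eq_ofReal hN hZ hmZ hνS (gm_tri_conc hν h0.conc hD hs0.le)]
    exact ENNReal.ofReal_le_ofReal (neg_le_neg (hmin C' ν' Λ' hT hle))
  -- the sets
  set hsing := Measure.mutuallySingular_singularPart σ m with hsingdef
  set G : Set X := hsing.nullSet with hG
  have hGm : MeasurableSet G := hsing.measurableSet_nullSet
  have hG0 : σ.singularPart m G = 0 := hsing.measure_nullSet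
  have hGc : m Gᶜ = 0 := hsing.measure_compl_nullSet
  have hρm : Measurable (σ.rnDeriv m) := Measure.measurable_rnDeriv σ m
  set B : ℕ → Set X := fun n => {x | σ.rnDeriv m x ≤ n} ∩ G with hBdef
  have hBm : ∀ n, MeasurableSet (B n) := fun n => (measurableSet_le hρm measurable_const).inter hGm
  have hBs : ∀ n, σ.singularPart m (B n) = 0 := fun n =>
    measure_mono_null inter_subset_right hG0
  have hBle : ∀ n : ℕ, σ.restrict (B n) ≤ (((n : ℝ≥0) : ℝ≥0∞)) • m := fun n =>
    gm_restrict_le (hBm n) (hBs n) (fun x hx => by simpa using hx.1)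
  -- step 2
  have step2 : ∀ n : ℕ, ∫⁻ x, ((B n).indicator (σ.rnDeriv m) x) ^ (1 - 1 / N) ∂m
      ≤ renyiIntegral m ν N := by
    intro n
    by_cases hb : σ (B n)ᶜ = 0
    · have hσ : σ.restrict (B n) = σ :=
        Measure.restrict_eq_self_of_ae_mem (by
          have := measure_eq_zero_iff_ae_notMem.1 hb
          filter_upwards [this] with x hx
          simpa using hx)
      have hle : σ ≤ (((n : ℝ≥0) : ℝ≥0∞)) • m := hσ ▸ hBle n
      refine le_trans ?_ (step1 _ σ Λ h hle)
      unfold renyiIntegral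
      refine lintegral_mono fun x => ?_
      refine ENNReal.rpow_le_rpow ?_ hp.le
      exact indicator_le_self _ _ x
    · obtain ⟨τ, Λ', hτ, hτS, hT⟩ := gm_cut h h0 h1 hD hG1 (hBm n).compl hb
      rw [compl_compl] at hT
      have hle : σ.restrict (B n) + σ (B n)ᶜ • τ ≤ (((n : ℝ≥0) + S : ℝ≥0) : ℝ≥0∞) • m := by
        rw [ENNReal.coe_add, add_smul]
        exact add_le_add (hBle n) hτS
      refine le_trans ?_ (step1 _ _ Λ' hT hle)
      unfold renyiIntegral
      refine lintegral_mono_ae ?_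
      haveI : IsFiniteMeasure (σ (B n)ᶜ • τ) := by
        refine ⟨?_⟩
        rw [Measure.smul_apply, smul_eq_mul]
        exact ENNReal.mul_lt_top (measure_lt_top _ _) (measure_lt_top _ _)
      filter_upwards [Measure.rnDeriv_add (σ.restrict (B n)) (σ (B n)ᶜ • τ) m,
        Measure.rnDeriv_restrict σ m (hBm n)] with x e1 e2
      refine ENNReal.rpow_le_rpow ?_ hp.le
      rw [e1, Pi.add_apply, e2]
      exact le_self_add
  -- step 3: monotone convergence
  have hmono : Monotone fun (n : ℕ) x => ((B n).indicator (σ.rnDeriv m) x) ^ (1 - 1 / N) := by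
    intro n k hnk x
    refine ENNReal.rpow_le_rpow ?_ hp.le
    refine indicator_le_indicator_of_subset ?_ (fun _ => zero_le) x
    intro y hy
    have hy1 : σ.rnDeriv m y ≤ n := hy.1
    have hnk' : (n : ℝ≥0∞) ≤ k := by exact_mod_cast hnk
    exact ⟨hy1.trans hnk', hy.2⟩
  have hsup : ∀ᵐ x ∂m, (σ.rnDeriv m x) ^ (1 - 1 / N)
      = ⨆ n : ℕ, ((B n).indicator (σ.rnDeriv m) x) ^ (1 - 1 / N) := by
    have hGae : ∀ᵐ x ∂m, x ∈ G := by
      have := measure_eq_zero_iff_ae_notMem.1 hGc
      filter_upwards [this] with x hx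
      simpa using hx
    filter_upwards [hGae, Measure.rnDeriv_lt_top σ m] with x hxG hxt
    refine le_antisymm ?_ (iSup_le fun n => ENNReal.rpow_le_rpow (indicator_le_self _ _ x) hp.le)
    obtain ⟨n, hn⟩ := ENNReal.exists_nat_gt hxt.ne
    refine le_trans ?_ (le_iSup _ n)
    rw [indicator_of_mem (show x ∈ B n from ⟨hn.le, hxG⟩)]
  unfold renyiIntegral at step2 ⊢
  rw [lintegral_congr_ae hsup, lintegral_iSup (fun n => ((hρm.indicator (hBm n)).pow_const _)) hmono]
  exact iSup_le step2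

end

end Claimed.Agent.R210.GM.RenCmp
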