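/-
Row 210 (S0432), layer GM (architect helper666).  Block U, leaf UFun: the two entropy densities are admissible.
Plan and proofs: `git show origin/helper666:docs/R210_GM_plan.md`.
-/
import Claimed.Agent.R210.GM.Defs

set_option autoImplicit false

open Claims.C0366 Claims.C0366.WeakHessian
open Set Filter MeasureTheory
open scoped ENNReal NNReal Topology

namespace Claimed.Agent.R210.GM.UFun

open Claimed.Agent.R210.GM.Defs Claimed.Agent.R210.CO.Ifc Claimed.Agent.R210.Defs

noncomputable section

theorem gm_ufun_ent : gm_UFun (fun z => z * Real.log z) (fun z => Real.log z + 1) where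
  zero := by simp
  cont := Real.continuous_mul_log.continuousOn
  tangent := by
    intro x y hx hy
    rcases hx.eq_or_lt with rfl | hx
    · have : y * Real.log y + (Real.log y + 1) * (0 - y) = -y := by ring
      simp only [this, zero_mul]
      linarith
    · have h := Real.log_le_sub_one_of_pos (div_pos hy hx)
      rw [Real.log_div hy.ne' hx.ne'] at h
      have h2 : x * (Real.log y - Real.log x) ≤ x * (y / x - 1) := mul_le_mul_of_nonneg_left h hx.le
      have h3 : x * (y / x - 1) = y - x := by field_simp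
      show y * Real.log y + (Real.log y + 1) * (x - y) ≤ x * Real.log x
      nlinarith
  mono := by
    intro a ha b _ hab
    have := Real.log_lt_log ha hab
    show Real.log a + 1 < Real.log b + 1
    linarith
  cont' := by
    apply ContinuousOn.add _ continuousOn_const
    exact Real.continuousOn_log.mono (fun x hx => (ne_of_gt hx))
  neg := ⟨Real.exp (-1), Real.exp_pos _, fun δ hδ hlt => by
    have : Real.log δ < -1 := by rwa [Real.log_lt_iff_lt_exp hδ]
    show Real.log δ + 1 ≤ 0
    linarith⟩

theorem gm_ufun_renyi {N : ℝ} (hN : 1 < N) :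
    gm_UFun (fun z => -(z ^ (1 - 1 / N))) (fun z => -((1 - 1 / N) * z ^ (-1 / N))) := by
  have hN0 : 0 < N := by linarith
  have hinv : 1 / N < 1 := by rw [div_lt_one hN0]; exact hN
  have hinv0 : 0 < 1 / N := by positivity
  have ha0 : 0 < 1 - 1 / N := by linarith
  have ha1 : 1 - 1 / N ≤ 1 := by linarith
  have hneg : -1 / N < 0 := by rw [neg_div]; linarith
  refine ⟨?_, ?_, ?_, ?_, ?_, ?_⟩
  · show -((0 : ℝ) ^ (1 - 1 / N)) = 0
    rw [Real.zero_rpow ha0.ne']; simp
  · exact ((Real.continuous_rpow_const ha0.le).neg).continuousOn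
  · intro x y hx hy
    show -(y ^ (1 - 1 / N)) + -((1 - 1 / N) * y ^ (-1 / N)) * (x - y) ≤ -(x ^ (1 - 1 / N))
    have hs : -1 ≤ x / y - 1 := by
      have : 0 ≤ x / y := div_nonneg hx hy.le
      linarith
    have h := rpow_one_add_le_one_add_mul_self hs ha0.le ha1
    have e1 : 1 + (x / y - 1) = x / y := by ring
    rw [e1, Real.div_rpow hx hy.le] at h
    have hya : 0 < y ^ (1 - 1 / N) := Real.rpow_pos_of_pos hy _
    rw [div_le_iff₀ hya] at h
    have e2 : y ^ (-1 / N) = y ^ (1 - 1 / N) / y := by
      rw [show -1 / N = (1 - 1 / N) - 1 by ring, Real.rpow_sub_one hy.ne']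
    rw [e2]
    have e3 : (1 + (1 - 1 / N) * (x / y - 1)) * y ^ (1 - 1 / N)
        = y ^ (1 - 1 / N) + (1 - 1 / N) * (y ^ (1 - 1 / N) / y) * (x - y) := by
      field_simp
    rw [e3] at h
    linarith
  · intro b hb c _ hbc
    show -((1 - 1 / N) * b ^ (-1 / N)) < -((1 - 1 / N) * c ^ (-1 / N))
    have := Real.rpow_lt_rpow_of_neg hb hbc hneg
    have := mul_lt_mul_of_pos_left this ha0
    linarith
  · apply ContinuousOn.neg
    apply ContinuousOn.mul continuousOn_const
    intro x hx
    exact (Real.continuousAt_rpow_const x _ (Or.inl (ne_of_gt hx))).continuousWithinAt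
  · refine ⟨1, one_pos, fun δ hδ _ => ?_⟩
    show -((1 - 1 / N) * δ ^ (-1 / N)) ≤ 0
    have := Real.rpow_nonneg hδ.le (-1 / N)
    have := mul_nonneg ha0.le this
    linarith

end

end Claimed.Agent.R210.GM.UFun
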