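/-
Row 210 (S0432), layer GM (architect helper666).  GM2, GM3 (glue): from the abstract minimisation (Min), the comparison lemmas (EntCmp, RenCmp) and the CD points (CDpt).
Plan and proofs: `git show origin/helper666:docs/R210_GM_plan.md`.
-/
import Claimed.Agent.R210.GM.Defs
import Claimed.Agent.R210.GM.UtilA
import Claimed.Agent.R210.GM.TriA
import Claimed.Agent.R210.GM.TriCons
import Claimed.Agent.R210.GM.One
import Claimed.Agent.R210.GM.CDpt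
import Claimed.Agent.R210.GM.Min
import Claimed.Agent.R210.GM.UFun
import Claimed.Agent.R210.GM.EntCmp
import Claimed.Agent.R210.GM.RenCmp

set_option autoImplicit false

open Claims.C0366 Claims.C0366.WeakHessian
open Set Filter MeasureTheory
open scoped ENNReal NNReal Topology

namespace Claimed.Agent.R210.GM.Two

open Claimed.Agent.R210.GM.Defs Claimed.Agent.R210.CO.Ifc Claimed.Agent.R210.Defs Claimed.Agent.R210.GM.UtilA Claimed.Agent.R210.GM.TriA Claimed.Agent.R210.GM.TriCons Claimed.Agent.R210.GM.One Claimed.Agent.R210.GM.CDpt Claimed.Agent.R210.GM.Min Claimed.Agent.R210.GM.UFun Claimed.Agent.R210.GM.EntCmp Claimed.Agent.R210.GM.RenCmp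

noncomputable section

variable {X : Type*} [MetricSpace X] [MeasurableSpace X] [BorelSpace X]
  [CompleteSpace X] [TopologicalSpace.SeparableSpace X] [ProperSpace X]
variable {m μ₀ μ₁ : Measure X} {K N s D R : ℝ} {M₀ M₁ : ℝ≥0} {o : X}

/-- **GM2** -/
theorem gm_two (hS : Std m K N) (h0 : BddDens m μ₀ M₀ o R) (h1 : BddDens m μ₁ M₁ o R)
    (hD : gm_HD μ₀ μ₁ D) (hD0 : 0 ≤ D) :
    ∃ (ν : Measure X) (Λ : Measure (X × X × X)), gm_Tri μ₀ μ₁ ν (1 / 2) Λ ∧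
      BddDens m ν (gm_ch K N D (max M₀ M₁)) o (R + D / 2) ∧
      Ent m ν ≤ Ent m μ₀ / 2 + Ent m μ₁ / 2 - K / 8 * W2sqR μ₀ μ₁ := by
  have hG1 : gm_G1 m (1 / 2) D R o M₀ M₁ (gm_ch K N D (max M₀ M₁)) :=
    gm_G1_half hS hD0 (gm_bddDens_pos h0)
  obtain ⟨ν, Λ, hT, hle, hmin⟩ := gm_min_abs hS.finite gm_ufun_ent h0 h1 hD hD0
    (by norm_num) (by norm_num) hG1
  obtain ⟨σ, Λσ, hσ, hac, hint, hent⟩ := gm_cd_mid hS h0 h1
  have := h0.prob
  have hc := gm_tri_conc hT h0.conc hD (by norm_num : (0 : ℝ) ≤ 1 / 2)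
  rw [show R + 1 / 2 * D = R + D / 2 by ring] at hc
  refine ⟨ν, Λ, hT, ⟨(gm_tri_prob hT).2.1, hle, hc⟩, le_trans ?_ hent⟩
  exact gm_ent_compare hS.finite h0 h1 hD hD0 (by norm_num) (by norm_num) hG1 hmin hσ hac hint

/-- **GM3** -/
theorem gm_three (hS : Std m K N) (h0 : BddDens m μ₀ M₀ o R) (h1 : BddDens m μ₁ M₁ o R)
    (hD : gm_HD μ₀ μ₁ D) (hD0 : 0 ≤ D) (hs0 : 0 < s) (hs1 : s < 1) :
    ∃ (ν : Measure X) (Λ : Measure (X × X × X)), gm_Tri μ₀ μ₁ ν s Λ ∧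
      BddDens m ν (gm_cs K N s D M₀) o (R + s * D) ∧
      ∃ q : Measure (X × X), IsOptimalCoupling q μ₀ μ₁ ∧
        ∫⁻ p, tauCoeff K N (1 - s) (dist p.1 p.2) * (μ₀.rnDeriv m p.1) ^ (-1 / N) ∂q
          ≤ renyiIntegral m ν N := by
  have hG1 : gm_G1 m s D R o M₀ M₁ (gm_cs K N s D M₀) :=
    gm_G1_s hS hD0 hs0 hs1 (gm_bddDens_pos h0)
  obtain ⟨ν, Λ, hT, hle, hmin⟩ := gm_min_abs hS.finite (gm_ufun_renyi hS.one_lt_N) h0 h1 hD hD0
    hs0 hs1 hG1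
  obtain ⟨σ, Λσ, hσ, -, q, hq, hren⟩ := gm_cd_point hS h0 h1 hD hs0 hs1
  have := h0.prob
  refine ⟨ν, Λ, hT, ⟨(gm_tri_prob hT).2.1, hle, gm_tri_conc hT h0.conc hD hs0.le⟩, q, hq,
    le_trans hren ?_⟩
  exact gm_renyi_compare hS.finite hS.one_lt_N h0 h1 hD hD0 hs0 hs1 hG1 hT hle hmin hσ

end

end Claimed.Agent.R210.GM.Two
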