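/-
Row 210 (S0432), layer GM, block D (GM5, sub-architect helper104).  D0: the approximating problems
`μ₁ʲ` = normalised `m` on `closedBall x (R/(j+1))`, and GM3 applied to `(μ₀, μ₁ʲ)`.
Plan: `git show origin/helper666:docs/R210_GM_plan.md`, section Block D.
-/
import Claimed.Agent.R210.GM.Two
import Claimed.Agent.R210.CD.Basic

set_option autoImplicit false

open Claims.C0366 Claims.C0366.WeakHessian
open Set Filter MeasureTheory
open scoped ENNReal NNReal Topology

namespace Claimed.Agent.R210.GM.FvSeq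

open Claimed.Agent.R210.Defs Claimed.Agent.R210.CO.Ifc Claimed.Agent.R210.GM.Defs
open Claimed.Agent.R210.GM.UtilA Claimed.Agent.R210.GM.Two Claimed.Agent.R210.CD.Defs Claimed.Agent.R210.CD.Basic

variable {X : Type*} [MetricSpace X] [MeasurableSpace X] [BorelSpace X]
  [CompleteSpace X] [TopologicalSpace.SeparableSpace X] [ProperSpace X]
variable {m μ₀ : Measure X} {K N s R : ℝ} {M₀ : ℝ≥0} {x : X}

/-- D0 + GM3: for every radius `0 < r ≤ R` there is a target measure on `closedBall x r`, an aligned triple plan,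
an intermediate point with the density bound of GM3 and the Renyi inequality of GM3. -/
theorem gm_fv_seq (hS : Std m K N) (h0 : BddDens m μ₀ M₀ x R) (hs0 : 0 < s) (hs1 : s < 1)
    {r : ℝ} (hr : 0 < r) (hrR : r ≤ R) :
    ∃ (μ₁ ν : Measure X) (Λ : Measure (X × X × X)) (q : Measure (X × X)),
      μ₁ (Metric.closedBall x r)ᶜ = 0 ∧ gm_Tri μ₀ μ₁ ν s Λ ∧
      BddDens m ν (gm_cs K N s (2 * R) M₀) x (R + s * (2 * R)) ∧ IsOptimalCoupling q μ₀ μ₁ ∧
      ∫⁻ p, tauCoeff K N (1 - s) (dist p.1 p.2) * (μ₀.rnDeriv m p.1) ^ (-1 / N) ∂q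
        ≤ renyiIntegral m ν N := by
  have hpos : m (Metric.closedBall x r) ≠ 0 := by
    have h1 : 0 < m (Metric.ball x r) := hS.full _ Metric.isOpen_ball ⟨x, Metric.mem_ball_self hr⟩
    exact (lt_of_lt_of_le h1 (measure_mono Metric.ball_subset_closedBall)).ne'
  have hfin : m (Metric.closedBall x r) ≠ ∞ := (hS.finite _ Metric.isBounded_closedBall).ne
  have h1 : BddDens m (cd_unif m (Metric.closedBall x r)) ((m (Metric.closedBall x r))⁻¹).toNNReal x R :=
    cd_unif_bddDens hpos hfin (Metric.closedBall_subset_closedBall hrR)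
  have h1' : BddDens m (cd_unif m (Metric.closedBall x r)) ((m (Metric.closedBall x r))⁻¹).toNNReal x r :=
    cd_unif_bddDens hpos hfin le_rfl
  have hR : 0 ≤ 2 * R := by linarith
  obtain ⟨ν, Λ, hT, hB, q, hq, hren⟩ := gm_three hS h0 h1 (gm_HD_of_bddDens h0 h1) hR hs0 hs1
  exact ⟨_, ν, Λ, q, h1'.conc, hT, hB, hq, hren⟩

end Claimed.Agent.R210.GM.FvSeq
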