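/-
Row 210 (S0432), layer GM, block D (GM5, sub-architect helper104).  D4, part a: the Renyi integral of a bounded density on a ball as a real integral;
integrals against `ν` as integrals against `m`.
Notation: `Z = closedBall o R`, `ρ = rho m ν` (= `(ν.rnDeriv m ·).toReal`, measurable, `≥ 0` everywhere).
-/
import Claimed.Agent.R210.GM.UtilA
import Claimed.Agent.R210.GM.UtilB

set_option autoImplicit false

open Claims.C0366 Claims.C0366.WeakHessian
open Set Filter MeasureTheory
open scoped ENNReal NNReal Topology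

namespace Claimed.Agent.R210.GM.FvUa

open Claimed.Agent.R210.Defs Claimed.Agent.R210.CO.Ifc Claimed.Agent.R210.GM.Defs
open Claimed.Agent.R210.GM.UtilA Claimed.Agent.R210.GM.UtilB

variable {X : Type*} [MetricSpace X] [MeasurableSpace X] [BorelSpace X]
variable {m ν : Measure X} {N R : ℝ} {C : ℝ≥0} {o : X}

theorem gm_fv_rho_measurable (m ν : Measure X) : Measurable (rho m ν) :=
  (Measure.measurable_rnDeriv ν m).ennreal_toReal

theorem gm_fv_rho_nonneg (m ν : Measure X) (x : X) : 0 ≤ rho m ν x := ENNReal.toReal_nonneg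

/-- `gm_rn_le` + `ENNReal.toReal_mono` -/
theorem gm_fv_rho_le [SigmaFinite m] (h : ν ≤ (C : ℝ≥0∞) • m) : ∀ᵐ x ∂m, rho m ν x ≤ C := by
  filter_upwards [gm_rn_le h] with x hx
  have h1 := ENNReal.toReal_mono ENNReal.coe_ne_top hx
  simpa [rho] using h1

/-- a bounded measurable function is integrable on a ball (`Measure.integrableOn_of_bounded`, `hfin _ Metric.isBounded_closedBall`) -/
theorem gm_fv_integrableOn (hfin : FiniteOnBoundedSets m) {g : X → ℝ} (hg : Measurable g) {B : ℝ}
    (hgb : ∀ᵐ x ∂m, |g x| ≤ B) : IntegrableOn g (Metric.closedBall o R) m := by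
  have hfinZ : m (Metric.closedBall o R) ≠ ∞ := (hfin _ Metric.isBounded_closedBall).ne
  refine Measure.integrableOn_of_bounded (M := B) hfinZ hg.aestronglyMeasurable ?_
  filter_upwards [ae_restrict_of_ae hgb] with x hx
  simpa [Real.norm_eq_abs] using hx

/-- `renyiIntegral m ν N = ofReal ∫_Z ρ^(1-1/N) dm`.
Proof: `renyiIntegral` unfolds to `∫⁻ (ν.rnDeriv m x)^(1-1/N) dm`.  A.e. (`gm_rn_le`, `gm_rn_eq_zero` with `A = Z`):
the integrand is `Z.indicator (fun x => ofReal (ρ x ^ (1-1/N)))` (`ENNReal.ofReal_rpow_of_nonneg`, `ENNReal.ofReal_toReal`; off `Z`: `ENNReal.zero_rpow_of_pos`).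
`lintegral_indicator`, `ofReal_integral_eq_lintegral_ofReal` (integrable by `gm_fv_integrableOn`: `ρ^a ≤ C^a` a.e., `Real.rpow_le_rpow`). -/
theorem gm_fv_renyi_real (hfin : FiniteOnBoundedSets m) (hN : 1 < N) [IsFiniteMeasure ν]
    (h : ν ≤ (C : ℝ≥0∞) • m) (hc : ν (Metric.closedBall o R)ᶜ = 0) :
    renyiIntegral m ν N = ENNReal.ofReal (∫ x in Metric.closedBall o R, rho m ν x ^ (1 - 1 / N) ∂m) := by
  have _ : SigmaFinite m := gm_sigmaFinite hfin
  have ha : 0 < 1 - 1 / N := by
    have : 1 / N < 1 := by rw [div_lt_one (by linarith)]; exact hN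
    linarith
  have hZ : MeasurableSet (Metric.closedBall o R) := Metric.isClosed_closedBall.measurableSet
  have hmeas : Measurable (fun x => rho m ν x ^ (1 - 1 / N)) :=
    (gm_fv_rho_measurable m ν).pow_const _
  have hint : IntegrableOn (fun x => rho m ν x ^ (1 - 1 / N)) (Metric.closedBall o R) m := by
    refine gm_fv_integrableOn hfin hmeas (B := (C : ℝ) ^ (1 - 1 / N)) ?_
    filter_upwards [gm_fv_rho_le h] with x hx
    rw [abs_of_nonneg (Real.rpow_nonneg (gm_fv_rho_nonneg m ν x) _)]
    exact Real.rpow_le_rpow (gm_fv_rho_nonneg m ν x) hx ha.le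
  rw [ofReal_integral_eq_lintegral_ofReal hint
    (Filter.Eventually.of_forall fun x => Real.rpow_nonneg (gm_fv_rho_nonneg m ν x) _)]
  unfold renyiIntegral
  rw [← lintegral_indicator hZ]
  refine lintegral_congr_ae ?_
  filter_upwards [gm_rn_le h, gm_rn_eq_zero (m := m) hZ hc] with x h1 h2
  by_cases hx : x ∈ Metric.closedBall o R
  · rw [Set.indicator_of_mem hx]
    have hne : ν.rnDeriv m x ≠ ∞ := (h1.trans_lt ENNReal.coe_lt_top).ne
    rw [← ENNReal.ofReal_rpow_of_nonneg (gm_fv_rho_nonneg m ν x) ha.le]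
    unfold rho
    rw [ENNReal.ofReal_toReal hne]
  · rw [Set.indicator_of_notMem hx, h2 hx, ENNReal.zero_rpow_of_pos ha]

/-- `∫ 1_Z g dν = ∫_Z g ρ dm`  (`integral_rnDeriv_smul` with `ν ≪ m`, or `gm_dens_rho` + `integral_withDensity_eq_integral_smul`;
`integral_indicator`, `Set.indicator_mul_left`). -/
theorem gm_fv_integral_dens (hfin : FiniteOnBoundedSets m) [IsFiniteMeasure ν]
    (h : ν ≤ (C : ℝ≥0∞) • m) {g : X → ℝ} (hg : Measurable g) :
    ∫ x, (Metric.closedBall o R).indicator g x ∂ν = ∫ x in Metric.closedBall o R, g x * rho m ν x ∂m := by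
  have _ : SigmaFinite m := gm_sigmaFinite hfin
  have hac : ν ≪ m := Measure.absolutelyContinuous_of_le_smul h
  have hZ : MeasurableSet (Metric.closedBall o R) := Metric.isClosed_closedBall.measurableSet
  rw [← integral_toReal_rnDeriv_mul hac, ← integral_indicator hZ]
  refine integral_congr_ae (Filter.Eventually.of_forall fun x => ?_)
  by_cases hx : x ∈ Metric.closedBall o R
  · simp only [Set.indicator_of_mem hx, rho]
    ring
  · simp only [Set.indicator_of_notMem hx, mul_zero]

end Claimed.Agent.R210.GM.FvUa
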