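/-
Row 210 (S0432), layer GM, block D (GM5, sub-architect helper104).  D4, part b: the tangent line trick for `t ↦ t^a`, `a = 1 - 1/N ∈ (0,1)`  (real analysis on a ball `Z` of finite measure).
For `w > 0`, `t ≥ 0`:   `t^a ≤ w^a + a w^(a-1) (t - w) = (1/N) w^a + a w^(-1/N) t`      (concavity; `a - 1 = -1/N`, `w^(-1/N) * w = w^a`).
-/
import Claimed.Agent.R210.GM.FvUa
import Claimed.Agent.R210.GM.UFun

set_option autoImplicit false

open Claims.C0366 Claims.C0366.WeakHessian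
open Set Filter MeasureTheory
open scoped ENNReal NNReal Topology

namespace Claimed.Agent.R210.GM.FvUb

open Claimed.Agent.R210.Defs Claimed.Agent.R210.CO.Ifc Claimed.Agent.R210.GM.Defs
open Claimed.Agent.R210.GM.UtilA Claimed.Agent.R210.GM.UtilB Claimed.Agent.R210.GM.FvUa Claimed.Agent.R210.GM.UFun

/-- pointwise tangent inequality.  From `(gm_ufun_renyi hN).tangent t w ht hw` (which reads `-(w^a) + -(a w^(-1/N)) (t - w) ≤ -(t^a)`)
and `w^(-1/N) * w = w^(1-1/N)` (`Real.rpow_add hw`, `Real.rpow_one`). -/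
theorem gm_fv_tangent {N t w : ℝ} (hN : 1 < N) (ht : 0 ≤ t) (hw : 0 < w) :
    t ^ (1 - 1 / N) ≤ 1 / N * w ^ (1 - 1 / N) + (1 - 1 / N) * w ^ (-1 / N) * t := by
  have hN0 : 0 < N := by linarith
  have h1 : 0 ≤ 1 / N := by positivity
  have h2 : 0 ≤ 1 - 1 / N := by
    have : 1 / N ≤ 1 := by rw [div_le_one hN0]; exact hN.le
    linarith
  have hA : 0 ≤ w ^ (1 - 1 / N) := Real.rpow_nonneg hw.le _
  have hB : 0 ≤ w ^ (-1 / N) := Real.rpow_nonneg hw.le _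
  have key := Real.geom_mean_le_arith_mean2_weighted h1 h2 hA (mul_nonneg hB ht) (by ring)
  have e : (w ^ (1 - 1 / N)) ^ (1 / N) * (w ^ (-1 / N) * t) ^ (1 - 1 / N) = t ^ (1 - 1 / N) := by
    rw [Real.mul_rpow hB ht, ← Real.rpow_mul hw.le, ← Real.rpow_mul hw.le, ← mul_assoc,
      ← Real.rpow_add hw]
    have : (1 - 1 / N) * (1 / N) + -1 / N * (1 - 1 / N) = 0 := by ring
    rw [this, Real.rpow_zero, one_mul]
  rw [e] at key
  linarith

/-- `(1/N) w^a + a w^(-1/N) t ≤ t^a + δ^a` for `w = max t δ`  (`t ≤ w` so `w^(-1/N) t ≤ w^(-1/N) w = w^a`; `w^a ≤ t^a + δ^a` by cases `max`). -/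
theorem gm_fv_tangent_max {N t δ : ℝ} (hN : 1 < N) (ht : 0 ≤ t) (hδ : 0 < δ) :
    1 / N * (max t δ) ^ (1 - 1 / N) + (1 - 1 / N) * (max t δ) ^ (-1 / N) * t
      ≤ t ^ (1 - 1 / N) + δ ^ (1 - 1 / N) := by
  have hN0 : 0 < N := by linarith
  have h2 : 0 ≤ 1 - 1 / N := by
    have : 1 / N ≤ 1 := by rw [div_le_one hN0]; exact hN.le
    linarith
  have hw : 0 < max t δ := lt_max_of_lt_right hδ
  have hB : 0 ≤ (max t δ) ^ (-1 / N) := Real.rpow_nonneg hw.le _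
  have e : (max t δ) ^ (-1 / N) * max t δ = (max t δ) ^ (1 - 1 / N) := by
    have h3 := Real.rpow_add hw (-1 / N) 1
    rw [Real.rpow_one] at h3
    rw [← h3]
    congr 1
    ring
  have h4 : (max t δ) ^ (-1 / N) * t ≤ (max t δ) ^ (1 - 1 / N) := by
    rw [← e]
    exact mul_le_mul_of_nonneg_left (le_max_left _ _) hB
  have h5 : (max t δ) ^ (1 - 1 / N) ≤ t ^ (1 - 1 / N) + δ ^ (1 - 1 / N) := by
    have ht' : 0 ≤ t ^ (1 - 1 / N) := Real.rpow_nonneg ht _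
    have hδ' : 0 ≤ δ ^ (1 - 1 / N) := Real.rpow_nonneg hδ.le _
    rcases max_cases t δ with ⟨h, -⟩ | ⟨h, -⟩
    · rw [h]; linarith
    · rw [h]; linarith
  have h6 := mul_le_mul_of_nonneg_left h4 h2
  calc 1 / N * (max t δ) ^ (1 - 1 / N) + (1 - 1 / N) * (max t δ) ^ (-1 / N) * t
      = 1 / N * (max t δ) ^ (1 - 1 / N) + (1 - 1 / N) * ((max t δ) ^ (-1 / N) * t) := by ring
    _ ≤ 1 / N * (max t δ) ^ (1 - 1 / N) + (1 - 1 / N) * (max t δ) ^ (1 - 1 / N) := by linarith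
    _ = (max t δ) ^ (1 - 1 / N) := by ring
    _ ≤ _ := h5

/-- `0 ≤ a (max t δ)^(-1/N) ≤ a δ^(-1/N)`  (`Real.rpow_le_rpow_of_nonpos`) -/
theorem gm_fv_g_abs_le {N t δ : ℝ} (hN : 1 < N) (hδ : 0 < δ) :
    |(1 - 1 / N) * (max t δ) ^ (-1 / N)| ≤ (1 - 1 / N) * δ ^ (-1 / N) := by
  have hN0 : 0 < N := by linarith
  have h2 : 0 ≤ 1 - 1 / N := by
    have : 1 / N ≤ 1 := by rw [div_le_one hN0]; exact hN.le
    linarith
  have hw : 0 < max t δ := lt_max_of_lt_right hδ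
  have hB : 0 ≤ (max t δ) ^ (-1 / N) := Real.rpow_nonneg hw.le _
  rw [abs_of_nonneg (mul_nonneg h2 hB)]
  refine mul_le_mul_of_nonneg_left ?_ h2
  refine Real.rpow_le_rpow_of_nonpos hδ (le_max_right _ _) ?_
  exact div_nonpos_of_nonpos_of_nonneg (by norm_num) hN0.le

variable {X : Type*} [MetricSpace X] [MeasurableSpace X] [BorelSpace X]
variable {m : Measure X} {N R δ C : ℝ} {o : X} {ρ ρ' : X → ℝ}

theorem gm_fv_g_measurable (N δ : ℝ) (hρ : Measurable ρ) :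
    Measurable (fun x => (1 - 1 / N) * (max (ρ x) δ) ^ (-1 / N)) :=
  ((hρ.max measurable_const).pow_const _).const_mul _

/-- `ρ^a` is integrable on a ball for a bounded measurable `ρ ≥ 0`, `a ≥ 0` -/
theorem gm_fv_int_pow (hfin : FiniteOnBoundedSets m) {a : ℝ} (ha : 0 ≤ a) (hρ : Measurable ρ)
    (h0 : ∀ x, 0 ≤ ρ x) (hC : ∀ᵐ x ∂m, ρ x ≤ C) :
    IntegrableOn (fun x => ρ x ^ a) (Metric.closedBall o R) m := by
  refine gm_fv_integrableOn hfin (hρ.pow_const a) (B := C ^ a) ?_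
  filter_upwards [hC] with x hx
  rw [abs_of_nonneg (Real.rpow_nonneg (h0 x) a)]
  exact Real.rpow_le_rpow (h0 x) hx ha

/-- `(max ρ δ)^a` is integrable on a ball -/
theorem gm_fv_int_pow_max (hfin : FiniteOnBoundedSets m) {a : ℝ} (ha : 0 ≤ a) (hρ : Measurable ρ)
    (h0 : ∀ x, 0 ≤ ρ x) (hC : ∀ᵐ x ∂m, ρ x ≤ C) :
    IntegrableOn (fun x => (max (ρ x) δ) ^ a) (Metric.closedBall o R) m := by
  refine gm_fv_int_pow (ρ := fun x => max (ρ x) δ) (C := max C δ) hfin ha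
    (hρ.max measurable_const) (fun x => le_max_of_le_left (h0 x)) ?_
  filter_upwards [hC] with x hx
  exact max_le_max hx le_rfl

/-- `g ρ'` is integrable on a ball -/
theorem gm_fv_int_g (hfin : FiniteOnBoundedSets m) (hN : 1 < N) (hρ : Measurable ρ)
    (hρ' : Measurable ρ') (h0' : ∀ x, 0 ≤ ρ' x) (hC' : ∀ᵐ x ∂m, ρ' x ≤ C) (hδ : 0 < δ) :
    IntegrableOn (fun x => (1 - 1 / N) * (max (ρ x) δ) ^ (-1 / N) * ρ' x)
      (Metric.closedBall o R) m := by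
  refine gm_fv_integrableOn hfin ((gm_fv_g_measurable N δ hρ).mul hρ')
    (B := (1 - 1 / N) * δ ^ (-1 / N) * C) ?_
  filter_upwards [hC'] with x hx
  rw [abs_mul, abs_of_nonneg (h0' x)]
  have hg := gm_fv_g_abs_le (t := ρ x) hN hδ
  exact mul_le_mul hg hx (h0' x) ((abs_nonneg _).trans hg)

/-- integrate `gm_fv_tangent` (with `t = ρ' x`, `w = max (ρ x) δ`) over `Z`: `setIntegral_mono`/`integral_mono`, `integral_add`, `integral_const_mul`.
All four integrands are measurable and a.e. bounded, hence integrable on `Z` by `gm_fv_integrableOn`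
(`ρ'^a ≤ C^a`, `(max ρ δ)^a ≤ (max C δ)^a`, `|g ρ'| ≤ a δ^(-1/N) C` by `gm_fv_g_abs_le`). -/
theorem gm_fv_tangent_int (hfin : FiniteOnBoundedSets m) (hN : 1 < N) (hρ : Measurable ρ)
    (hρ' : Measurable ρ') (h0 : ∀ x, 0 ≤ ρ x) (h0' : ∀ x, 0 ≤ ρ' x) (hC : ∀ᵐ x ∂m, ρ x ≤ C)
    (hC' : ∀ᵐ x ∂m, ρ' x ≤ C) (hδ : 0 < δ) :
    ∫ x in Metric.closedBall o R, ρ' x ^ (1 - 1 / N) ∂m
      ≤ 1 / N * ∫ x in Metric.closedBall o R, (max (ρ x) δ) ^ (1 - 1 / N) ∂m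
        + ∫ x in Metric.closedBall o R, (1 - 1 / N) * (max (ρ x) δ) ^ (-1 / N) * ρ' x ∂m := by
  have ha : 0 ≤ 1 - 1 / N := by
    have : 1 / N ≤ 1 := by rw [div_le_one (by linarith)]; exact hN.le
    linarith
  have i1 := gm_fv_int_pow (o := o) (R := R) hfin ha hρ' h0' hC'
  have i2 := gm_fv_int_pow_max (o := o) (R := R) (δ := δ) hfin ha hρ h0 hC
  have i3 := gm_fv_int_g (o := o) (R := R) hfin hN hρ hρ' h0' hC' hδ
  calc ∫ x in Metric.closedBall o R, ρ' x ^ (1 - 1 / N) ∂m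
      ≤ ∫ x in Metric.closedBall o R, (1 / N * (max (ρ x) δ) ^ (1 - 1 / N)
          + (1 - 1 / N) * (max (ρ x) δ) ^ (-1 / N) * ρ' x) ∂m :=
        integral_mono i1 ((i2.const_mul _).add i3)
          (fun x => gm_fv_tangent hN (h0' x) (lt_max_of_lt_right hδ))
    _ = 1 / N * ∫ x in Metric.closedBall o R, (max (ρ x) δ) ^ (1 - 1 / N) ∂m
        + ∫ x in Metric.closedBall o R, (1 - 1 / N) * (max (ρ x) δ) ^ (-1 / N) * ρ' x ∂m := by
        rw [integral_add (i2.const_mul _) i3, integral_const_mul]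

/-- integrate `gm_fv_tangent_max` (with `t = ρ x`) over `Z`; `∫_Z δ^a dm = δ^a (m Z).toReal` (`setIntegral_const`, `Measure.real`). -/
theorem gm_fv_tangent_self (hfin : FiniteOnBoundedSets m) (hN : 1 < N) (hρ : Measurable ρ)
    (h0 : ∀ x, 0 ≤ ρ x) (hC : ∀ᵐ x ∂m, ρ x ≤ C) (hδ : 0 < δ) :
    1 / N * ∫ x in Metric.closedBall o R, (max (ρ x) δ) ^ (1 - 1 / N) ∂m
        + ∫ x in Metric.closedBall o R, (1 - 1 / N) * (max (ρ x) δ) ^ (-1 / N) * ρ x ∂m
      ≤ ∫ x in Metric.closedBall o R, ρ x ^ (1 - 1 / N) ∂m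
        + δ ^ (1 - 1 / N) * (m (Metric.closedBall o R)).toReal := by
  have ha : 0 ≤ 1 - 1 / N := by
    have : 1 / N ≤ 1 := by rw [div_le_one (by linarith)]; exact hN.le
    linarith
  have i1 := gm_fv_int_pow (o := o) (R := R) hfin ha hρ h0 hC
  have i2 := gm_fv_int_pow_max (o := o) (R := R) (δ := δ) hfin ha hρ h0 hC
  have i3 := gm_fv_int_g (o := o) (R := R) hfin hN hρ hρ h0 hC hδ
  have hmZ : m (Metric.closedBall o R) ≠ ∞ := (hfin _ Metric.isBounded_closedBall).ne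
  have i4 : IntegrableOn (fun _ : X => δ ^ (1 - 1 / N)) (Metric.closedBall o R) m :=
    integrableOn_const hmZ
  calc 1 / N * ∫ x in Metric.closedBall o R, (max (ρ x) δ) ^ (1 - 1 / N) ∂m
        + ∫ x in Metric.closedBall o R, (1 - 1 / N) * (max (ρ x) δ) ^ (-1 / N) * ρ x ∂m
      = ∫ x in Metric.closedBall o R, (1 / N * (max (ρ x) δ) ^ (1 - 1 / N)
          + (1 - 1 / N) * (max (ρ x) δ) ^ (-1 / N) * ρ x) ∂m := by
        rw [integral_add (i2.const_mul _) i3, integral_const_mul]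
    _ ≤ ∫ x in Metric.closedBall o R, (ρ x ^ (1 - 1 / N) + δ ^ (1 - 1 / N)) ∂m :=
        integral_mono ((i2.const_mul _).add i3) (i1.add i4)
          (fun x => gm_fv_tangent_max hN (h0 x) hδ)
    _ = ∫ x in Metric.closedBall o R, ρ x ^ (1 - 1 / N) ∂m
        + δ ^ (1 - 1 / N) * (m (Metric.closedBall o R)).toReal := by
        rw [integral_add i1 i4, setIntegral_const, smul_eq_mul, mul_comm]
        rfl

end Claimed.Agent.R210.GM.FvUb
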