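/-
Row 210 (S0432), layer GM, block D (GM5, sub-architect helper104).  D4: upper semicontinuity of the Renyi integral under weak convergence with a uniform
density bound on a fixed ball (tangent line trick, = step M2 of block U for `u_N`).
-/
import Claimed.Agent.R210.GM.FvUb
import Claimed.Agent.R210.GM.UtilE

set_option autoImplicit false

open Claims.C0366 Claims.C0366.WeakHessian
open Set Filter MeasureTheory
open scoped ENNReal NNReal Topology

namespace Claimed.Agent.R210.GM.FvUsc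

open Claimed.Agent.R210.Defs Claimed.Agent.R210.CO.Ifc Claimed.Agent.R210.GM.Defs
open Claimed.Agent.R210.GM.UtilA Claimed.Agent.R210.GM.UtilB Claimed.Agent.R210.GM.UtilE
open Claimed.Agent.R210.GM.FvUa Claimed.Agent.R210.GM.FvUb

variable {X : Type*} [MetricSpace X] [MeasurableSpace X] [BorelSpace X] [ProperSpace X]
variable {m : Measure X} {N : ℝ}

/-- small `δ`: `δ^a c < ε` -/
theorem gm_fv_exists_delta {a c ε : ℝ} (ha : 0 < a) (hc : 0 ≤ c) (hε : 0 < ε) :
    ∃ δ : ℝ, 0 < δ ∧ δ ^ a * c < ε := by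
  have hq : 0 < ε / (c + 1) := by positivity
  refine ⟨(ε / (c + 1)) ^ (1 / a), Real.rpow_pos_of_pos hq _, ?_⟩
  rw [← Real.rpow_mul hq.le, one_div_mul_cancel ha.ne', Real.rpow_one, div_mul_eq_mul_div,
    div_lt_iff₀ (by positivity)]
  nlinarith

/-- **D4** -/
theorem gm_fv_usc (hfin : FiniteOnBoundedSets m) (hN : 1 < N) (C : ℝ≥0) (o : X) (R : ℝ) :
    UpperSemicontinuousOn (fun ν : ProbabilityMeasure X => renyiIntegral m (ν : Measure X) N)
      {ν | (ν : Measure X) ≤ (C : ℝ≥0∞) • m ∧ (ν : Measure X) (Metric.closedBall o R)ᶜ = 0} := by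
  intro ν hν y hy
  have : SigmaFinite m := gm_sigmaFinite hfin
  obtain ⟨hνle, hνc⟩ := hν
  have ha : 0 < 1 - 1 / N := by
    have h1 : 1 / N < 1 := by
      rw [div_lt_one (by linarith)]
      exact hN
    linarith
  have hI0 : 0 ≤ ∫ x in Metric.closedBall o R, rho m (ν : Measure X) x ^ (1 - 1 / N) ∂m :=
    integral_nonneg fun x => Real.rpow_nonneg (gm_fv_rho_nonneg m _ x) _
  have hrI := gm_fv_renyi_real (o := o) (R := R) hfin hN hνle hνc
  have hy1 : ENNReal.ofReal (∫ x in Metric.closedBall o R, rho m (ν : Measure X) x ^ (1 - 1 / N) ∂m)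
      < y := by
    rw [← hrI]
    exact hy
  obtain ⟨y', hIy', hy'y⟩ : ∃ y' : ℝ,
      (∫ x in Metric.closedBall o R, rho m (ν : Measure X) x ^ (1 - 1 / N) ∂m) < y' ∧
        ENNReal.ofReal y' ≤ y := by
    by_cases hyt : y = ∞
    · exact ⟨_, lt_add_one _, by rw [hyt]; exact le_top⟩
    · exact ⟨y.toReal, (ENNReal.ofReal_lt_iff_lt_toReal hI0 hyt).1 hy1,
        by rw [ENNReal.ofReal_toReal hyt]⟩
  obtain ⟨δ, hδ, hδs⟩ := gm_fv_exists_delta ha
    (ENNReal.toReal_nonneg : 0 ≤ (m (Metric.closedBall o R)).toReal) (half_pos (sub_pos.2 hIy'))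
  have hgm : Measurable (fun x => (1 - 1 / N) * (max (rho m (ν : Measure X) x) δ) ^ (-1 / N)) :=
    gm_fv_g_measurable N δ (gm_fv_rho_measurable m _)
  have hcont := gm_continuousOn_integral (o := o) (R := R) hfin C
    (g := (Metric.closedBall o R).indicator
      (fun x => (1 - 1 / N) * (max (rho m (ν : Measure X) x) δ) ^ (-1 / N)))
    (hgm.indicator Metric.isClosed_closedBall.measurableSet) (B := (1 - 1 / N) * δ ^ (-1 / N))
    (fun x => by
      by_cases hx : x ∈ Metric.closedBall o R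
      · rw [Set.indicator_of_mem hx]
        exact gm_fv_g_abs_le hN hδ
      · rw [Set.indicator_of_notMem hx, abs_zero]
        exact (abs_nonneg _).trans (gm_fv_g_abs_le (t := 0) hN hδ))
    (fun x hx => Set.indicator_of_notMem hx _)
  have hcw : Tendsto (fun ν' : ProbabilityMeasure X => ∫ x, (Metric.closedBall o R).indicator
      (fun x => (1 - 1 / N) * (max (rho m (ν : Measure X) x) δ) ^ (-1 / N)) x ∂(ν' : Measure X))
      (𝓝[{ν' : ProbabilityMeasure X | (ν' : Measure X) ≤ (C : ℝ≥0∞) • m}] ν) (𝓝 _) := hcont ν hνle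
  have hev0 := hcw.eventually_lt_const (lt_add_of_pos_right _ (half_pos (sub_pos.2 hIy')))
  have hev := hev0.filter_mono (nhdsWithin_mono ν
    (fun ν' (h : (ν' : Measure X) ≤ (C : ℝ≥0∞) • m ∧ (ν' : Measure X) (Metric.closedBall o R)ᶜ = 0)
      => h.1))
  filter_upwards [hev, self_mem_nhdsWithin] with ν' h1 hν'
  show renyiIntegral m (ν' : Measure X) N < y
  rw [gm_fv_renyi_real (o := o) (R := R) hfin hN hν'.1 hν'.2]
  refine lt_of_lt_of_le ?_ hy'y
  rw [ENNReal.ofReal_lt_ofReal_iff (lt_of_le_of_lt hI0 hIy')]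
  have t1 := gm_fv_tangent_int (o := o) (R := R) hfin hN (gm_fv_rho_measurable m (ν : Measure X))
    (gm_fv_rho_measurable m (ν' : Measure X)) (gm_fv_rho_nonneg m _) (gm_fv_rho_nonneg m _)
    (gm_fv_rho_le hνle) (gm_fv_rho_le hν'.1) hδ
  have t2 := gm_fv_tangent_self (o := o) (R := R) hfin hN (gm_fv_rho_measurable m (ν : Measure X))
    (gm_fv_rho_nonneg m _) (gm_fv_rho_le hνle) hδ
  have e1 := gm_fv_integral_dens (o := o) (R := R) hfin hν'.1 hgm
  have e2 := gm_fv_integral_dens (o := o) (R := R) hfin hνle hgm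
  rw [e1, e2] at h1
  linarith

end Claimed.Agent.R210.GM.FvUsc
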