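/-
Row 210 (S0432), layer GM, block GM5: intermediate points towards a Dirac mass.
Sub-architect of the block: helper104.  Map of the block (leaves in `Fv*.lean`):
  FvSeq  (D0 + GM3)  gm_fv_seq
  FvLow  (D1)        gm_fv_rn_identity, gm_fv_lower
  FvLim  (D2)        gm_fv_exists_limit, gm_fv_null_open, gm_fv_ae_closed, gm_fv_le_of_usc, gm_fv_third
  FvPlan (D2/D3)     gm_fv_plan
  FvUa, FvUb, FvUsc (D4)  gm_fv_usc
  FvMono (D5)        gm_fv_tau_tendsto, gm_fv_mono_lim
-/
import Claimed.Agent.R210.GM.Defs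
import Claimed.Agent.R210.GM.UtilD
import Claimed.Agent.R210.GM.TriCons
import Claimed.Agent.R210.GM.TriCptA
import Claimed.Agent.R210.GM.FvSeq
import Claimed.Agent.R210.GM.FvLow
import Claimed.Agent.R210.GM.FvLim
import Claimed.Agent.R210.GM.FvPlan
import Claimed.Agent.R210.GM.FvMono
import Claimed.Agent.R210.GM.FvUsc

set_option autoImplicit false

open Claims.C0366 Claims.C0366.WeakHessian
open Set Filter MeasureTheory
open scoped ENNReal NNReal Topology

namespace Claimed.Agent.R210.GM.Five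

open Claimed.Agent.R210.Defs Claimed.Agent.R210.CO.Ifc Claimed.Agent.R210.GM.Defs
open Claimed.Agent.R210.GM.UtilA Claimed.Agent.R210.GM.UtilD Claimed.Agent.R210.GM.TriA
  Claimed.Agent.R210.GM.TriCons Claimed.Agent.R210.GM.TriCptA Claimed.Agent.R210.GM.FvSeq
  Claimed.Agent.R210.GM.FvLow Claimed.Agent.R210.GM.FvLim Claimed.Agent.R210.GM.FvPlan
  Claimed.Agent.R210.GM.FvMono Claimed.Agent.R210.GM.FvUsc

variable {X : Type*} [MetricSpace X] [MeasurableSpace X] [BorelSpace X]
  [CompleteSpace X] [TopologicalSpace.SeparableSpace X] [ProperSpace X]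
variable {m μ₀ : Measure X} {K N s R : ℝ} {M₀ : ℝ≥0} {x : X}

/-- **GM5** -/
theorem gm_five (hS : Std m K N) (h0 : BddDens m μ₀ M₀ x R) (hR : 0 < R)
    (hs0 : 0 < s) (hs1 : s < 1) :
    ∃ (ν : Measure X) (Λ : Measure (X × X)), IsCoupling Λ μ₀ ν ∧
      (∀ᵐ p ∂Λ, dist p.1 p.2 = s * dist p.1 x ∧ dist p.2 x = (1 - s) * dist p.1 x) ∧
      BddDens m ν (gm_cs K N s (2 * R) M₀) x R ∧
      ∫⁻ y, tauCoeff K N (1 - s) (dist y x) * (μ₀.rnDeriv m y) ^ (1 - 1 / N) ∂m
        ≤ renyiIntegral m ν N := by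
  classical
  have := h0.prob
  have : SigmaFinite m := gm_sigmaFinite hS.finite
  have hrpos : ∀ j : ℕ, 0 < R / ((j : ℝ) + 1) := fun j => by positivity
  have hrle : ∀ j : ℕ, R / ((j : ℝ) + 1) ≤ R := fun j =>
    div_le_self hR.le (by linarith [(Nat.cast_nonneg j : (0 : ℝ) ≤ j)])
  choose μ₁ ν Λ q hc1 hT hB hq hren using
    fun j : ℕ => gm_fv_seq hS h0 hs0 hs1 (hrpos j) (hrle j)
  have hΛp : ∀ j, IsProbabilityMeasure (Λ j) := fun j => (gm_tri_prob (hT j)).1
  let L : ℕ → ProbabilityMeasure (X × X × X) := fun j => ⟨Λ j, hΛp j⟩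
  have hLcoe : ∀ j, (L j : Measure (X × X × X)) = Λ j := fun j => rfl
  -- D2: the limit
  have hc1R : ∀ j, μ₁ j (Metric.closedBall x R)ᶜ = 0 := fun j =>
    measure_mono_null (compl_subset_compl.2 (Metric.closedBall_subset_closedBall (hrle j))) (hc1 j)
  have hKc : IsCompact
      (Metric.closedBall x R ×ˢ Metric.closedBall x (3 * R) ×ˢ Metric.closedBall x R) :=
    (isCompact_closedBall x R).prod ((isCompact_closedBall x (3 * R)).prod (isCompact_closedBall x R))
  obtain ⟨U, L', hUne, hU, hLim, -⟩ := gm_fv_exists_limit hKc L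
    (fun j => gm_tri_conc3 (hT j) h0.conc (hc1R j) hs0.le hs1.le)
  have := hUne
  have hm0 : Measure.map (fun p : X × X × X => p.1) (L' : Measure (X × X × X)) = μ₀ :=
    (gm_isClosed_map_eq (f := fun p : X × X × X => p.1) continuous_fst μ₀).mem_of_tendsto hLim
      (Eventually.of_forall fun j => (hT j).m0)
  have hx : ∀ᵐ p ∂(L' : Measure (X × X × X)), p.2.2 = x :=
    gm_fv_third hU hLim hR (fun j => by rw [hLcoe, (hT j).m1]; exact hc1 j)
  have hal : ∀ᵐ p ∂(L' : Measure (X × X × X)),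
      dist p.1 p.2.1 = s * dist p.1 p.2.2 ∧ dist p.2.1 p.2.2 = (1 - s) * dist p.1 p.2.2 :=
    gm_fv_ae_closed hLim (gm_isClosed_aligned s) (Eventually.of_forall fun j => by
      filter_upwards [(hT j).al0, (hT j).al1] with p h1 h2
      exact ⟨h1, h2⟩)
  obtain ⟨hcpl, hal', hconc⟩ := gm_fv_plan hm0 hx hal h0.conc hs0 hs1
  -- D3: the second marginals converge
  have hcz : Continuous (fun p : X × X × X => p.2.1) := continuous_snd.fst
  have hνlim := ProbabilityMeasure.tendsto_map_of_tendsto_of_continuous L L' hLim hcz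
  have hνcoe : ∀ j, ((L j).map hcz.measurable.aemeasurable : Measure X) = ν j := fun j => (hT j).mz
  have hle : ((L'.map hcz.measurable.aemeasurable : ProbabilityMeasure X) : Measure X)
      ≤ ((gm_cs K N s (2 * R) M₀ : ℝ≥0) : ℝ≥0∞) • m :=
    (gm_isClosed_le hS.finite (gm_cs K N s (2 * R) M₀)).mem_of_tendsto hνlim
      (Eventually.of_forall fun j => by
        show ((L j).map hcz.measurable.aemeasurable : Measure X) ≤ _
        rw [hνcoe]; exact (hB j).le)
  have h3R : R + s * (2 * R) ≤ 3 * R := by nlinarith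
  -- D1 + D5 + D4
  have hlow : ∀ j : ℕ, ∫⁻ y, tauCoeff K N (1 - s) (dist y x + R / ((j : ℝ) + 1)) *
      (μ₀.rnDeriv m y) ^ (1 - 1 / N) ∂m
        ≤ renyiIntegral m ((L j).map hcz.measurable.aemeasurable : Measure X) N := fun j => by
    rw [hνcoe]
    exact (gm_fv_lower hS.K_neg hS.one_lt_N h0.le (hq j).1 (hc1 j) hs0 hs1).trans (hren j)
  have hmono := gm_fv_mono_lim (m := m) (x := x) hS.K_neg hS.one_lt_N hs0 hs1 hR
    (f := fun y => (μ₀.rnDeriv m y) ^ (1 - 1 / N)) ((Measure.measurable_rnDeriv μ₀ m).pow_const _)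
  have hfinal := gm_fv_le_of_usc
    (gm_fv_usc hS.finite hS.one_lt_N (gm_cs K N s (2 * R) M₀) x (3 * R)) hνlim
    (fun j => ⟨by rw [hνcoe]; exact (hB j).le, by
      rw [hνcoe]
      exact measure_mono_null (compl_subset_compl.2 (Metric.closedBall_subset_closedBall h3R))
        (hB j).conc⟩)
    ⟨hle, measure_mono_null (compl_subset_compl.2 (Metric.closedBall_subset_closedBall
      (by linarith))) hconc⟩
    (hmono.mono_left hU) hlow
  exact ⟨_, _, hcpl, hal', ⟨(L'.map hcz.measurable.aemeasurable).2, hle, hconc⟩, hfinal⟩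

end Claimed.Agent.R210.GM.Five
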