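/-
Row 210 (S0432), layer GM (architect helper666), block Y = GM4 (sub-architect helper224).   FILE DyDefs: DEFINITIONS of the dyadic construction.
Paper proof: section "Block Y" of `git show origin/helper666:docs/R210_GM_plan.md`.      MAP OF THE BLOCK
  DyDefs (this file) | DyMid (Y1 midpoint step) | DyLevA, DyLevB (Y2 level invariant) | DyEnt (entropy chain for the levels) | DyFam (Y3 the family on `Time`)
  DyPlan (Y4, glue: `li_geodesic_plan`) | DyConst (Y5a `M_n ≤ gm_cg`) | DyComp (Y5b density bound at all times) | DyTrack (Y6a) | DyTel (Y6c) | Four (glue).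
All data are bundled in `P : gm_Par X`, all hypotheses in `hP : gm_Hyp P`.
  `gm_Mn P n = M ∏_{j<n} cosh(D k / 2^{j+1})^{N-1}` (recursively), `gm_Rn P n = R + D (1 - 2^{-n})`,
  `gm_Lv P n i` = the measure at time `i / 2^n` (`i ≤ 2^n`):  `L 0 0 = μ₀`, `L 0 i = μ₁` (`i ≥ 1`), `L (n+1) (2j) = L n j`, `L (n+1) (2j+1) =` chosen good midpoint of `L n j`, `L n (j+1)`.
-/
import Claimed.Agent.R210.GM.Defs
import Claimed.Agent.R210.LI.Defs

set_option autoImplicit false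

open Claims.C0366 Claims.C0366.WeakHessian
open Set Filter MeasureTheory
open scoped ENNReal NNReal Topology

namespace Claimed.Agent.R210.GM.DyDefs

open Claimed.Agent.R210.Defs Claimed.Agent.R210.CO.Ifc Claimed.Agent.R210.GM.Defs Claimed.Agent.R210.LI.Defs

noncomputable section

variable {X : Type*} [MetricSpace X] [MeasurableSpace X] [BorelSpace X]

/-- `ν` is a good midpoint of `(α, β)` (for the constants `M, D, R`). -/
structure gm_Mid (m : Measure X) (K N : ℝ) (o : X) (M : ℝ≥0) (D R : ℝ) (α β ν : Measure X) : Prop where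
  bd : BddDens m ν (gm_ch K N D M) o (R + D / 2)
  wl : 4 * W2sq α ν ≤ W2sq α β
  wr : 4 * W2sq ν β ≤ W2sq α β
  hl : gm_HD α ν (D / 2)
  hr : gm_HD ν β (D / 2)
  ent : Ent m ν ≤ Ent m α / 2 + Ent m β / 2 - K / 8 * W2sqR α β

open Classical in
/-- a chosen good midpoint (junk value `α` if there is none). -/
def gm_mid (m : Measure X) (K N : ℝ) (o : X) (M : ℝ≥0) (D R : ℝ) (α β : Measure X) : Measure X :=
  if h : ∃ ν, gm_Mid m K N o M D R α β ν then Classical.choose h else α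

/-- the data of GM4. -/
structure gm_Par (X : Type*) [MetricSpace X] [MeasurableSpace X] where
  m : Measure X
  K : ℝ
  N : ℝ
  o : X
  M : ℝ≥0
  D : ℝ
  R : ℝ
  μ₀ : Measure X
  μ₁ : Measure X

/-- the hypotheses of GM4 (with one common density bound `M`). -/
structure gm_Hyp (P : gm_Par X) : Prop where
  std : Std P.m P.K P.N
  b0 : BddDens P.m P.μ₀ P.M P.o P.R
  b1 : BddDens P.m P.μ₁ P.M P.o P.R
  hd : gm_HD P.μ₀ P.μ₁ P.D
  D0 : 0 ≤ P.D

/-- density constant of level `n`. -/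
def gm_Mn (P : gm_Par X) : ℕ → ℝ≥0
  | 0 => P.M
  | n + 1 => gm_ch P.K P.N (P.D / 2 ^ n) (gm_Mn P n)

/-- radius of level `n`. -/
def gm_Rn (P : gm_Par X) (n : ℕ) : ℝ := P.R + P.D * (1 - (1 / 2) ^ n)

/-- the measure at time `i / 2^n`. -/
def gm_Lv (P : gm_Par X) : ℕ → ℕ → Measure X
  | 0, i => if i = 0 then P.μ₀ else P.μ₁
  | n + 1, i =>
    if i % 2 = 0 then gm_Lv P n (i / 2)
    else gm_mid P.m P.K P.N P.o (gm_Mn P n) (P.D / 2 ^ n) (gm_Rn P n) (gm_Lv P n (i / 2)) (gm_Lv P n (i / 2 + 1))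

/-- the invariant of level `n`. -/
structure gm_Lev (P : gm_Par X) (n : ℕ) : Prop where
  bd : ∀ i, i ≤ 2 ^ n → BddDens P.m (gm_Lv P n i) (gm_Mn P n) P.o (gm_Rn P n)
  hd : ∀ i, i < 2 ^ n → gm_HD (gm_Lv P n i) (gm_Lv P n (i + 1)) (P.D / 2 ^ n)
  w : ∀ i, i < 2 ^ n → (4 : ℝ≥0∞) ^ n * W2sq (gm_Lv P n i) (gm_Lv P n (i + 1)) ≤ W2sq P.μ₀ P.μ₁
  z : gm_Lv P n 0 = P.μ₀
  e : gm_Lv P n (2 ^ n) = P.μ₁

open Classical in
/-- the family on `Time`:  `gm_Lv P n i` at the dyadic time `li_dy n i` (`i ≤ 2^n`), junk value `μ₀` at the other times. -/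
def gm_fam (P : gm_Par X) (t : Time) : Measure X :=
  if h : ∃ p : ℕ × ℕ, p.2 ≤ 2 ^ p.1 ∧ li_dy p.1 p.2 = t then gm_Lv P (Classical.choose h).1 (Classical.choose h).2
  else P.μ₀

end

end Claimed.Agent.R210.GM.DyDefs
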