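/-
Row 210 (S0432), layer GM, block Y = GM4 (sub-architect helper224).   FILE DyComp: Y5b, a density bound at the dyadic times holds at ALL times.
   `Curve X = C(Time, X)`, `Time = Icc 0 1`, Borel σ-algebra on `Curve X`;  `li_dy n i = clampTime (i/2^n)`.      Tools: CU/IfcBasic (`cu_continuous_eval_time`, `cu_measurable_eval`), LI/Dy (`li_dy_floor_tendsto t : Tendsto (fun n => li_dy n ⌊t * 2^n⌋₊) atTop (𝓝 t)`, usable even if still sorry), UtilD.gm_isClosed_le.
* `gm_map_tendsto`:   for `t_j → t` in `Time` the probability measures `ν_j = (e_{t_j})_# π` converge to `ν = (e_t)_# π` in `ProbabilityMeasure X`.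
      `ProbabilityMeasure.tendsto_iff_forall_integral_tendsto`;  for `f : X →ᵇ ℝ`:  `∫ f dν_j = ∫ f (γ t_j) dπ` (`integral_map`, `f.continuous.aestronglyMeasurable`/`stronglyMeasurable`);   `f (γ t_j) → f (γ t)` for every `γ` (`γ.continuous`, `f.continuous`), `|f| ≤ ‖f‖`:
      `tendsto_integral_of_dominated_convergence (fun _ => ‖f‖)` (`integrable_const`, π finite).     The measures are packaged as `⟨Measure.map _ π, Measure.isProbabilityMeasure_map (cu_measurable_eval _).aemeasurable⟩` = `gm_ev π t` below.
* `gm_comp_all`:   `IsClosed.mem_of_tendsto (gm_isClosed_le hfin C) (gm_map_tendsto π (li_dy_floor_tendsto t)) (Eventually.of_forall fun n => h n _)`.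
-/
import Claimed.Agent.R210.GM.DyDefs
import Claimed.Agent.R210.GM.UtilD
import Claimed.Agent.R210.LI.Dy
import Claimed.Agent.R210.CU.IfcBasic

set_option autoImplicit false

open Claims.C0366 Claims.C0366.WeakHessian
open Set Filter MeasureTheory
open scoped ENNReal NNReal Topology

namespace Claimed.Agent.R210.GM.DyComp

open Claimed.Agent.R210.Defs Claimed.Agent.R210.GM.Defs Claimed.Agent.R210.GM.DyDefs Claimed.Agent.R210.GM.UtilD
  Claimed.Agent.R210.LI.Defs Claimed.Agent.R210.LI.Dy Claimed.Agent.R210.CU.IfcBasic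

noncomputable section

variable {X : Type*} [MetricSpace X] [MeasurableSpace X] [BorelSpace X]

/-- the marginal at time `t` as a probability measure. -/
def gm_ev (π : Measure (Curve X)) [IsProbabilityMeasure π] (t : Time) : ProbabilityMeasure X :=
  ⟨Measure.map (fun γ : Curve X => γ t) π, Measure.isProbabilityMeasure_map (cu_measurable_eval t).aemeasurable⟩

theorem gm_map_tendsto (π : Measure (Curve X)) [IsProbabilityMeasure π] {ts : ℕ → Time} {t : Time}
    (h : Tendsto ts atTop (𝓝 t)) : Tendsto (fun j => gm_ev π (ts j)) atTop (𝓝 (gm_ev π t)) := by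
  rw [ProbabilityMeasure.tendsto_iff_forall_integral_tendsto]
  intro f
  have e : ∀ s : Time, ∫ x, f x ∂((gm_ev π s : ProbabilityMeasure X) : Measure X) = ∫ γ, f (γ s) ∂π := by
    intro s
    exact integral_map (cu_measurable_eval s).aemeasurable f.continuous.aestronglyMeasurable
  simp only [e]
  refine tendsto_integral_of_dominated_convergence (fun _ => ‖f‖) ?_ (integrable_const _) ?_ ?_
  · intro n
    exact (f.continuous.comp (cu_continuous_eval_time (ts n))).aestronglyMeasurable
  · intro n
    exact Eventually.of_forall fun γ => f.norm_coe_le_norm _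
  · refine Eventually.of_forall fun γ => ?_
    exact (f.continuous.tendsto _).comp ((γ.continuous.tendsto t).comp h)

/-- **Y5b** -/
theorem gm_comp_all [ProperSpace X] {m : Measure X} (hfin : FiniteOnBoundedSets m) (π : Measure (Curve X))
    [IsProbabilityMeasure π] (C : ℝ≥0)
    (h : ∀ n i : ℕ, Measure.map (fun γ : Curve X => γ (li_dy n i)) π ≤ (C : ℝ≥0∞) • m) (t : Time) :
    Measure.map (fun γ : Curve X => γ t) π ≤ (C : ℝ≥0∞) • m :=
  IsClosed.mem_of_tendsto (gm_isClosed_le hfin C) (gm_map_tendsto π (li_dy_floor_tendsto t))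
    (Eventually.of_forall fun n => h n _)

end

end Claimed.Agent.R210.GM.DyComp
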