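/-
Row 210 (S0432), layer GM, block Y = GM4 (sub-architect helper224).   FILE DyConst: Y5a, `gm_Mn P n ≤ gm_cg K D M`.     Definitions: GM/DyDefs.lean (`gm_Mn`), GM/Defs.lean (`gm_ch`, `gm_cg`), `co_k` (CO/Ifc.lean).
   k = co_k K N,   gm_ch K N D' M' = M' * toNNReal (cosh (D' * k / 2) ^ (N - 1)),    gm_cg K D M = M * toNNReal (exp (-K * D^2 / 6)).
* `gm_Mn_eq`:  induction on `n`.   `gm_Mn P (n+1) = gm_Mn P n * toNNReal (cosh (D / 2^n * k / 2) ^ (N-1))` (`rfl` after `unfold gm_ch`);   `D / 2^n * k / 2 = D * k / 2^(n+1)` (`pow_succ`, `field_simp`);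
      `Finset.prod_range_succ`;   `Real.mul_rpow` (both factors `≥ 0`: `Finset.prod_nonneg`, `Real.cosh_pos`), `Real.toNNReal_mul`, `mul_assoc`.     (n = 0: empty product, `Real.one_rpow`, `Real.toNNReal_one`, `mul_one`.)
* `gm_Mn_le_cg`:  `co_prod_cosh_le' (D * k) n : ∏_{j<n} cosh (D k / 2^(j+1)) ≤ exp ((D k)^2 / 6)`;   `Real.rpow_le_rpow` (exponent `N - 1 ≥ 0`);   `(exp y)^(N-1) = exp (y (N-1))` (`← Real.exp_mul`);
      `(D k)^2 / 6 * (N - 1) = -K D^2 / 6`  by `co_k_sq hK hN : k^2 = -K/(N-1)` (`mul_pow`, `field_simp`);    `Real.toNNReal_le_toNNReal`, `mul_le_mul_left'`.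
-/
import Claimed.Agent.R210.GM.DyDefs

set_option autoImplicit false

open Claims.C0366 Claims.C0366.WeakHessian
open Set Filter MeasureTheory
open scoped ENNReal NNReal Topology

namespace Claimed.Agent.R210.GM.DyConst

open Claimed.Agent.R210.Defs Claimed.Agent.R210.CO.Ifc Claimed.Agent.R210.GM.Defs Claimed.Agent.R210.GM.DyDefs

variable {X : Type*} [MetricSpace X] [MeasurableSpace X] [BorelSpace X]

theorem gm_Mn_eq (P : gm_Par X) (n : ℕ) :
    gm_Mn P n = P.M * Real.toNNReal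
      ((∏ j ∈ Finset.range n, Real.cosh (P.D * co_k P.K P.N / 2 ^ (j + 1))) ^ (P.N - 1)) := by
  induction n with
  | zero =>
    simp [gm_Mn]
  | succ n ih =>
    have h1 : gm_Mn P (n + 1)
        = gm_Mn P n * Real.toNNReal (Real.cosh (P.D / 2 ^ n * co_k P.K P.N / 2) ^ (P.N - 1)) := rfl
    have h2 : P.D / 2 ^ n * co_k P.K P.N / 2 = P.D * co_k P.K P.N / 2 ^ (n + 1) := by
      rw [pow_succ]
      field_simp
    have h3 : 0 ≤ ∏ j ∈ Finset.range n, Real.cosh (P.D * co_k P.K P.N / 2 ^ (j + 1)) :=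
      Finset.prod_nonneg fun j _ => (Real.cosh_pos _).le
    have h4 : 0 ≤ Real.cosh (P.D * co_k P.K P.N / 2 ^ (n + 1)) := (Real.cosh_pos _).le
    rw [h1, ih, h2, Finset.prod_range_succ, Real.mul_rpow h3 h4,
      Real.toNNReal_mul (Real.rpow_nonneg h3 _), mul_assoc]

/-- **Y5a** -/
theorem gm_Mn_le_cg (P : gm_Par X) (hK : P.K < 0) (hN : 1 < P.N) (n : ℕ) :
    gm_Mn P n ≤ gm_cg P.K P.D P.M := by
  rw [gm_Mn_eq]
  unfold gm_cg
  refine mul_le_mul_right (Real.toNNReal_le_toNNReal ?_) _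
  have h3 : 0 ≤ ∏ j ∈ Finset.range n, Real.cosh (P.D * co_k P.K P.N / 2 ^ (j + 1)) :=
    Finset.prod_nonneg fun j _ => (Real.cosh_pos _).le
  have hN1 : 0 < P.N - 1 := by linarith
  refine (Real.rpow_le_rpow h3 (co_prod_cosh_le' (P.D * co_k P.K P.N) n) hN1.le).trans (le_of_eq ?_)
  rw [← Real.exp_mul]
  congr 1
  rw [mul_pow, co_k_sq hK hN]
  field_simp

end Claimed.Agent.R210.GM.DyConst
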