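/-
Row 210 (S0432), layer GM, block Y = GM4 (sub-architect helper224).   FILE DyLevA: elementary facts on `gm_Mn`, `gm_Rn`, `gm_Lv`;  level 0.     Definitions: GM/DyDefs.lean.
* `gm_Mn_le_succ`:  `gm_Mn P (n+1) = gm_ch K N (D/2^n) (gm_Mn P n) = gm_Mn P n * toNNReal (cosh(..)^(N-1))` (`rfl`/`unfold gm_ch`);   `1 ≤ cosh x` (`Real.one_le_cosh`), `1 ≤ N - 1 + 1`..: `Real.one_le_rpow (Real.one_le_cosh _) (by linarith : 0 ≤ N - 1)`;
       `1 ≤ toNNReal y` from `1 ≤ y` (`Real.one_le_toNNReal` / `Real.le_toNNReal_iff_coe_le`), `le_mul_of_one_le_right'`.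
* `gm_Rn_succ`, `gm_Rn_zero`, `gm_Rn_le`:  `unfold gm_Rn`; `pow_succ`; `ring` / `nlinarith`.
* `gm_Lv_even`, `gm_Lv_odd`:  unfold one step of the recursion (`show (if _ then _ else _) = _` or `simp only [gm_Lv]`), `Nat.mul_mod_right`, `Nat.mul_div_cancel_left`, `Nat.mul_add_mod`, `omega`.
* `gm_lev_zero`:  `2^0 = 1`, so `i ∈ {0,1}` resp. `i = 0`;  `gm_Lv P 0 0 = μ₀`, `gm_Lv P 0 1 = μ₁`;  `gm_Mn P 0 = M`, `gm_Rn P 0 = R`, `D / 2^0 = D`, `4^0 * x = x`.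
-/
import Claimed.Agent.R210.GM.DyDefs

set_option autoImplicit false

open Claims.C0366 Claims.C0366.WeakHessian
open Set Filter MeasureTheory
open scoped ENNReal NNReal Topology

namespace Claimed.Agent.R210.GM.DyLevA

open Claimed.Agent.R210.Defs Claimed.Agent.R210.CO.Ifc Claimed.Agent.R210.GM.Defs Claimed.Agent.R210.GM.DyDefs

variable {X : Type*} [MetricSpace X] [MeasurableSpace X] [BorelSpace X]
variable {P : gm_Par X}

theorem gm_Mn_le_succ (hN : 1 < P.N) (n : ℕ) : gm_Mn P n ≤ gm_Mn P (n + 1) := by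
  have h1 : (1 : ℝ) ≤ Real.cosh (P.D / 2 ^ n * co_k P.K P.N / 2) ^ (P.N - 1) :=
    Real.one_le_rpow (Real.one_le_cosh _) (by linarith)
  have h2 : (1 : ℝ≥0) ≤ Real.toNNReal (Real.cosh (P.D / 2 ^ n * co_k P.K P.N / 2) ^ (P.N - 1)) := by
    rw [Real.one_le_toNNReal]
    exact h1
  show gm_Mn P n ≤ gm_ch P.K P.N (P.D / 2 ^ n) (gm_Mn P n)
  unfold gm_ch
  exact le_mul_of_one_le_right' h2

theorem gm_Rn_zero (P : gm_Par X) : gm_Rn P 0 = P.R := by
  unfold gm_Rn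
  simp

theorem gm_Rn_succ (P : gm_Par X) (n : ℕ) : gm_Rn P (n + 1) = gm_Rn P n + P.D / 2 ^ n / 2 := by
  unfold gm_Rn
  rw [pow_succ, one_div_pow]
  ring

theorem gm_Rn_le_succ (hD : 0 ≤ P.D) (n : ℕ) : gm_Rn P n ≤ gm_Rn P (n + 1) := by
  rw [gm_Rn_succ]
  have : 0 ≤ P.D / 2 ^ n / 2 := by positivity
  linarith

theorem gm_Lv_even (P : gm_Par X) (n j : ℕ) : gm_Lv P (n + 1) (2 * j) = gm_Lv P n j := by
  have h1 : (2 * j) % 2 = 0 := by omega
  have h2 : (2 * j) / 2 = j := by omega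
  rw [gm_Lv, if_pos h1, h2]

theorem gm_Lv_odd (P : gm_Par X) (n j : ℕ) :
    gm_Lv P (n + 1) (2 * j + 1)
      = gm_mid P.m P.K P.N P.o (gm_Mn P n) (P.D / 2 ^ n) (gm_Rn P n) (gm_Lv P n j) (gm_Lv P n (j + 1)) := by
  have h1 : ¬ (2 * j + 1) % 2 = 0 := by omega
  have h2 : (2 * j + 1) / 2 = j := by omega
  rw [gm_Lv, if_neg h1, h2]

theorem gm_lev_zero (hP : gm_Hyp P) : gm_Lev P 0 := by
  have z0 : gm_Lv P 0 0 = P.μ₀ := by simp [gm_Lv]
  have z1 : gm_Lv P 0 1 = P.μ₁ := by simp [gm_Lv]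
  have hM : gm_Mn P 0 = P.M := rfl
  refine ⟨?_, ?_, ?_, z0, ?_⟩
  · intro i hi
    rw [hM, gm_Rn_zero]
    have : i = 0 ∨ i = 1 := by
      simp only [pow_zero] at hi
      omega
    rcases this with rfl | rfl
    · rw [z0]; exact hP.b0
    · rw [z1]; exact hP.b1
  · intro i hi
    have : i = 0 := by
      simp only [pow_zero] at hi
      omega
    subst this
    rw [z0, zero_add, z1, pow_zero, div_one]
    exact hP.hd
  · intro i hi
    have : i = 0 := by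
      simp only [pow_zero] at hi
      omega
    subst this
    rw [z0, zero_add, z1, pow_zero, one_mul]
  · rw [pow_zero, z1]

end Claimed.Agent.R210.GM.DyLevA
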