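/-
Row 210 (S0432), layer GM (architect helper666).  Block T, TriInter: gm_Tri implies IsInter (glue from OT).
Plan and proofs: `git show origin/helper666:docs/R210_GM_plan.md`.
-/
import Claimed.Agent.R210.GM.Defs
import Claimed.Agent.R210.GM.UtilA
import Claimed.Agent.R210.GM.TriA
import Claimed.Agent.R210.GM.TriCons
import Claimed.Agent.R210.OT.Ifc

set_option autoImplicit false

open Claims.C0366 Claims.C0366.WeakHessian
open Set Filter MeasureTheory
open scoped ENNReal NNReal Topology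

namespace Claimed.Agent.R210.GM.TriInter

open Claimed.Agent.R210.GM.Defs Claimed.Agent.R210.CO.Ifc Claimed.Agent.R210.Defs Claimed.Agent.R210.GM.UtilA Claimed.Agent.R210.GM.TriA Claimed.Agent.R210.GM.TriCons Claimed.Agent.R210.OT.Ifc

noncomputable section

variable {X : Type*} [MetricSpace X] [MeasurableSpace X] [BorelSpace X]
  [CompleteSpace X] [TopologicalSpace.SeparableSpace X]
variable {m μ₀ μ₁ ν : Measure X} {Λ : Measure (X × X × X)} {s R : ℝ}
  {M₀ M₁ : ℝ≥0} {o : X}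

theorem gm_W2sq_ne_top (h0 : BddDens m μ₀ M₀ o R) (h1 : BddDens m μ₁ M₁ o R) :
    W2sq μ₀ μ₁ ≠ ∞ := by
  have := h0.prob
  have := h1.prob
  exact (ot_W2sq_lt_top (gm_bddDens_secondMoment h0) (gm_bddDens_secondMoment h1)).ne

theorem gm_tri_isInter (h : gm_Tri μ₀ μ₁ ν s Λ) (h0 : BddDens m μ₀ M₀ o R)
    (h1 : BddDens m μ₁ M₁ o R) (hs0 : 0 ≤ s) (hs1 : s ≤ 1) : IsInter μ₀ μ₁ ν s := by
  have := h0.prob
  have := h1.prob
  have := (gm_tri_prob h).2.1
  exact ot_inter_of_le hs0 hs1 (gm_W2sq_ne_top h0 h1) (gm_tri_W2sq_left h) (gm_tri_W2sq_right h)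

end

end Claimed.Agent.R210.GM.TriInter
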