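/-
Row 210 (S0432), layer GM (architect helper666).  Block T, TriHD: (H_D) passes to the two halves (glue from OT7 = ot_align).
Plan and proofs: `git show origin/helper666:docs/R210_GM_plan.md`.
-/
import Claimed.Agent.R210.GM.Defs
import Claimed.Agent.R210.GM.UtilA
import Claimed.Agent.R210.GM.TriA
import Claimed.Agent.R210.GM.TriCons
import Claimed.Agent.R210.GM.TriInter
import Claimed.Agent.R210.OT.Ifc

set_option autoImplicit false

open Claims.C0366 Claims.C0366.WeakHessian
open Set Filter MeasureTheory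
open scoped ENNReal NNReal Topology

namespace Claimed.Agent.R210.GM.TriHD

open Claimed.Agent.R210.GM.Defs Claimed.Agent.R210.CO.Ifc Claimed.Agent.R210.Defs Claimed.Agent.R210.GM.UtilA Claimed.Agent.R210.GM.TriA Claimed.Agent.R210.GM.TriCons Claimed.Agent.R210.GM.TriInter Claimed.Agent.R210.OT.Ifc

noncomputable section

open Claimed.Agent.R210.OT.Defs

variable {X : Type*} [MetricSpace X] [MeasurableSpace X] [BorelSpace X]
  [CompleteSpace X] [TopologicalSpace.SeparableSpace X]
variable {m μ₀ μ₁ ν : Measure X} {Λ : Measure (X × X × X)} {s D R : ℝ}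
  {M₀ M₁ : ℝ≥0} {o : X}

theorem gm_tri_HD_left (h : gm_Tri μ₀ μ₁ ν s Λ) (h0 : BddDens m μ₀ M₀ o R)
    (h1 : BddDens m μ₁ M₁ o R) (hD : gm_HD μ₀ μ₁ D) (hs0 : 0 < s) (hs1 : s < 1) :
    gm_HD μ₀ ν (s * D) := by
  have := h0.prob
  have := h1.prob
  have := (gm_tri_prob h).2.1
  have : SecondCountableTopology X := UniformSpace.secondCountable_of_separable X
  intro q hq
  obtain ⟨q₁, hq₁⟩ := ot_exists_optimal ν μ₁
  obtain ⟨Λ', -, e12, -, hopt, hal⟩ := ot_align hs0.le hs1.le (gm_W2sq_ne_top h0 h1)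
    (gm_tri_isInter h h0 h1 hs0.le hs1.le) hq hq₁
  have m12 : Measurable (ot_p12 (X := X)) := by unfold ot_p12; fun_prop
  have m13 : Measurable (ot_p13 (X := X)) := by unfold ot_p13; fun_prop
  have hd := hD _ hopt
  rw [ae_map_iff m13.aemeasurable (measurableSet_le (by fun_prop) measurable_const)] at hd
  rw [← e12, ae_map_iff m12.aemeasurable (measurableSet_le (by fun_prop) measurable_const)]
  filter_upwards [hd, hal] with p hp hp2
  simp only [ot_p12, ot_p13] at hp ⊢
  rw [hp2.1]
  exact mul_le_mul_of_nonneg_left hp hs0.le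

theorem gm_tri_HD_right (h : gm_Tri μ₀ μ₁ ν s Λ) (h0 : BddDens m μ₀ M₀ o R)
    (h1 : BddDens m μ₁ M₁ o R) (hD : gm_HD μ₀ μ₁ D) (hs0 : 0 < s) (hs1 : s < 1) :
    gm_HD ν μ₁ ((1 - s) * D) := by
  have := h0.prob
  have := h1.prob
  have := (gm_tri_prob h).2.1
  have : SecondCountableTopology X := UniformSpace.secondCountable_of_separable X
  intro q hq
  obtain ⟨q₀, hq₀⟩ := ot_exists_optimal μ₀ ν
  obtain ⟨Λ', -, -, e23, hopt, hal⟩ := ot_align hs0.le hs1.le (gm_W2sq_ne_top h0 h1)
    (gm_tri_isInter h h0 h1 hs0.le hs1.le) hq₀ hq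
  have m23 : Measurable (ot_p23 (X := X)) := by unfold ot_p23; fun_prop
  have m13 : Measurable (ot_p13 (X := X)) := by unfold ot_p13; fun_prop
  have hd := hD _ hopt
  rw [ae_map_iff m13.aemeasurable (measurableSet_le (by fun_prop) measurable_const)] at hd
  rw [← e23, ae_map_iff m23.aemeasurable (measurableSet_le (by fun_prop) measurable_const)]
  filter_upwards [hd, hal] with p hp hp2
  simp only [ot_p23, ot_p13] at hp ⊢
  rw [hp2.2]
  exact mul_le_mul_of_nonneg_left hp (by linarith)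

end

end Claimed.Agent.R210.GM.TriHD
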