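/-
Row 210 (S0432), layer GM, block Y = GM4 (sub-architect helper224).   FILE DyMid: Y1, the midpoint step.     Definitions: GM/DyDefs.lean (`gm_Mid`, `gm_mid`).
* `gm_mid_exists`:  `Two.gm_two hS hα hβ hD hD0` (with `M₀ = M₁ = M`, `max_self`) gives `ν, Λ` with `hT : gm_Tri α β ν (1/2) Λ`, `BddDens m ν (gm_ch K N D M) o (R + D/2)` and the entropy inequality (fields `bd`, `ent`).
     `wl`:  `TriCons.gm_tri_W2sq_left hT : W2sq α ν ≤ ENNReal.ofReal ((1/2)^2) * W2sq α β`;   `4 * ENNReal.ofReal ((1/2)^2) = 1`  (write `4 = ENNReal.ofReal 4`, `← ENNReal.ofReal_mul`, `norm_num`), `mul_le_mul_left'`, `← mul_assoc`.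
     `wr`:  the same with `gm_tri_W2sq_right` (`(1 - 1/2)^2`).
     `hl`, `hr`:  `TriHD.gm_tri_HD_left / right hT hα hβ hD (by norm_num) (by norm_num)`, and `1/2 * D = D/2`, `(1 - 1/2) * D = D/2` (`by ring`, `▸` or `convert ... using 1`).
-/
import Claimed.Agent.R210.GM.DyDefs
import Claimed.Agent.R210.GM.Two
import Claimed.Agent.R210.GM.TriHD

set_option autoImplicit false

open Claims.C0366 Claims.C0366.WeakHessian
open Set Filter MeasureTheory
open scoped ENNReal NNReal Topology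

namespace Claimed.Agent.R210.GM.DyMid

open Claimed.Agent.R210.Defs Claimed.Agent.R210.CO.Ifc Claimed.Agent.R210.GM.Defs Claimed.Agent.R210.GM.DyDefs
  Claimed.Agent.R210.GM.Two Claimed.Agent.R210.GM.TriCons Claimed.Agent.R210.GM.TriHD

variable {X : Type*} [MetricSpace X] [MeasurableSpace X] [BorelSpace X]
  [CompleteSpace X] [TopologicalSpace.SeparableSpace X] [ProperSpace X]
variable {m α β : Measure X} {K N D R : ℝ} {M : ℝ≥0} {o : X}

/-- **Y1** -/
theorem gm_mid_exists (hS : Std m K N) (hα : BddDens m α M o R) (hβ : BddDens m β M o R)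
    (hD : gm_HD α β D) (hD0 : 0 ≤ D) : ∃ ν, gm_Mid m K N o M D R α β ν := by
  obtain ⟨ν, Λ, hT, hbd, hent⟩ := gm_two hS hα hβ hD hD0
  rw [max_self] at hbd
  have h4a : (4 : ℝ≥0∞) * ENNReal.ofReal ((1 / 2 : ℝ) ^ 2) = 1 := by
    have h4 : (4 : ℝ≥0∞) = ENNReal.ofReal 4 := by
      rw [ENNReal.ofReal_ofNat]
    rw [h4, ← ENNReal.ofReal_mul (by norm_num)]
    norm_num
  have h4b : (4 : ℝ≥0∞) * ENNReal.ofReal ((1 - 1 / 2 : ℝ) ^ 2) = 1 := by
    have h4 : (4 : ℝ≥0∞) = ENNReal.ofReal 4 := by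
      rw [ENNReal.ofReal_ofNat]
    rw [h4, ← ENNReal.ofReal_mul (by norm_num)]
    norm_num
  refine ⟨ν, ⟨hbd, ?_, ?_, ?_, ?_, hent⟩⟩
  · calc 4 * W2sq α ν ≤ 4 * (ENNReal.ofReal ((1 / 2 : ℝ) ^ 2) * W2sq α β) := by
          gcongr
          exact gm_tri_W2sq_left hT
      _ = W2sq α β := by rw [← mul_assoc, h4a, one_mul]
  · calc 4 * W2sq ν β ≤ 4 * (ENNReal.ofReal ((1 - 1 / 2 : ℝ) ^ 2) * W2sq α β) := by
          gcongr
          exact gm_tri_W2sq_right hT
      _ = W2sq α β := by rw [← mul_assoc, h4b, one_mul]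
  · have h := gm_tri_HD_left hT hα hβ hD (by norm_num) (by norm_num)
    rwa [show (1 / 2 : ℝ) * D = D / 2 by ring] at h
  · have h := gm_tri_HD_right hT hα hβ hD (by norm_num) (by norm_num)
    rwa [show (1 - 1 / 2 : ℝ) * D = D / 2 by ring] at h

theorem gm_mid_spec (hS : Std m K N) (hα : BddDens m α M o R) (hβ : BddDens m β M o R)
    (hD : gm_HD α β D) (hD0 : 0 ≤ D) : gm_Mid m K N o M D R α β (gm_mid m K N o M D R α β) := by
  have h := gm_mid_exists hS hα hβ hD hD0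
  unfold gm_mid
  rw [dif_pos h]
  exact Classical.choose_spec h

end Claimed.Agent.R210.GM.DyMid
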