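/-
Row 210 (S0432), layer GM, block Y = GM4 (sub-architect helper224).   FILE DyLevB: Y2, the refinement step of the level invariant.     Definitions: GM/DyDefs.lean;  tools: DyLevA (all lemmas), DyMid.gm_mid_spec, UtilA.gm_bddDens_mono.
`gm_lev_succ`.   Let `h : gm_Lev P n`.  For `j < 2^n` put `ν_j = gm_Lv P (n+1) (2j+1)`;  by `gm_Lv_odd` and `gm_mid_spec hP.std (h.bd j _) (h.bd (j+1) _) (h.hd j hj) (0 ≤ D/2^n)`:
      `S_j : gm_Mid m K N o (gm_Mn P n) (D/2^n) (gm_Rn P n) (gm_Lv P n j) (gm_Lv P n (j+1)) ν_j`      (prove this first as a `have`, it is `gm_mid_step` below).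
  Every `i` is `2j` or `2j+1` (`Nat.even_or_odd'`).
  bd:  `i = 2j ≤ 2^(n+1)` ⟹ `j ≤ 2^n`: `gm_Lv_even`, `gm_bddDens_mono (h.bd j _) (gm_Mn_le_succ ..) (gm_Rn_le_succ ..)`.      `i = 2j+1 ≤ 2^(n+1)` ⟹ `j < 2^n`:  `S_j.bd`  (`gm_Mn P (n+1)` is `gm_ch ..` by `rfl`, `gm_Rn_succ`).
  hd:  `i = 2j`:  pair `(L n j, ν_j)`, `S_j.hl`;    `i = 2j+1`:  `i + 1 = 2 (j+1)`, pair `(ν_j, L n (j+1))`, `S_j.hr`;    `D/2^n/2 = D/2^(n+1)` (`pow_succ`, `field_simp`).
  w:   `4^(n+1) * W2sq (L n j) ν_j = 4^n * (4 * W2sq ..) ≤ 4^n * W2sq (L n j) (L n (j+1)) ≤ W2sq μ₀ μ₁`   (`pow_succ`, `mul_assoc`, `mul_le_mul_left'`, `S_j.wl`/`S_j.wr`, `h.w j hj`).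
  z:   `gm_Lv_even P n 0`, `h.z`.         e:  `2^(n+1) = 2 * 2^n`, `gm_Lv_even`, `h.e`.
-/
import Claimed.Agent.R210.GM.DyLevA
import Claimed.Agent.R210.GM.DyMid
import Claimed.Agent.R210.GM.UtilA

set_option autoImplicit false

open Claims.C0366 Claims.C0366.WeakHessian
open Set Filter MeasureTheory
open scoped ENNReal NNReal Topology

namespace Claimed.Agent.R210.GM.DyLevB

open Claimed.Agent.R210.Defs Claimed.Agent.R210.CO.Ifc Claimed.Agent.R210.GM.Defs Claimed.Agent.R210.GM.DyDefs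
  Claimed.Agent.R210.GM.DyLevA Claimed.Agent.R210.GM.DyMid Claimed.Agent.R210.GM.UtilA

variable {X : Type*} [MetricSpace X] [MeasurableSpace X] [BorelSpace X]
  [CompleteSpace X] [TopologicalSpace.SeparableSpace X] [ProperSpace X]
variable {P : gm_Par X} {n : ℕ}

/-- the new points of level `n+1` are good midpoints. -/
theorem gm_mid_step (hP : gm_Hyp P) (h : gm_Lev P n) {j : ℕ} (hj : j < 2 ^ n) :
    gm_Mid P.m P.K P.N P.o (gm_Mn P n) (P.D / 2 ^ n) (gm_Rn P n) (gm_Lv P n j) (gm_Lv P n (j + 1))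
      (gm_Lv P (n + 1) (2 * j + 1)) := by
  rw [gm_Lv_odd]
  exact gm_mid_spec hP.std (h.bd j hj.le) (h.bd (j + 1) hj) (h.hd j hj) (div_nonneg hP.D0 (by positivity))

/-- **Y2**, one step. -/
theorem gm_lev_succ (hP : gm_Hyp P) (h : gm_Lev P n) : gm_Lev P (n + 1) := by
  have hpow : (2 : ℕ) ^ (n + 1) = 2 * 2 ^ n := by rw [pow_succ]; ring
  have hD : P.D / 2 ^ n / 2 = P.D / 2 ^ (n + 1) := by
    rw [pow_succ]; field_simp
  have h4 : ∀ a : ℝ≥0∞, (4 : ℝ≥0∞) ^ (n + 1) * a = 4 ^ n * (4 * a) := by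
    intro a; rw [pow_succ, mul_assoc]
  refine ⟨?_, ?_, ?_, ?_, ?_⟩
  · intro i hi
    rcases Nat.even_or_odd' i with ⟨j, rfl | rfl⟩
    · have hj : j ≤ 2 ^ n := by omega
      rw [gm_Lv_even]
      exact gm_bddDens_mono (h.bd j hj) (gm_Mn_le_succ hP.std.one_lt_N n) (gm_Rn_le_succ hP.D0 n)
    · have hj : j < 2 ^ n := by omega
      have hS := (gm_mid_step hP h hj).bd
      rw [gm_Rn_succ]
      exact hS
  · intro i hi
    rcases Nat.even_or_odd' i with ⟨j, rfl | rfl⟩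
    · have hj : j < 2 ^ n := by omega
      have hS := (gm_mid_step hP h hj).hl
      rw [gm_Lv_even, ← hD]
      exact hS
    · have hj : j < 2 ^ n := by omega
      have hS := (gm_mid_step hP h hj).hr
      have he : 2 * j + 1 + 1 = 2 * (j + 1) := by ring
      rw [he, gm_Lv_even, ← hD]
      exact hS
  · intro i hi
    rcases Nat.even_or_odd' i with ⟨j, rfl | rfl⟩
    · have hj : j < 2 ^ n := by omega
      have hS := (gm_mid_step hP h hj).wl
      rw [gm_Lv_even, h4]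
      exact (mul_le_mul_right hS _).trans (h.w j hj)
    · have hj : j < 2 ^ n := by omega
      have hS := (gm_mid_step hP h hj).wr
      have he : 2 * j + 1 + 1 = 2 * (j + 1) := by ring
      rw [he, gm_Lv_even, h4]
      exact (mul_le_mul_right hS _).trans (h.w j hj)
  · have := gm_Lv_even P n 0
    rw [mul_zero] at this
    rw [this, h.z]
  · rw [hpow, gm_Lv_even, h.e]

/-- **Y2** -/
theorem gm_lev (hP : gm_Hyp P) (n : ℕ) : gm_Lev P n := by
  induction n with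
  | zero => exact gm_lev_zero hP
  | succ n ih => exact gm_lev_succ hP ih

end Claimed.Agent.R210.GM.DyLevB
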