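/-
Row 210 (S0432), layer GM, block Y = GM4 (sub-architect helper224).   FILE DyEnt: the entropy chain along `gm_Lv P n 1`.     Definitions: GM/DyDefs.lean;  tools: DyLevB (`gm_lev`, `gm_mid_step`), TriInter.gm_W2sq_ne_top.
`gm_Lv_ent`.   `S := gm_mid_step hP (gm_lev hP n) (j := 0) (by positivity)` is a good midpoint statement for the pair `(gm_Lv P n 0, gm_Lv P n 1)` and the point `gm_Lv P (n+1) (2*0+1) = gm_Lv P (n+1) 1`;   `(gm_lev hP n).z : gm_Lv P n 0 = μ₀`.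
   `S.ent`:   `Ent (L (n+1) 1) ≤ Ent μ₀ / 2 + Ent (L n 1) / 2 - K/8 * W2sqR μ₀ (L n 1)`.
   `gm_W_first`:   `(gm_lev hP n).w 0 _ : 4^n * W2sq μ₀ (L n 1) ≤ W2sq μ₀ μ₁`, `W2sq μ₀ μ₁ ≠ ∞` (`gm_W2sq_ne_top hP.b0 hP.b1`); take `ENNReal.toReal` (`ENNReal.toReal_mono`, `ENNReal.toReal_mul`, `ENNReal.toReal_pow`):  `4^n * W2sqR μ₀ (L n 1) ≤ W2sqR μ₀ μ₁`, i.e. `W2sqR μ₀ (L n 1) ≤ (1/4)^n * W2sqR μ₀ μ₁`.
   `-K/8 > 0` (`hP.std.K_neg`) ⟹ the claim (`nlinarith` / `mul_le_mul_of_nonneg_left`).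
-/
import Claimed.Agent.R210.GM.DyLevB
import Claimed.Agent.R210.GM.TriInter

set_option autoImplicit false

open Claims.C0366 Claims.C0366.WeakHessian
open Set Filter MeasureTheory
open scoped ENNReal NNReal Topology

namespace Claimed.Agent.R210.GM.DyEnt

open Claimed.Agent.R210.Defs Claimed.Agent.R210.CO.Ifc Claimed.Agent.R210.GM.Defs Claimed.Agent.R210.GM.DyDefs
  Claimed.Agent.R210.GM.DyLevA Claimed.Agent.R210.GM.DyLevB Claimed.Agent.R210.GM.TriInter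

variable {X : Type*} [MetricSpace X] [MeasurableSpace X] [BorelSpace X]
  [CompleteSpace X] [TopologicalSpace.SeparableSpace X] [ProperSpace X]
variable {P : gm_Par X}

theorem gm_W_first (hP : gm_Hyp P) (n : ℕ) :
    W2sqR P.μ₀ (gm_Lv P n 1) ≤ (1 / 4 : ℝ) ^ n * W2sqR P.μ₀ P.μ₁ := by
  have hL := gm_lev hP n
  have hw := hL.w 0 (by positivity)
  rw [hL.z, zero_add] at hw
  have htop : W2sq P.μ₀ P.μ₁ ≠ ∞ := gm_W2sq_ne_top hP.b0 hP.b1
  have h1 := ENNReal.toReal_mono htop hw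
  rw [ENNReal.toReal_mul, ENNReal.toReal_pow] at h1
  have h4 : (4 : ℝ≥0∞).toReal = 4 := by norm_num
  rw [h4] at h1
  unfold W2sqR
  have hp : (0 : ℝ) < 4 ^ n := by positivity
  rw [one_div, inv_pow, ← div_eq_inv_mul, le_div_iff₀ hp, mul_comm]
  exact h1

theorem gm_Lv_ent (hP : gm_Hyp P) (n : ℕ) :
    Ent P.m (gm_Lv P (n + 1) 1) ≤ Ent P.m P.μ₀ / 2 + Ent P.m (gm_Lv P n 1) / 2
      - P.K / 8 * (1 / 4 : ℝ) ^ n * W2sqR P.μ₀ P.μ₁ := by
  have hL := gm_lev hP n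
  have S := gm_mid_step hP hL (j := 0) (by positivity)
  have hent := S.ent
  rw [hL.z] at hent
  simp only [mul_zero, zero_add] at hent
  have hW := gm_W_first hP n
  have hK : 0 ≤ -(P.K / 8) := by linarith [hP.std.K_neg]
  have h2 := mul_le_mul_of_nonneg_left hW hK
  nlinarith

end Claimed.Agent.R210.GM.DyEnt
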