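/-
Row 210 (S0432), layer GM, block Y = GM4 (sub-architect helper224).   FILE DyFam: Y3, the family `gm_fam P : Time → Measure X`.     Definitions: GM/DyDefs.lean, `li_dy n i = clampTime (i / 2^n)` (LI/Defs.lean);  tools: DyLevA.gm_Lv_even, LI/Dy.lean (`li_dy_coe`, `li_dy_zero`, `li_dy_zero_one`, usable even if still sorry), DyLevB.gm_lev.
* `gm_Lv_pow`:  induction on `k` with `gm_Lv_even`  (`2^(k+1) * i = 2 * (2^k * i)`, `n + (k+1) = (n+k) + 1`).
* `gm_Lv_wd`:   `li_dy_coe hi`, `li_dy_coe hi'` turn `h` into `(i:ℝ)/2^n = (i':ℝ)/2^n'`, hence `2^n' * i = 2^n * i'` in ℕ (`div_eq_div_iff`, `Nat.cast_injective`/`exact_mod_cast`).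
               `gm_Lv P n i = gm_Lv P (n+n') (2^n' * i) = gm_Lv P (n'+n) (2^n * i') = gm_Lv P n' i'`  (`gm_Lv_pow`, `Nat.add_comm`).
* `gm_fam_dy`: `unfold gm_fam`; the existential holds with `p = (n,i)`: `dif_pos`; `Classical.choose_spec` gives `p'` with `p'.2 ≤ 2^p'.1`, `li_dy p'.1 p'.2 = li_dy n i`; `gm_Lv_wd`.
* `gm_fam_zero`, `gm_fam_one`:  `timeZero = li_dy 0 0` (`li_dy_zero`), `timeOne = li_dy 0 1` (`li_dy_zero_one`), `gm_fam_dy`, `gm_Lv P 0 0 = μ₀`, `gm_Lv P 0 1 = μ₁` (`rfl`/`simp [gm_Lv]`).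
* `gm_fam_prob`: `unfold gm_fam`; `split_ifs`;  `((gm_lev hP _).bd _ (choose_spec ..).1).prob`  resp. `hP.b0.prob`.
-/
import Claimed.Agent.R210.GM.DyLevB
import Claimed.Agent.R210.LI.Dy

set_option autoImplicit false

open Claims.C0366 Claims.C0366.WeakHessian
open Set Filter MeasureTheory
open scoped ENNReal NNReal Topology

namespace Claimed.Agent.R210.GM.DyFam

open Claimed.Agent.R210.Defs Claimed.Agent.R210.CO.Ifc Claimed.Agent.R210.GM.Defs Claimed.Agent.R210.GM.DyDefs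
  Claimed.Agent.R210.GM.DyLevA Claimed.Agent.R210.GM.DyLevB Claimed.Agent.R210.LI.Defs Claimed.Agent.R210.LI.Dy

variable {X : Type*} [MetricSpace X] [MeasurableSpace X] [BorelSpace X]

theorem gm_Lv_pow (P : gm_Par X) (n k i : ℕ) : gm_Lv P (n + k) (2 ^ k * i) = gm_Lv P n i := by
  induction k with
  | zero => simp
  | succ k ih =>
    have e1 : 2 ^ (k + 1) * i = 2 * (2 ^ k * i) := by ring
    have e2 : n + (k + 1) = (n + k) + 1 := by ring
    rw [e1, e2, gm_Lv_even, ih]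

/-- the levels are consistent. -/
theorem gm_Lv_wd (P : gm_Par X) {n i n' i' : ℕ} (hi : i ≤ 2 ^ n) (hi' : i' ≤ 2 ^ n')
    (h : li_dy n i = li_dy n' i') : gm_Lv P n i = gm_Lv P n' i' := by
  have h1 : ((li_dy n i : Time) : ℝ) = ((li_dy n' i' : Time) : ℝ) := by rw [h]
  rw [li_dy_coe hi, li_dy_coe hi'] at h1
  have h2 : (i : ℝ) * 2 ^ n' = (i' : ℝ) * 2 ^ n := by
    rwa [div_eq_div_iff (by positivity) (by positivity)] at h1
  have h3 : 2 ^ n' * i = 2 ^ n * i' := by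
    have : ((2 ^ n' * i : ℕ) : ℝ) = ((2 ^ n * i' : ℕ) : ℝ) := by
      push_cast
      linarith
    exact_mod_cast this
  rw [← gm_Lv_pow P n n' i, ← gm_Lv_pow P n' n i', h3, Nat.add_comm]

/-- **Y3** -/
theorem gm_fam_dy (P : gm_Par X) {n i : ℕ} (hi : i ≤ 2 ^ n) : gm_fam P (li_dy n i) = gm_Lv P n i := by
  have h : ∃ p : ℕ × ℕ, p.2 ≤ 2 ^ p.1 ∧ li_dy p.1 p.2 = li_dy n i := ⟨(n, i), hi, rfl⟩
  unfold gm_fam
  rw [dif_pos h]
  exact gm_Lv_wd P (Classical.choose_spec h).1 hi (Classical.choose_spec h).2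

theorem gm_fam_zero (P : gm_Par X) : gm_fam P timeZero = P.μ₀ := by
  rw [← li_dy_zero 0, gm_fam_dy P (Nat.zero_le _)]
  simp [gm_Lv]

theorem gm_fam_one (P : gm_Par X) : gm_fam P timeOne = P.μ₁ := by
  rw [← li_dy_zero_one, gm_fam_dy P (by simp)]
  simp [gm_Lv]

theorem gm_fam_prob [CompleteSpace X] [TopologicalSpace.SeparableSpace X] [ProperSpace X] {P : gm_Par X}
    (hP : gm_Hyp P) (t : Time) : IsProbabilityMeasure (gm_fam P t) := by
  unfold gm_fam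
  split_ifs with h
  · exact ((gm_lev hP _).bd _ (Classical.choose_spec h).1).prob
  · exact hP.b0.prob

end Claimed.Agent.R210.GM.DyFam
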