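/-
Row 210 (S0432), layer GM, block Y = GM4 (sub-architect helper224).   FILE DyPlan: Y4 (glue), application of LI3 = `li_geodesic_plan` to the family `gm_fam P`.
-/
import Claimed.Agent.R210.GM.DyFam
import Claimed.Agent.R210.GM.TriInter
import Claimed.Agent.R210.LI.Ifc
import Claimed.Agent.R210.CD.Ifc

set_option autoImplicit false

open Claims.C0366 Claims.C0366.WeakHessian
open Set Filter MeasureTheory
open scoped ENNReal NNReal Topology

namespace Claimed.Agent.R210.GM.DyPlan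

open Claimed.Agent.R210.Defs Claimed.Agent.R210.CO.Ifc Claimed.Agent.R210.GM.Defs Claimed.Agent.R210.GM.DyDefs
  Claimed.Agent.R210.GM.DyLevA Claimed.Agent.R210.GM.DyLevB Claimed.Agent.R210.GM.DyFam Claimed.Agent.R210.GM.TriInter
  Claimed.Agent.R210.LI.Defs Claimed.Agent.R210.LI.Ifc Claimed.Agent.R210.CD.Ifc

variable {X : Type*} [MetricSpace X] [MeasurableSpace X] [BorelSpace X]
  [CompleteSpace X] [TopologicalSpace.SeparableSpace X] [ProperSpace X]
variable {P : gm_Par X}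

/-- **Y4** -/
theorem gm_plan (hP : gm_Hyp P) :
    ∃ π : Measure (Curve X), IsProbabilityMeasure π ∧ (∀ᵐ γ ∂π, IsGeodesic γ) ∧
      IsOptimalCoupling (endpointCoupling π) P.μ₀ P.μ₁ ∧
      ∀ n i : ℕ, i ≤ 2 ^ n → Measure.map (fun γ : Curve X => γ (li_dy n i)) π = gm_Lv P n i := by
  have hgeo : li_GeoSpace X := fun x y => cd_geodesic hP.std x y
  obtain ⟨π, h1, h2, h3, h4⟩ := li_geodesic_plan hgeo (gm_fam P) (gm_fam_prob hP)
    (by rw [gm_fam_zero, gm_fam_one]; exact gm_W2sq_ne_top hP.b0 hP.b1)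
    (by
      intro n i hi
      rw [gm_fam_zero, gm_fam_one, gm_fam_dy P hi.le, gm_fam_dy P hi]
      exact (gm_lev hP n).w i hi)
  rw [gm_fam_zero, gm_fam_one] at h3
  refine ⟨π, h1, h2, h3, fun n i hi => ?_⟩
  rw [h4 n i, gm_fam_dy P hi]

end Claimed.Agent.R210.GM.DyPlan
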