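/-
Row 210 (S0432), layer GM, block Y = GM4 (sub-architect helper224).   FILE DyTel: Y6c, telescoping of the entropy chain;  `gm_half n = li_dy n 1`.
* `gm_half_eq`:  `Subtype.ext`;  `li_dy_coe (n := n) (i := 1) Nat.one_le_two_pow`, `gm_half n` has value `(1/2)^n`;  `one_div_pow`, `Nat.cast_one`.
* `gm_telescope`:  prove by induction the stronger  `2^n (E n - e) ≤ E 0 - e - K/2 * W * (1 - (1/2)^n)`.
      Step:  `2^(n+1) (E (n+1) - e) ≤ 2^(n+1) (E n / 2 - e / 2 - K/8 (1/4)^n W) = 2^n (E n - e) - K/4 * (2^n (1/4)^n) W`,  `2^n (1/4)^n = (1/2)^n`,   and `K/2 W (1 - (1/2)^n) + K/4 (1/2)^n W = K/2 W (1 - (1/2)^(n+1))`.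
      Finally `-K/2 * W * (1 - (1/2)^n) ≤ -K/2 * W`  since `-K W ≥ 0`, `(1/2)^n ≥ 0`.
-/
import Claimed.Agent.R210.GM.DyDefs
import Claimed.Agent.R210.LI.Dy

set_option autoImplicit false

open Claims.C0366 Claims.C0366.WeakHessian
open Set Filter MeasureTheory
open scoped ENNReal NNReal Topology

namespace Claimed.Agent.R210.GM.DyTel

open Claimed.Agent.R210.Defs Claimed.Agent.R210.GM.Defs Claimed.Agent.R210.GM.DyDefs
  Claimed.Agent.R210.LI.Defs Claimed.Agent.R210.LI.Dy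

theorem gm_half_eq (n : ℕ) : gm_half n = li_dy n 1 := by
  apply Subtype.ext
  rw [li_dy_coe (n := n) (i := 1) Nat.one_le_two_pow]
  show (1 / 2 : ℝ) ^ n = ((1 : ℕ) : ℝ) / 2 ^ n
  rw [Nat.cast_one, one_div_pow]

/-- **Y6c** -/
theorem gm_telescope {E : ℕ → ℝ} {e K W : ℝ} (hK : K < 0) (hW : 0 ≤ W)
    (h : ∀ n, E (n + 1) ≤ e / 2 + E n / 2 - K / 8 * (1 / 4 : ℝ) ^ n * W) (n : ℕ) :
    (2 : ℝ) ^ n * (E n - e) ≤ E 0 - e - K / 2 * W := by
  have key : ∀ n : ℕ, (2 : ℝ) ^ n * (E n - e) ≤ E 0 - e - K / 2 * W * (1 - (1 / 2 : ℝ) ^ n) := by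
    intro n
    induction n with
    | zero => simp
    | succ n ih =>
      have h2 : (0 : ℝ) < 2 ^ (n + 1) := by positivity
      have h1 : (2 : ℝ) ^ (n + 1) * (E (n + 1) - e)
          ≤ (2 : ℝ) ^ (n + 1) * (e / 2 + E n / 2 - K / 8 * (1 / 4 : ℝ) ^ n * W - e) :=
        mul_le_mul_of_nonneg_left (by linarith [h n]) h2.le
      have e1 : (2 : ℝ) ^ n * (1 / 4 : ℝ) ^ n = (1 / 2 : ℝ) ^ n := by
        rw [← mul_pow]
        norm_num
      have e2 : (2 : ℝ) ^ (n + 1) * (e / 2 + E n / 2 - K / 8 * (1 / 4 : ℝ) ^ n * W - e)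
          = (2 : ℝ) ^ n * (E n - e) - K / 4 * ((2 : ℝ) ^ n * (1 / 4 : ℝ) ^ n) * W := by
        rw [pow_succ]
        ring
      rw [e2, e1] at h1
      have e3 : (1 / 2 : ℝ) ^ (n + 1) = (1 / 2 : ℝ) ^ n / 2 := by
        rw [pow_succ]
        ring
      rw [e3]
      linarith
  refine (key n).trans ?_
  have hp : (0 : ℝ) ≤ (1 / 2 : ℝ) ^ n := by positivity
  have hKW : 0 ≤ -K * W := mul_nonneg (by linarith) hW
  nlinarith [mul_nonneg hKW hp]

end Claimed.Agent.R210.GM.DyTel
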