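/-
Row 210 (S0432), layer GM, block Y = GM4 (sub-architect helper224).   FILE DyTrack: Y6a, the curves of the plan stay in `closedBall o (R + D)`.
   `endpointCoupling π = Measure.map (fun γ => (γ timeZero, γ timeOne)) π`,   `IsOptimalCoupling q μ₀ μ₁ = IsCoupling q μ₀ μ₁ ∧ ..`,  `IsCoupling q μ₀ μ₁ = (map Prod.fst q = μ₀ ∧ map Prod.snd q = μ₁)`,   `gm_HD μ₀ μ₁ D = ∀ q optimal, ∀ᵐ p ∂q, dist p.1 p.2 ≤ D`.
* (a) `hD _ hopt : ∀ᵐ p ∂(endpointCoupling π), dist p.1 p.2 ≤ D`;  `ae_map_iff` (the map is measurable: `(cu_measurable_eval _).prodMk (cu_measurable_eval _)`; the set is measurable: `measurableSet_le (by fun_prop) measurable_const`, second countability of `X` from `UniformSpace.secondCountable_of_separable`)  ⟹  `∀ᵐ γ ∂π, dist (γ 0) (γ 1) ≤ D`.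
* (b) `hopt.1.1 : map Prod.fst (endpointCoupling π) = μ₀`, `Measure.map_map` ⟹ `map (fun γ => γ timeZero) π = μ₀`;  `hc : μ₀ (closedBall o R)ᶜ = 0` ⟹ `∀ᵐ γ ∂π, dist (γ 0) o ≤ R`   (`Measure.map_apply`, `measure_zero_iff_ae_notMem`/`ae_iff`).
* (c) for a geodesic `γ` with (a), (b):  `dist (γ t) o ≤ dist (γ t) (γ 0) + dist (γ 0) o = |t - 0| * dist (γ 0) (γ 1) + .. ≤ 1 * D + R`   (`hγ t timeZero`, `t.2`, `timeZero` has value `0`).
* `gm_boundedTracks`:  `BoundedTracks π = ∃ o R', 0 < R' ∧ ∀ᵐ γ ∂π, ∀ t, dist (γ t) o ≤ R'`;   take `R' = |R + D| + 1`.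
-/
import Claimed.Agent.R210.GM.DyDefs
import Claimed.Agent.R210.CU.IfcBasic

set_option autoImplicit false

open Claims.C0366 Claims.C0366.WeakHessian
open Set Filter MeasureTheory
open scoped ENNReal NNReal Topology

namespace Claimed.Agent.R210.GM.DyTrack

open Claimed.Agent.R210.Defs Claimed.Agent.R210.GM.Defs Claimed.Agent.R210.GM.DyDefs Claimed.Agent.R210.CU.IfcBasic

variable {X : Type*} [MetricSpace X] [MeasurableSpace X] [BorelSpace X] [TopologicalSpace.SeparableSpace X]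
variable {μ₀ μ₁ : Measure X} {D R : ℝ} {o : X} {π : Measure (Curve X)}

/-- **Y6a** -/
theorem gm_tracks (hgeo : ∀ᵐ γ ∂π, IsGeodesic γ) (hopt : IsOptimalCoupling (endpointCoupling π) μ₀ μ₁)
    (hc : μ₀ (Metric.closedBall o R)ᶜ = 0) (hD : gm_HD μ₀ μ₁ D) :
    ∀ᵐ γ ∂π, ∀ t : Time, dist (γ t) o ≤ R + D := by
  have : SecondCountableTopology X := UniformSpace.secondCountable_of_separable X
  have hme : Measurable (fun γ : Curve X => (γ timeZero, γ timeOne)) := cu_measurable_endpoints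
  -- (a)
  have ha : ∀ᵐ γ ∂π, dist (γ timeZero) (γ timeOne) ≤ D := by
    have h1 : ∀ᵐ p ∂(Measure.map (fun γ : Curve X => (γ timeZero, γ timeOne)) π), dist p.1 p.2 ≤ D :=
      hD _ hopt
    have hs : MeasurableSet {p : X × X | dist p.1 p.2 ≤ D} :=
      measurableSet_le (by fun_prop) measurable_const
    exact (ae_map_iff hme.aemeasurable hs).1 h1
  -- (b)
  have hb : ∀ᵐ γ ∂π, dist (γ timeZero) o ≤ R := by
    have h1 : Measure.map (fun γ : Curve X => γ timeZero) π = μ₀ := by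
      have h2 : Measure.map Prod.fst (Measure.map (fun γ : Curve X => (γ timeZero, γ timeOne)) π) = μ₀ :=
        hopt.1.1
      rw [Measure.map_map measurable_fst hme] at h2
      exact h2
    have h3 : ∀ᵐ x ∂(Measure.map (fun γ : Curve X => γ timeZero) π), x ∈ Metric.closedBall o R := by
      rw [h1, ae_iff]
      exact hc
    have h4 := (ae_map_iff (cu_measurable_eval timeZero).aemeasurable
      (Metric.isClosed_closedBall (x := o) (ε := R)).measurableSet).1 h3
    filter_upwards [h4] with γ hγ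
    exact hγ
  filter_upwards [hgeo, ha, hb] with γ hγ h1 h2 t
  have h3 : dist (γ t) (γ timeZero) = |(t : ℝ) - (timeZero : Time)| * dist (γ timeZero) (γ timeOne) :=
    hγ t timeZero
  have h4 : |(t : ℝ) - ((timeZero : Time) : ℝ)| ≤ 1 := by
    have e : ((timeZero : Time) : ℝ) = 0 := rfl
    rw [e, sub_zero, abs_of_nonneg t.2.1]
    exact t.2.2
  have h5 : dist (γ t) (γ timeZero) ≤ D := by
    rw [h3]
    calc |(t : ℝ) - ((timeZero : Time) : ℝ)| * dist (γ timeZero) (γ timeOne)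
        ≤ 1 * dist (γ timeZero) (γ timeOne) := mul_le_mul_of_nonneg_right h4 dist_nonneg
      _ = dist (γ timeZero) (γ timeOne) := one_mul _
      _ ≤ D := h1
  calc dist (γ t) o ≤ dist (γ t) (γ timeZero) + dist (γ timeZero) o := dist_triangle _ _ _
    _ ≤ R + D := by linarith

theorem gm_boundedTracks (h : ∀ᵐ γ ∂π, ∀ t : Time, dist (γ t) o ≤ R + D) : BoundedTracks π := by
  refine ⟨o, |R + D| + 1, by positivity, ?_⟩
  filter_upwards [h] with γ hγ t
  exact (hγ t).trans (by linarith [le_abs_self (R + D)])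

end Claimed.Agent.R210.GM.DyTrack
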