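/-
Row 210 (S0432), layer GM, block GM4: geodesic test plans with bounded compression.      Glue (sub-architect helper224);  leaves: GM/Dy*.lean, map in GM/DyDefs.lean.
-/
import Claimed.Agent.R210.GM.Defs
import Claimed.Agent.R210.GM.DyPlan
import Claimed.Agent.R210.GM.DyEnt
import Claimed.Agent.R210.GM.DyConst
import Claimed.Agent.R210.GM.DyComp
import Claimed.Agent.R210.GM.DyTrack
import Claimed.Agent.R210.GM.DyTel

set_option autoImplicit false

open Claims.C0366 Claims.C0366.WeakHessian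
open Set Filter MeasureTheory
open scoped ENNReal NNReal Topology

namespace Claimed.Agent.R210.GM.Four

open Claimed.Agent.R210.Defs Claimed.Agent.R210.CO.Ifc Claimed.Agent.R210.GM.Defs
open Claimed.Agent.R210.GM.DyDefs Claimed.Agent.R210.GM.DyLevB Claimed.Agent.R210.GM.DyPlan Claimed.Agent.R210.GM.DyEnt
  Claimed.Agent.R210.GM.DyConst Claimed.Agent.R210.GM.DyComp Claimed.Agent.R210.GM.DyTrack Claimed.Agent.R210.GM.DyTel
  Claimed.Agent.R210.GM.UtilA Claimed.Agent.R210.LI.Defs Claimed.Agent.R210.LI.Dy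

variable {X : Type*} [MetricSpace X] [MeasurableSpace X] [BorelSpace X]
  [CompleteSpace X] [TopologicalSpace.SeparableSpace X] [ProperSpace X]
variable {m μ₀ μ₁ : Measure X} {K N D R : ℝ} {M₀ M₁ : ℝ≥0} {o : X}

/-- **GM4** -/
theorem gm_four (hS : Std m K N) (h0 : BddDens m μ₀ M₀ o R) (h1 : BddDens m μ₁ M₁ o R)
    (hD : gm_HD μ₀ μ₁ D) (hD0 : 0 ≤ D) :
    ∃ π : Measure (Curve X), GeoPlan m μ₀ μ₁ π (gm_cg K D (max M₀ M₁)) ∧
      (∀ᵐ γ ∂π, ∀ t : Time, dist (γ t) o ≤ R + D) ∧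
      (∀ n : ℕ, Ent m (interpolation π (gm_half (n + 1))) ≤
        Ent m μ₀ / 2 + Ent m (interpolation π (gm_half n)) / 2
          - K / 8 * (1 / 4 : ℝ) ^ n * W2sqR μ₀ μ₁) ∧
      (∀ n : ℕ, (2 : ℝ) ^ n * (Ent m (interpolation π (gm_half n)) - Ent m μ₀) ≤
        Ent m μ₁ - Ent m μ₀ - K / 2 * W2sqR μ₀ μ₁) := by
  let P : gm_Par X := ⟨m, K, N, o, max M₀ M₁, D, R, μ₀, μ₁⟩
  have hP : gm_Hyp P :=
    ⟨hS, gm_bddDens_mono h0 (le_max_left _ _) le_rfl, gm_bddDens_mono h1 (le_max_right _ _) le_rfl, hD, hD0⟩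
  obtain ⟨π, hπ, hgeo, hopt, hdy⟩ := gm_plan hP
  have htr : ∀ᵐ γ ∂π, ∀ t : Time, dist (γ t) o ≤ R + D := gm_tracks hgeo hopt h0.conc hD
  -- density bound at the dyadic times
  have hcd : ∀ n i : ℕ, Measure.map (fun γ : Curve X => γ (li_dy n i)) π
      ≤ ((gm_cg K D (max M₀ M₁) : ℝ≥0) : ℝ≥0∞) • m := by
    intro n i
    have key : ∀ j, j ≤ 2 ^ n → Measure.map (fun γ : Curve X => γ (li_dy n j)) π
        ≤ ((gm_cg K D (max M₀ M₁) : ℝ≥0) : ℝ≥0∞) • m := by
      intro j hj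
      rw [hdy n j hj]
      exact (gm_bddDens_mono ((gm_lev hP n).bd j hj) (gm_Mn_le_cg P hS.K_neg hS.one_lt_N n) le_rfl).le
    rcases le_total i (2 ^ n) with hi | hi
    · exact key i hi
    · rw [li_dy_top hi, ← li_dy_top (le_refl (2 ^ n))]
      exact key _ le_rfl
  -- the marginals at the times `2^{-n}`
  have hhalf : ∀ n, interpolation π (gm_half n) = gm_Lv P n 1 := by
    intro n
    rw [gm_half_eq]
    exact hdy n 1 Nat.one_le_two_pow
  have hchain : ∀ n : ℕ, Ent m (interpolation π (gm_half (n + 1))) ≤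
      Ent m μ₀ / 2 + Ent m (interpolation π (gm_half n)) / 2 - K / 8 * (1 / 4 : ℝ) ^ n * W2sqR μ₀ μ₁ := by
    intro n
    rw [hhalf, hhalf]
    exact gm_Lv_ent hP n
  refine ⟨π, ⟨hπ, gm_comp_all hS.finite π _ hcd, hgeo, gm_boundedTracks htr, hopt⟩, htr, hchain, ?_⟩
  intro n
  have h00 : Ent m (interpolation π (gm_half 0)) = Ent m μ₁ := by
    rw [hhalf]
    rfl
  have := gm_telescope (E := fun n => Ent m (interpolation π (gm_half n))) (e := Ent m μ₀) hS.K_neg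
    (ENNReal.toReal_nonneg : 0 ≤ W2sqR μ₀ μ₁) hchain n
  rw [h00] at this
  exact this

end Claimed.Agent.R210.GM.Four
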