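/-
Row 210 (S0432), layer GM (good intermediate points, geodesic test plans): INTERFACE.
Architect of the layer: helper666.  Consumers import this file only.

Setting: `Std m K N` (so `K < 0`), `X` proper.  `BddDens m μ M o R` as in `R210/Defs.lean`.
* `gm_HD μ₀ μ₁ D`  : every optimal coupling of `(μ₀, μ₁)` is concentrated on `{d ≤ D}`;
  `gm_HD_of_bddDens` : it holds with `D = 2R` if both measures live on `closedBall o R`.
* `gm_Tri μ₀ μ₁ ν s Λ` : `Λ` on triples `(x₀, z, x₁)`, marginals `μ₀, ν, μ₁`, optimal `(x₀,x₁)`-marginal,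
  `d(x₀,z) = s d(x₀,x₁)`, `d(z,x₁) = (1-s) d(x₀,x₁)` a.e.;  `gm_tri_isInter : gm_Tri → IsInter`,
  `gm_tri_HD_left/right`, `gm_tri_W2sq_left/right`.
* constants: `gm_cs K N s D M = M tau(1-s,D)^{-N}`, `gm_ch K N D M = M cosh(D k/2)^{N-1}`,
  `gm_cg K D M = M exp(-K D²/6)`; `gm_half n : Time` is the time `2^{-n}`.
* `gm_GM1`, `gm_GM1_half`, `gm_GM2`, `gm_GM3`, `gm_GM4`, `gm_GM5` : the contract.
-/
import Claimed.Agent.R210.GM.UtilA
import Claimed.Agent.R210.GM.UtilB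
import Claimed.Agent.R210.GM.TriInter
import Claimed.Agent.R210.GM.TriHD
import Claimed.Agent.R210.GM.One
import Claimed.Agent.R210.GM.Two
import Claimed.Agent.R210.GM.Four
import Claimed.Agent.R210.GM.Five

set_option autoImplicit false

open Claims.C0366 Claims.C0366.WeakHessian
open Set Filter MeasureTheory
open scoped ENNReal NNReal Topology

namespace Claimed.Agent.R210.GM.Ifc

open Claimed.Agent.R210.Defs Claimed.Agent.R210.CO.Ifc Claimed.Agent.R210.GM.Defs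

variable {X : Type*} [MetricSpace X] [MeasurableSpace X] [BorelSpace X]
  [CompleteSpace X] [TopologicalSpace.SeparableSpace X] [ProperSpace X]
variable {m μ μ₀ μ₁ ν : Measure X} {Λ : Measure (X × X × X)} {K N s D R : ℝ} {M M₀ M₁ : ℝ≥0} {o x : X}

/-- couplings of measures concentrated on one ball of radius `R` move points by at most `2R` -/
theorem gm_HD_two_mul (h0 : BddDens m μ₀ M₀ o R) (h1 : BddDens m μ₁ M₁ o R) :
    gm_HD μ₀ μ₁ (2 * R) := UtilA.gm_HD_of_bddDens h0 h1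

/-- `ρ log ρ` is integrable for a bounded density with bounded support -/
theorem gm_integrable_ent (hfin : FiniteOnBoundedSets m) (h : BddDens m μ M o R) :
    Integrable (fun x => rho m μ x * Real.log (rho m μ x)) m := UtilB.gm_ent_integrable hfin h

theorem gm_isInter (h : gm_Tri μ₀ μ₁ ν s Λ) (h0 : BddDens m μ₀ M₀ o R)
    (h1 : BddDens m μ₁ M₁ o R) (hs0 : 0 ≤ s) (hs1 : s ≤ 1) : IsInter μ₀ μ₁ ν s :=
  TriInter.gm_tri_isInter h h0 h1 hs0 hs1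

theorem gm_HD_left (h : gm_Tri μ₀ μ₁ ν s Λ) (h0 : BddDens m μ₀ M₀ o R)
    (h1 : BddDens m μ₁ M₁ o R) (hD : gm_HD μ₀ μ₁ D) (hs0 : 0 < s) (hs1 : s < 1) :
    gm_HD μ₀ ν (s * D) := TriHD.gm_tri_HD_left h h0 h1 hD hs0 hs1

theorem gm_HD_right (h : gm_Tri μ₀ μ₁ ν s Λ) (h0 : BddDens m μ₀ M₀ o R)
    (h1 : BddDens m μ₁ M₁ o R) (hD : gm_HD μ₀ μ₁ D) (hs0 : 0 < s) (hs1 : s < 1) :
    gm_HD ν μ₁ ((1 - s) * D) := TriHD.gm_tri_HD_right h h0 h1 hD hs0 hs1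

/-- **GM1**: an `s`-intermediate point with density `≤ M₀ / tau(1-s,D)^N`. -/
theorem gm_GM1 (hS : Std m K N) (h0 : BddDens m μ₀ M₀ o R) (h1 : BddDens m μ₁ M₁ o R)
    (hD : gm_HD μ₀ μ₁ D) (hD0 : 0 ≤ D) (hs0 : 0 < s) (hs1 : s < 1) :
    ∃ (ν : Measure X) (Λ : Measure (X × X × X)), gm_Tri μ₀ μ₁ ν s Λ ∧
      BddDens m ν (gm_cs K N s D M₀) o (R + s * D) :=
  One.gm_one hS h0 h1 hD hD0 hs0 hs1

/-- **GM1**, midpoints: density `≤ max(M₀,M₁) cosh(D k/2)^(N-1)`. -/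
theorem gm_GM1_half (hS : Std m K N) (h0 : BddDens m μ₀ M₀ o R) (h1 : BddDens m μ₁ M₁ o R)
    (hD : gm_HD μ₀ μ₁ D) (hD0 : 0 ≤ D) :
    ∃ (ν : Measure X) (Λ : Measure (X × X × X)), gm_Tri μ₀ μ₁ ν (1 / 2) Λ ∧
      BddDens m ν (gm_ch K N D (max M₀ M₁)) o (R + D / 2) :=
  One.gm_one_half hS h0 h1 hD hD0

/-- **GM2**: a midpoint with bounded density satisfying the `K`-convexity inequality of `Ent`. -/
theorem gm_GM2 (hS : Std m K N) (h0 : BddDens m μ₀ M₀ o R) (h1 : BddDens m μ₁ M₁ o R)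
    (hD : gm_HD μ₀ μ₁ D) (hD0 : 0 ≤ D) :
    ∃ (ν : Measure X) (Λ : Measure (X × X × X)), gm_Tri μ₀ μ₁ ν (1 / 2) Λ ∧
      BddDens m ν (gm_ch K N D (max M₀ M₁)) o (R + D / 2) ∧
      Ent m ν ≤ Ent m μ₀ / 2 + Ent m μ₁ / 2 - K / 8 * W2sqR μ₀ μ₁ :=
  Two.gm_two hS h0 h1 hD hD0

/-- **GM3**: an `s`-intermediate point with bounded density satisfying the (one sided) Renyi
inequality. -/
theorem gm_GM3 (hS : Std m K N) (h0 : BddDens m μ₀ M₀ o R) (h1 : BddDens m μ₁ M₁ o R)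
    (hD : gm_HD μ₀ μ₁ D) (hD0 : 0 ≤ D) (hs0 : 0 < s) (hs1 : s < 1) :
    ∃ (ν : Measure X) (Λ : Measure (X × X × X)), gm_Tri μ₀ μ₁ ν s Λ ∧
      BddDens m ν (gm_cs K N s D M₀) o (R + s * D) ∧
      ∃ q : Measure (X × X), IsOptimalCoupling q μ₀ μ₁ ∧
        ∫⁻ p, tauCoeff K N (1 - s) (dist p.1 p.2) * (μ₀.rnDeriv m p.1) ^ (-1 / N) ∂q
          ≤ renyiIntegral m ν N :=
  Two.gm_three hS h0 h1 hD hD0 hs0 hs1

/-- **GM4**: a geodesic test plan with compression constant `max(M₀,M₁) exp(-K D²/6)`, the entropy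
chain along the times `2^{-n}` and its consequence (bound of the difference quotients of `Ent`). -/
theorem gm_GM4 (hS : Std m K N) (h0 : BddDens m μ₀ M₀ o R) (h1 : BddDens m μ₁ M₁ o R)
    (hD : gm_HD μ₀ μ₁ D) (hD0 : 0 ≤ D) :
    ∃ π : Measure (Curve X), GeoPlan m μ₀ μ₁ π (gm_cg K D (max M₀ M₁)) ∧
      (∀ᵐ γ ∂π, ∀ t : Time, dist (γ t) o ≤ R + D) ∧
      (∀ n : ℕ, Ent m (interpolation π (gm_half (n + 1))) ≤
        Ent m μ₀ / 2 + Ent m (interpolation π (gm_half n)) / 2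
          - K / 8 * (1 / 4 : ℝ) ^ n * W2sqR μ₀ μ₁) ∧
      (∀ n : ℕ, (2 : ℝ) ^ n * (Ent m (interpolation π (gm_half n)) - Ent m μ₀) ≤
        Ent m μ₁ - Ent m μ₀ - K / 2 * W2sqR μ₀ μ₁) :=
  Four.gm_four hS h0 h1 hD hD0

/-- **GM5**: intermediate points towards the Dirac mass at `x`. -/
theorem gm_GM5 (hS : Std m K N) (h0 : BddDens m μ₀ M₀ x R) (hR : 0 < R)
    (hs0 : 0 < s) (hs1 : s < 1) :
    ∃ (ν : Measure X) (Λ : Measure (X × X)), IsCoupling Λ μ₀ ν ∧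
      (∀ᵐ p ∂Λ, dist p.1 p.2 = s * dist p.1 x ∧ dist p.2 x = (1 - s) * dist p.1 x) ∧
      BddDens m ν (gm_cs K N s (2 * R) M₀) x R ∧
      ∫⁻ y, tauCoeff K N (1 - s) (dist y x) * (μ₀.rnDeriv m y) ^ (1 - 1 / N) ∂m
        ≤ renyiIntegral m ν N :=
  Five.gm_five hS h0 hR hs0 hs1

end Claimed.Agent.R210.GM.Ifc
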